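import Mathlib
import Vale.Agent.P100.Defs
attribute [-instance] ProperSMul.toContinuousSMul IsTopologicalTorsor.toContinuousSMul IdemSemiring.toCanonicallyOrderedAdd IdemSemiring.toMulLeftMono IdemSemiring.toMulRightMono AddQuantale.instAddLeftMono AddQuantale.instAddRightMono Quantale.instMulLeftMono Quantale.instMulRightMono FiniteDimensional.rclike_to_real IsScalarTower.complexToReal FiniteDimensional.complexToReal

set_option linter.all false

section

section

open Set Filter Topology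

namespace Vale.Agent.P100

/-- Second derivative test (necessary condition at a local minimum). -/
lemma second_deriv_nonneg {f f1 : ℝ → ℝ} {f2 t : ℝ} (hf : ∀ᶠ s in 𝓝 t, HasDerivAt f (f1 s) s)
    (hf1 : HasDerivAt f1 f2 t) (hmin : IsLocalMin f t) : f1 t = 0 ∧ 0 ≤ f2 := by
  have h0 : f1 t = 0 := hmin.hasDerivAt_eq_zero hf.self_of_nhds
  refine ⟨h0, ?_⟩
  by_contra hneg
  push Not at hneg
  -- f1 s < 0 for s slightly larger than t
  have hlt : ∀ᶠ s in 𝓝[>] t, f1 s < 0 := by
    have hslope := hf1.tendsto_slope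
    have h2 : ∀ᶠ s in 𝓝[≠] t, slope f1 t s < 0 := hslope.eventually (gt_mem_nhds hneg)
    have h3 : ∀ᶠ s in 𝓝[>] t, slope f1 t s < 0 :=
      h2.filter_mono (nhdsWithin_mono t (fun s hs => ne_of_gt hs))
    filter_upwards [h3, self_mem_nhdsWithin] with s hs hst
    rw [slope_def_field, h0, sub_zero] at hs
    have : 0 < s - t := sub_pos.mpr hst
    by_contra hcon
    push Not at hcon
    exact absurd hs (not_lt.mpr (div_nonneg hcon this.le))
  have hfr : ∀ᶠ s in 𝓝[>] t, HasDerivAt f (f1 s) s := hf.filter_mono nhdsWithin_le_nhds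
  have hminr : ∀ᶠ s in 𝓝[>] t, f t ≤ f s := hmin.filter_mono nhdsWithin_le_nhds
  obtain ⟨b, hb, hall⟩ := mem_nhdsGT_iff_exists_Ioo_subset.mp ((hlt.and hfr).and hminr)
  have hb' : t < b := hb
  -- mean value theorem on [t, c]
  set c := (t + b) / 2 with hc
  have htc : t < c := by rw [hc]; linarith only [hb']
  have hcb : c < b := by rw [hc]; linarith only [hb']
  have hcont : ContinuousOn f (Icc t c) := by
    intro s hs
    rcases eq_or_lt_of_le hs.1 with h | h
    · rw [← h]; exact hf.self_of_nhds.continuousAt.continuousWithinAt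
    · have : s ∈ Ioo t b := ⟨h, lt_of_le_of_lt hs.2 hcb⟩
      exact (hall this).1.2.continuousAt.continuousWithinAt
  obtain ⟨x, hx, hxe⟩ := exists_hasDerivAt_eq_slope f f1 htc hcont
    (fun s hs => (hall ⟨hs.1, hs.2.trans hcb⟩).1.2)
  have h1 : f1 x < 0 := (hall ⟨hx.1, hx.2.trans hcb⟩).1.1
  have h2 : f t ≤ f c := (hall ⟨htc, hcb⟩).2
  rw [hxe] at h1
  have : 0 < c - t := sub_pos.mpr htc
  exact absurd h1 (not_lt.mpr (div_nonneg (sub_nonneg.mpr h2) this.le))

/-- Abstract comparison principle on a compact piece of a cylinder with a barrier depending only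
on the axial variable. -/
theorem comparison {K : Type*} [TopologicalSpace K] [CompactSpace K]
    {w w1 w2 : ℝ → K → ℝ} {h h1 h2 : ℝ → ℝ} {a b : ℝ}
    (hcont : ContinuousOn (fun x : ℝ × K => w x.1 x.2 - h x.1) (Icc a b ×ˢ (univ : Set K)))
    (hw : ∀ t ∈ Ioo a b, ∀ θ, HasDerivAt (fun s => w s θ) (w1 t θ) t)
    (hw1 : ∀ t ∈ Ioo a b, ∀ θ, HasDerivAt (fun s => w1 s θ) (w2 t θ) t)
    (hh : ∀ t ∈ Ioo a b, HasDerivAt h (h1 t) t)
    (hh1 : ∀ t ∈ Ioo a b, HasDerivAt h1 (h2 t) t)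
    (ha : ∀ θ, h a ≤ w a θ) (hb : ∀ θ, h b ≤ w b θ)
    (key : ∀ t ∈ Ioo a b, ∀ θ, w t θ < h t → w1 t θ = h1 t → h2 t ≤ w2 t θ →
      (∀ φ, w t θ ≤ w t φ) → False) :
    ∀ t ∈ Icc a b, ∀ θ, h t ≤ w t θ := by
  intro t ht θ
  have hcomp : IsCompact (Icc a b ×ˢ (univ : Set K)) := isCompact_Icc.prod isCompact_univ
  obtain ⟨⟨t', θ'⟩, hmem, hmin⟩ := hcomp.exists_isMinOn ⟨(t, θ), ht, mem_univ θ⟩ hcont
  have hmin' : ∀ s ∈ Icc a b, ∀ φ, w t' θ' - h t' ≤ w s φ - h s := fun s hs φ =>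
    hmin (show (s, φ) ∈ Icc a b ×ˢ (univ : Set K) from ⟨hs, mem_univ φ⟩)
  have ht' : t' ∈ Icc a b := hmem.1
  by_contra hcon
  push Not at hcon
  have hneg : w t' θ' - h t' < 0 := lt_of_le_of_lt (hmin' t ht θ) (by linarith)
  have hta : a ≠ t' := by
    rintro rfl
    have := ha θ'
    linarith only [hneg, this]
  have htb : t' ≠ b := by
    rintro rfl
    have := hb θ'
    linarith
  have hI : t' ∈ Ioo a b := ⟨lt_of_le_of_ne ht'.1 hta, lt_of_le_of_ne ht'.2 htb⟩
  have hnb : Ioo a b ∈ 𝓝 t' := Ioo_mem_nhds hI.1 hI.2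
  have hloc : IsLocalMin (fun s => w s θ' - h s) t' := by
    filter_upwards [hnb] with s hs
    exact hmin' s (Ioo_subset_Icc_self hs) θ'
  have hsec := second_deriv_nonneg (f := fun s => w s θ' - h s) (f1 := fun s => w1 s θ' - h1 s)
    (f2 := w2 t' θ' - h2 t') (t := t')
    (by filter_upwards [hnb] with s hs; exact (hw s hs θ').sub (hh s hs))
    ((hw1 t' hI θ').sub (hh1 t' hI)) hloc
  refine key t' hI θ' (by linarith only [hneg]) (by linarith only [hsec]) (by linarith only [hsec]) ?_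
  intro φ
  have := hmin' t' ht' φ
  linarith only [this]

end Vale.Agent.P100
end
end

section

section

open Set Filter Topology

namespace Vale.Agent.P100

/-- A function on the cylinder `ℝ × K` together with its first two axial derivatives and an
abstract `spherical Laplacian` `S` satisfying the minimum principle on each slice. -/
structure Cyl (K : Type*) [TopologicalSpace K] where
  f : ℝ → K → ℝ
  f1 : ℝ → K → ℝ
  f2 : ℝ → K → ℝ
  S : ℝ → K → ℝ
  hf : ∀ t θ, HasDerivAt (fun s => f s θ) (f1 t θ) t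
  hf1 : ∀ t θ, HasDerivAt (fun s => f1 s θ) (f2 t θ) t
  cf : Continuous (fun x : ℝ × K => f x.1 x.2)
  cf1 : Continuous (fun x : ℝ × K => f1 x.1 x.2)
  hS : ∀ k1 k2 t1 t2 θ, (∀ φ, k1 * f t1 θ + k2 * f t2 θ ≤ k1 * f t1 φ + k2 * f t2 φ) →
    0 ≤ k1 * S t1 θ + k2 * S t2 θ

variable {K : Type*} [TopologicalSpace K]

/-- Multiplication by `exp (a t)`. -/
noncomputable def Cyl.expMul (u : Cyl K) (a : ℝ) : Cyl K where
  f t θ := Real.exp (a * t) * u.f t θ
  f1 t θ := Real.exp (a * t) * (a * u.f t θ + u.f1 t θ)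
  f2 t θ := Real.exp (a * t) * (a ^ 2 * u.f t θ + 2 * a * u.f1 t θ + u.f2 t θ)
  S t θ := Real.exp (a * t) * u.S t θ
  hf t θ := by
    have he : HasDerivAt (fun s : ℝ => Real.exp (a * s)) (Real.exp (a * t) * (a * 1)) t :=
      ((hasDerivAt_id t).const_mul a).exp
    refine (he.fun_mul (u.hf t θ)).congr_deriv ?_
    ring
  hf1 t θ := by
    have he : HasDerivAt (fun s : ℝ => Real.exp (a * s)) (Real.exp (a * t) * (a * 1)) t :=
      ((hasDerivAt_id t).const_mul a).exp
    refine (he.fun_mul (((u.hf t θ).const_mul a).fun_add (u.hf1 t θ))).congr_deriv ?_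
    ring
  cf := (Real.continuous_exp.comp (by fun_prop)).mul u.cf
  cf1 := (Real.continuous_exp.comp (by fun_prop)).mul ((continuous_const.mul u.cf).add u.cf1)
  hS k1 k2 t1 t2 θ h := by
    have := u.hS (k1 * Real.exp (a * t1)) (k2 * Real.exp (a * t2)) t1 t2 θ (by
      intro φ
      have := h φ
      nlinarith [this])
    nlinarith [this]

/-- Subtraction of a constant. -/
noncomputable def Cyl.subConst (u : Cyl K) (c : ℝ) : Cyl K where
  f t θ := u.f t θ - c
  f1 := u.f1
  f2 := u.f2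
  S := u.S
  hf t θ := (u.hf t θ).sub_const c
  hf1 := u.hf1
  cf := u.cf.sub continuous_const
  cf1 := u.cf1
  hS k1 k2 t1 t2 θ h := u.hS k1 k2 t1 t2 θ (by
      intro φ
      have := h φ
      nlinarith [this])

lemma Cyl.hS1 (u : Cyl K) (t : ℝ) (θ : K) (h : ∀ φ, u.f t θ ≤ u.f t φ) : 0 ≤ u.S t θ := by
  have := u.hS 1 0 t t θ (by intro φ; have := h φ; linarith only [this])
  linarith

section bounds

variable [CompactSpace K]

/-- Positive superharmonic functions decay at most like the fundamental solution. -/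
theorem Cyl.lower_right (u : Cyl K) {N : ℝ} (hN : 0 < N)
    (hL : ∀ t θ, u.f2 t θ + N * u.f1 t θ + u.S t θ < 0) (hpos : ∀ t θ, 0 < u.f t θ)
    {t0 c : ℝ} (hc0 : 0 ≤ c) (hc : ∀ θ, c ≤ u.f t0 θ) :
    ∀ t, t0 ≤ t → ∀ θ, c * Real.exp (-N * (t - t0)) ≤ u.f t θ := by
  have main : ∀ T t, t0 ≤ t → t ≤ T → ∀ θ,
      c * (Real.exp (-N * (t - t0)) - Real.exp (-N * (T - t0))) ≤ u.f t θ := by
    intro T t ht hT θ
    refine comparison (w := u.f) (w1 := u.f1) (w2 := u.f2)
      (h := fun s => c * (Real.exp (-N * (s - t0)) - Real.exp (-N * (T - t0))))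
      (h1 := fun s => c * (-N * Real.exp (-N * (s - t0))))
      (h2 := fun s => c * (N ^ 2 * Real.exp (-N * (s - t0))))
      (a := t0) (b := T) ?_ ?_ ?_ ?_ ?_ ?_ ?_ ?_ t ⟨ht, hT⟩ θ
    · exact (u.cf.sub (by fun_prop)).continuousOn
    · intro t _ θ; exact u.hf t θ
    · intro t _ θ; exact u.hf1 t θ
    · intro t _
      have he : HasDerivAt (fun s : ℝ => Real.exp (-N * (s - t0)))
          (Real.exp (-N * (t - t0)) * (-N * 1)) t :=
        (((hasDerivAt_id t).sub_const t0).const_mul (-N)).exp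
      refine ((he.sub_const _).const_mul c).congr_deriv ?_
      ring
    · intro t _
      have he : HasDerivAt (fun s : ℝ => Real.exp (-N * (s - t0)))
          (Real.exp (-N * (t - t0)) * (-N * 1)) t :=
        (((hasDerivAt_id t).sub_const t0).const_mul (-N)).exp
      refine ((he.const_mul (-N)).const_mul c).congr_deriv ?_
      ring
    · intro θ
      have h1 : Real.exp (-N * (t0 - t0)) = 1 := by simp
      have h2 : 0 < Real.exp (-N * (T - t0)) := Real.exp_pos _
      show c * (Real.exp (-N * (t0 - t0)) - Real.exp (-N * (T - t0))) ≤ u.f t0 θ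
      rw [h1]
      nlinarith only [hc0, h2, hc θ]
    · intro θ
      simp only [sub_self, mul_zero]
      exact (hpos T θ).le
    · intro t _ θ _ h1 h2 hφ
      have h3 := u.hS1 t θ hφ
      have h4 := hL t θ
      rw [h1] at h4
      nlinarith only [h2, h3, h4]
  intro t ht θ
  have hlim : Tendsto (fun T : ℝ => c * (Real.exp (-N * (t - t0)) - Real.exp (-N * (T - t0))))
      atTop (𝓝 (c * (Real.exp (-N * (t - t0)) - 0))) := by
    refine (tendsto_const_nhds.sub ?_).const_mul c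
    refine Real.tendsto_exp_atBot.comp ?_
    have : Tendsto (fun T : ℝ => T - t0) atTop atTop := tendsto_atTop_add_const_right _ _ tendsto_id
    exact this.const_mul_atTop_of_neg (by linarith)
  rw [sub_zero] at hlim
  refine le_of_tendsto hlim ?_
  filter_upwards [eventually_ge_atTop t] with T hT
  exact main T t ht hT θ

/-- Minimum principle on a ball (cylinder version, `t → -∞` is the centre). -/
theorem Cyl.lower_left (u : Cyl K) {N : ℝ} (hN : 0 < N)
    (hL : ∀ t θ, u.f2 t θ + N * u.f1 t θ + u.S t θ < 0) (hpos : ∀ t θ, 0 < u.f t θ)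
    {t0 c : ℝ} (hc0 : 0 ≤ c) (hc : ∀ θ, c ≤ u.f t0 θ) :
    ∀ t, t ≤ t0 → ∀ θ, c ≤ u.f t θ := by
  have main : ∀ ε > 0, ∀ t, t ≤ t0 → ∀ θ,
      c - ε * (Real.exp (-N * (t - t0)) - 1) ≤ u.f t θ := by
    intro ε hε t ht θ
    -- choose T very negative
    have hlim : Tendsto (fun T : ℝ => ε * (Real.exp (-N * (T - t0)) - 1)) atBot atTop := by
      refine Tendsto.const_mul_atTop hε ?_
      refine tendsto_atTop_add_const_right _ _ ?_
      refine Real.tendsto_exp_atTop.comp ?_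
      have : Tendsto (fun T : ℝ => T - t0) atBot atBot :=
        tendsto_atBot_add_const_right _ _ tendsto_id
      exact this.const_mul_atBot_of_neg (by linarith only [hN])
    obtain ⟨T, hT1, hT2⟩ := ((hlim.eventually_ge_atTop c).and (eventually_le_atBot t)).exists
    refine comparison (w := u.f) (w1 := u.f1) (w2 := u.f2)
      (h := fun s => c - ε * (Real.exp (-N * (s - t0)) - 1))
      (h1 := fun s => - (ε * (-N * Real.exp (-N * (s - t0)))))
      (h2 := fun s => - (ε * (N ^ 2 * Real.exp (-N * (s - t0)))))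
      (a := T) (b := t0) ?_ ?_ ?_ ?_ ?_ ?_ ?_ ?_ t ⟨hT2, ht⟩ θ
    · exact (u.cf.sub (by fun_prop)).continuousOn
    · intro t _ θ; exact u.hf t θ
    · intro t _ θ; exact u.hf1 t θ
    · intro t _
      have he : HasDerivAt (fun s : ℝ => Real.exp (-N * (s - t0)))
          (Real.exp (-N * (t - t0)) * (-N * 1)) t :=
        (((hasDerivAt_id t).sub_const t0).const_mul (-N)).exp
      refine (((he.sub_const _).const_mul ε).const_sub c).congr_deriv ?_
      ring
    · intro t _
      have he : HasDerivAt (fun s : ℝ => Real.exp (-N * (s - t0)))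
          (Real.exp (-N * (t - t0)) * (-N * 1)) t :=
        (((hasDerivAt_id t).sub_const t0).const_mul (-N)).exp
      refine (((he.const_mul (-N)).const_mul ε).neg).congr_deriv ?_
      ring
    · intro θ
      show c - ε * (Real.exp (-N * (T - t0)) - 1) ≤ u.f T θ
      linarith [hpos T θ]
    · intro θ
      show c - ε * (Real.exp (-N * (t0 - t0)) - 1) ≤ u.f t0 θ
      simp only [sub_self, mul_zero, Real.exp_zero, sub_zero]
      exact hc θ
    · intro t _ θ _ h1 h2 hφ
      have h3 := u.hS1 t θ hφ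
      have h4 := hL t θ
      rw [h1] at h4
      nlinarith only [h2, h3, h4]
  intro t ht θ
  refine le_of_forall_pos_lt_add ?_
  intro η hη
  have hpos1 : 0 < |Real.exp (-N * (t - t0)) - 1| + 1 := by (clear * -; positivity)
  have := main (η / (2 * (|Real.exp (-N * (t - t0)) - 1| + 1))) (by (clear * - hη; positivity)) t ht θ
  have hle : η / (2 * (|Real.exp (-N * (t - t0)) - 1| + 1)) * (Real.exp (-N * (t - t0)) - 1)
      < η := by
    have h1 : Real.exp (-N * (t - t0)) - 1 ≤ |Real.exp (-N * (t - t0)) - 1| + 1 := by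
      linarith only [le_abs_self (Real.exp (-N * (t - t0)) - 1)]
    have h2 : η / (2 * (|Real.exp (-N * (t - t0)) - 1| + 1)) * (Real.exp (-N * (t - t0)) - 1)
        ≤ η / (2 * (|Real.exp (-N * (t - t0)) - 1| + 1)) *
          (|Real.exp (-N * (t - t0)) - 1| + 1) := by
      apply mul_le_mul_of_nonneg_left h1 (by (clear * - hη; positivity))
    have h3 : η / (2 * (|Real.exp (-N * (t - t0)) - 1| + 1)) *
          (|Real.exp (-N * (t - t0)) - 1| + 1) = η / 2 := by
      (clear * - hη; field_simp)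
    linarith only [hη, h2, h3]
  linarith

/-- Local lower bound from a source term. -/
theorem Cyl.local_lower (u : Cyl K) {N : ℝ} (hN : 0 ≤ N) {τ M : ℝ} (hM : 0 < M)
    (hL : ∀ t ∈ Ioo (τ - 1) (τ + 1), ∀ θ, u.f2 t θ + N * u.f1 t θ + u.S t θ ≤ -M)
    (hpos : ∀ t θ, 0 < u.f t θ) : ∀ θ, M / (4 * (1 + N)) ≤ u.f τ θ := by
  intro θ
  set k := M / (4 * (1 + N)) with hk
  have hk0 : 0 < k := by positivity
  have hkM : 4 * (1 + N) * k = M := by
    rw [hk]; field_simp
  have := comparison (w := u.f) (w1 := u.f1) (w2 := u.f2)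
      (h := fun s => k * (1 - (s - τ) ^ 2))
      (h1 := fun s => k * (-(2 * (s - τ))))
      (h2 := fun _ => k * (-2))
      (a := τ - 1) (b := τ + 1) ?_ ?_ ?_ ?_ ?_ ?_ ?_ ?_ τ ⟨by linarith only [], by linarith only []⟩ θ
  · simpa only [ge_iff_le, sub_self, ne_eq, OfNat.ofNat_ne_zero, not_false_eq_true, zero_pow, sub_zero,     mul_one] using this
  · exact (u.cf.sub (by fun_prop)).continuousOn
  · intro t _ θ; exact u.hf t θ
  · intro t _ θ; exact u.hf1 t θ
  · intro t _
    have he : HasDerivAt (fun s : ℝ => (s - τ) ^ 2) (2 * (t - τ)) t := by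
      have := ((hasDerivAt_id t).sub_const τ).fun_pow 2
      simpa only [id_eq, Nat.cast_ofNat, Nat.add_one_sub_one, pow_one, mul_one] using this
    exact (he.const_sub 1).const_mul k
  · intro t _
    have he : HasDerivAt (fun s : ℝ => (-(2 * (s - τ)))) (-(2 * 1)) t :=
      (((hasDerivAt_id t).sub_const τ).const_mul 2).neg
    refine (he.const_mul k).congr_deriv ?_
    ring
  · intro θ
    show k * (1 - (τ - 1 - τ) ^ 2) ≤ u.f (τ - 1) θ
    have : k * (1 - (τ - 1 - τ) ^ 2) = 0 := by ring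
    rw [this]; exact (hpos _ _).le
  · intro θ
    show k * (1 - (τ + 1 - τ) ^ 2) ≤ u.f (τ + 1) θ
    have : k * (1 - (τ + 1 - τ) ^ 2) = 0 := by ring
    rw [this]; exact (hpos _ _).le
  · intro t ht θ _ h1 h2 hφ
    have h3 := u.hS1 t θ hφ
    have h4 := hL t ht θ
    rw [h1] at h4
    have h5 : t - τ ≤ 1 := by linarith only [ht.2]
    have h6 : N * (k * (-(2 * (t - τ)))) ≥ - (2 * N * k) := by
      have : 0 ≤ N * k := by (clear * - hN hM; positivity)
      nlinarith only [h5, this]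
    nlinarith only [hM, hkM, h2, h3, h4, h6]

end bounds

end Vale.Agent.P100
end
end

section

section

open Set Filter Topology

namespace Vale.Agent.P100

/-- `Refl U lam` : the reflected function dominates on the left of `lam`. -/
def Refl {K : Type*} (U : ℝ → K → ℝ) (lam : ℝ) : Prop :=
  ∀ t, t < lam → ∀ θ, U t θ ≤ U (2 * lam - t) θ

lemma Refl.closed {K : Type*} [TopologicalSpace K] {U : ℝ → K → ℝ}
    (hU : Continuous (fun x : ℝ × K => U x.1 x.2)) {lam : ℝ}
    (h : ∀ μ < lam, Refl U μ) : Refl U lam := by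
  intro t ht θ
  have hc : Continuous (fun μ : ℝ => U (2 * μ - t) θ) :=
    hU.comp (Continuous.prodMk (by fun_prop) continuous_const)
  have hlim : Tendsto (fun μ : ℝ => U (2 * μ - t) θ) (𝓝[<] lam) (𝓝 (U (2 * lam - t) θ)) :=
    hc.continuousAt.continuousWithinAt
  refine ge_of_tendsto hlim ?_
  have : Ioo t lam ∈ 𝓝[<] lam := Ioo_mem_nhdsLT ht
  filter_upwards [this] with μ hμ
  exact h μ hμ.2 t hμ.1 θ

lemma Refl.deriv_nonneg {K : Type*} {U U1 : ℝ → K → ℝ}
    (hU : ∀ t θ, HasDerivAt (fun s => U s θ) (U1 t θ) t) {lam : ℝ}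
    (h : Refl U lam) (θ : K) : 0 ≤ U1 lam θ := by
  -- g t = U (2 lam - t) - U t has derivative -2 U1 at lam, and g ≥ 0 on the left, g lam = 0
  have hg : HasDerivAt (fun t => U (2 * lam - t) θ - U t θ) (U1 lam θ * (-1) - U1 lam θ) lam := by
    have h1 : HasDerivAt (fun t : ℝ => 2 * lam - t) (-1) lam := by
      simpa using (hasDerivAt_id lam).const_sub (2 * lam)
    have h2 : HasDerivAt (fun s => U s θ) (U1 lam θ) (2 * lam - lam) := by
      have : 2 * lam - lam = lam := by ring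
      rw [this]; exact hU lam θ
    exact (h2.comp lam h1).sub (hU lam θ)
  by_contra hneg
  push Not at hneg
  have hpos : 0 < U1 lam θ * (-1) - U1 lam θ := by linarith only [hneg]
  have hslope := hg.tendsto_slope
  have h2 : ∀ᶠ s in 𝓝[≠] lam, 0 < slope (fun t => U (2 * lam - t) θ - U t θ) lam s :=
    hslope.eventually (lt_mem_nhds hpos)
  have h3 : ∀ᶠ s in 𝓝[<] lam, 0 < slope (fun t => U (2 * lam - t) θ - U t θ) lam s :=
    h2.filter_mono (nhdsWithin_mono lam (fun s hs => ne_of_lt hs))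
  obtain ⟨s, hs, hslt⟩ := (h3.and self_mem_nhdsWithin).exists
  rw [slope_def_field] at hs
  have hd : s - lam < 0 := sub_neg.mpr hslt
  have e : U (2 * lam - lam) θ - U lam θ = 0 := by
    have : 2 * lam - lam = lam := by ring
    rw [this, sub_self]
  rw [e, sub_zero] at hs
  have := h s hslt θ
  exact absurd hs (not_lt.mpr (div_nonpos_of_nonneg_of_nonpos (by linarith only [this]) hd.le))

/-- One step of the moving plane method: going beyond `lam0` for one function. -/
lemma Refl.extend {K : Type*} [TopologicalSpace K] [CompactSpace K] {U U1 : ℝ → K → ℝ}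
    (hU : ∀ t θ, HasDerivAt (fun s => U s θ) (U1 t θ) t)
    (cU : Continuous (fun x : ℝ × K => U x.1 x.2))
    (cU1 : Continuous (fun x : ℝ × K => U1 x.1 x.2)) {lam0 : ℝ}
    (hstrict : ∀ t, t < lam0 → ∀ θ, U t θ < U (2 * lam0 - t) θ)
    (hder : ∀ θ, 0 < U1 lam0 θ)
    (hinf : ∃ T, ∀ lam ∈ Icc lam0 (lam0 + 1), ∀ t ≤ T, ∀ θ, U t θ ≤ U (2 * lam - t) θ) :
    ∃ ε > 0, ∀ μ, lam0 < μ → μ < lam0 + ε → Refl U μ := by
  obtain ⟨T, hT⟩ := hinf
  -- near region
  have hopen : IsOpen {x : ℝ × K | 0 < U1 x.1 x.2} := isOpen_lt continuous_const cU1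
  have hsub : ({lam0} : Set ℝ) ×ˢ (univ : Set K) ⊆ {x : ℝ × K | 0 < U1 x.1 x.2} := by
    rintro ⟨s, θ⟩ ⟨hs, -⟩
    have : s = lam0 := hs
    subst this
    exact hder θ
  obtain ⟨A, B, hA, hB, hsA, htB, hAB⟩ :=
    generalized_tube_lemma isCompact_singleton (isCompact_univ (X := K)) hopen hsub
  obtain ⟨δ, hδ, hball⟩ := Metric.isOpen_iff.mp hA lam0 (hsA rfl)
  have hpos : ∀ s, |s - lam0| < δ → ∀ θ, 0 < U1 s θ := by
    intro s hs θ
    exact hAB (show (s, θ) ∈ A ×ˢ B from ⟨hball (by rwa [Metric.mem_ball, Real.dist_eq]),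
      htB (mem_univ θ)⟩)
  -- middle region
  have hopen2 : IsOpen {x : ℝ × (ℝ × K) | U x.2.1 x.2.2 < U (2 * x.1 - x.2.1) x.2.2} := by
    apply isOpen_lt
    · exact cU.comp (by fun_prop)
    · exact cU.comp (Continuous.prodMk (by fun_prop) (by fun_prop))
  have hcomp2 : IsCompact (Icc T (lam0 - δ / 2) ×ˢ (univ : Set K)) :=
    isCompact_Icc.prod isCompact_univ
  have hsub2 : ({lam0} : Set ℝ) ×ˢ (Icc T (lam0 - δ / 2) ×ˢ (univ : Set K)) ⊆
      {x : ℝ × (ℝ × K) | U x.2.1 x.2.2 < U (2 * x.1 - x.2.1) x.2.2} := by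
    rintro ⟨s, t, θ⟩ ⟨hs, ht, -⟩
    have hs' : s = lam0 := hs
    subst hs'
    have ht' : t ≤ s - δ / 2 := ht.2
    exact hstrict t (by linarith only [hδ, ht']) θ
  obtain ⟨A2, B2, hA2, hB2, hsA2, htB2, hAB2⟩ :=
    generalized_tube_lemma isCompact_singleton hcomp2 hopen2 hsub2
  obtain ⟨δ2, hδ2, hball2⟩ := Metric.isOpen_iff.mp hA2 lam0 (hsA2 rfl)
  refine ⟨min (min (δ / 4) δ2) 1, by (clear * - hδ hδ2; positivity), ?_⟩
  intro μ hμ1 hμ2 t ht θ
  have hμδ : μ < lam0 + δ / 4 := lt_of_lt_of_le hμ2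
    (by linarith only [(min_le_left (min (δ / 4) δ2) 1).trans (min_le_left (δ / 4) δ2)])
  have hμδ2 : μ < lam0 + δ2 := lt_of_lt_of_le hμ2
    (by linarith only [(min_le_left (min (δ / 4) δ2) 1).trans (min_le_right (δ / 4) δ2)])
  have hμ1' : μ < lam0 + 1 := lt_of_lt_of_le hμ2 (by linarith only [min_le_right (min (δ / 4) δ2) 1])
  rcases le_or_gt t T with h1 | h1
  · exact hT μ ⟨hμ1.le, hμ1'.le⟩ t h1 θ
  rcases le_or_gt t (lam0 - δ / 2) with h2 | h2
  · have hm : ((μ, (t, θ)) : ℝ × (ℝ × K)) ∈ A2 ×ˢ B2 := by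
      refine ⟨hball2 ?_, htB2 ⟨⟨h1.le, h2⟩, mem_univ θ⟩⟩
      rw [Metric.mem_ball, Real.dist_eq, abs_lt]
      constructor <;> linarith only [hμ1, hμδ2]
    exact (hAB2 hm).le
  · -- both t and 2 μ - t in the near region: monotone there
    have hmono : StrictMonoOn (fun s => U s θ) (Ioo (lam0 - δ) (lam0 + δ)) := by
      apply strictMonoOn_of_deriv_pos (convex_Ioo _ _)
      · intro s _
        exact (hU s θ).continuousAt.continuousWithinAt
      · intro s hs
        rw [interior_Ioo] at hs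
        rw [(hU s θ).deriv]
        exact hpos s (by rw [abs_lt]; constructor <;> linarith only [hs.1, hs.2]) θ
    refine (hmono.monotoneOn) ⟨by linarith only [hμ1, hμδ, h2], by linarith only [hμ1, ht, hμδ]⟩ ⟨by linarith only [hμ1, ht, hμδ], by linarith only [hμδ, h2]⟩ (by linarith only [ht])

/-- The continuity argument of the method of moving planes, for a pair of functions. -/
theorem movingPlane {K : Type*} [TopologicalSpace K] [CompactSpace K]
    {U U1 V V1 : ℝ → K → ℝ}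
    (hU : ∀ t θ, HasDerivAt (fun s => U s θ) (U1 t θ) t)
    (hV : ∀ t θ, HasDerivAt (fun s => V s θ) (V1 t θ) t)
    (cU : Continuous (fun x : ℝ × K => U x.1 x.2))
    (cU1 : Continuous (fun x : ℝ × K => U1 x.1 x.2))
    (cV : Continuous (fun x : ℝ × K => V x.1 x.2))
    (cV1 : Continuous (fun x : ℝ × K => V1 x.1 x.2))
    (start : ∃ lam1, ∀ lam ≤ lam1, Refl U lam ∧ Refl V lam)
    (strict : ∀ lam, (∀ μ ≤ lam, Refl U μ ∧ Refl V μ) →
      (∀ t < lam, ∀ θ, U t θ < U (2 * lam - t) θ ∧ V t θ < V (2 * lam - t) θ) ∧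
      (∀ θ, 0 < U1 lam θ ∧ 0 < V1 lam θ))
    (inf : ∀ lam0, ∃ T, ∀ lam ∈ Icc lam0 (lam0 + 1), ∀ t ≤ T, ∀ θ,
      U t θ ≤ U (2 * lam - t) θ ∧ V t θ ≤ V (2 * lam - t) θ) :
    ∀ lam, Refl U lam ∧ Refl V lam := by
  set S : Set ℝ := {lam | ∀ μ ≤ lam, Refl U μ ∧ Refl V μ} with hS
  have hne : S.Nonempty := by
    obtain ⟨l, hl⟩ := start
    exact ⟨l, hl⟩
  have hnb : ¬ BddAbove S := by
    intro hb
    set lam0 := sSup S with hlam0
    have hlt : ∀ μ < lam0, Refl U μ ∧ Refl V μ := by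
      intro μ hμ
      obtain ⟨s, hs, hμs⟩ := exists_lt_of_lt_csSup hne hμ
      exact hs μ hμs.le
    have hle : ∀ μ ≤ lam0, Refl U μ ∧ Refl V μ := by
      intro μ hμ
      rcases lt_or_eq_of_le hμ with h | h
      · exact hlt μ h
      · rw [h]
        exact ⟨Refl.closed cU (fun μ hμ => (hlt μ hμ).1), Refl.closed cV (fun μ hμ => (hlt μ hμ).2)⟩
    obtain ⟨hs1, hs2⟩ := strict lam0 hle
    obtain ⟨T, hT⟩ := inf lam0
    obtain ⟨ε1, hε1, h1⟩ := Refl.extend hU cU cU1 (fun t ht θ => (hs1 t ht θ).1)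
      (fun θ => (hs2 θ).1) ⟨T, fun lam hlam t ht θ => (hT lam hlam t ht θ).1⟩
    obtain ⟨ε2, hε2, h2⟩ := Refl.extend hV cV cV1 (fun t ht θ => (hs1 t ht θ).2)
      (fun θ => (hs2 θ).2) ⟨T, fun lam hlam t ht θ => (hT lam hlam t ht θ).2⟩
    have hmem : lam0 + min ε1 ε2 / 2 ∈ S := by
      intro μ hμ
      have hε : 0 < min ε1 ε2 := lt_min hε1 hε2
      rcases le_or_gt μ lam0 with h | h
      · exact hle μ h
      · exact ⟨h1 μ h (by linarith only [hμ, h, min_le_left ε1 ε2]), h2 μ h (by linarith only [hμ, h, min_le_right ε1 ε2])⟩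
    have := le_csSup hb hmem
    have hε : 0 < min ε1 ε2 := lt_min hε1 hε2
    linarith only [this, hε]
  intro lam
  rw [not_bddAbove_iff] at hnb
  obtain ⟨s, hs, hlt⟩ := hnb lam
  exact hs lam hlt.le

end Vale.Agent.P100
end
end

section

section

open Set Filter Topology

namespace Vale.Agent.P100

variable {K : Type*} [TopologicalSpace K]

/-- `E`-quantity: right-hand side of the equation for the difference `U (2 lam - t) - U t`
with drift `d`. -/
def Eqty (U : Cyl K) (F : ℝ → K → ℝ) (δ d lam t : ℝ) (θ : K) : ℝ :=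
  F (2 * lam - t) θ - F t θ - δ * (U.f1 (2 * lam - t) θ - U.f1 t θ)
    + d * (U.f1 (2 * lam - t) θ + U.f1 t θ)

lemma refl_hasDeriv (U : Cyl K) (lam t : ℝ) (θ : K) :
    HasDerivAt (fun s => U.f (2 * lam - s) θ - U.f s θ)
      (-U.f1 (2 * lam - t) θ - U.f1 t θ) t := by
  have h1 : HasDerivAt (fun t : ℝ => 2 * lam - t) (-1) t := by
    simpa using (hasDerivAt_id t).const_sub (2 * lam)
  have := ((U.hf (2 * lam - t) θ).comp t h1).fun_sub (U.hf t θ)
  refine this.congr_deriv ?_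
  ring

lemma refl_hasDeriv1 (U : Cyl K) (lam t : ℝ) (θ : K) :
    HasDerivAt (fun s => -U.f1 (2 * lam - s) θ - U.f1 s θ)
      (U.f2 (2 * lam - t) θ - U.f2 t θ) t := by
  have h1 : HasDerivAt (fun t : ℝ => 2 * lam - t) (-1) t := by
    simpa using (hasDerivAt_id t).const_sub (2 * lam)
  have := ((U.hf1 (2 * lam - t) θ).comp t h1).fun_neg.fun_sub (U.hf1 t θ)
  refine this.congr_deriv ?_
  ring

/-- The equation satisfied by `w = U (2 lam - t) - U t`. -/
lemma refl_equation (U : Cyl K) {F : ℝ → K → ℝ} {δ ν : ℝ}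
    (eq : ∀ t θ, U.f2 t θ - δ * U.f1 t θ - ν * U.f t θ + U.S t θ = - F t θ)
    (d lam t : ℝ) (θ : K) :
    (U.f2 (2 * lam - t) θ - U.f2 t θ) + d * (-U.f1 (2 * lam - t) θ - U.f1 t θ)
      - ν * (U.f (2 * lam - t) θ - U.f t θ) + (U.S (2 * lam - t) θ - U.S t θ)
      = - Eqty U F δ d lam t θ := by
  have h1 := eq (2 * lam - t) θ
  have h2 := eq t θ
  unfold Eqty
  linarith

/-- Strict interior inequality from strict sign of the right-hand side. -/
lemma strict_interior (U : Cyl K) {F : ℝ → K → ℝ} {δ ν d lam : ℝ}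
    (eq : ∀ t θ, U.f2 t θ - δ * U.f1 t θ - ν * U.f t θ + U.S t θ = - F t θ)
    (hR : Refl U.f lam) (hE : ∀ t < lam, ∀ θ, 0 < Eqty U F δ d lam t θ) :
    ∀ t < lam, ∀ θ, U.f t θ < U.f (2 * lam - t) θ := by
  intro t ht θ
  rcases lt_or_eq_of_le (hR t ht θ) with h | h
  · exact h
  exfalso
  have hmin : IsLocalMin (fun s => U.f (2 * lam - s) θ - U.f s θ) t := by
    filter_upwards [Iio_mem_nhds ht] with s hs
    have := hR s hs θ
    show U.f (2 * lam - t) θ - U.f t θ ≤ U.f (2 * lam - s) θ - U.f s θ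
    linarith only [h, this]
  obtain ⟨h1, h2⟩ := second_deriv_nonneg
    (f := fun s => U.f (2 * lam - s) θ - U.f s θ)
    (f1 := fun s => -U.f1 (2 * lam - s) θ - U.f1 s θ)
    (Eventually.of_forall (fun s => refl_hasDeriv U lam s θ)) (refl_hasDeriv1 U lam t θ) hmin
  have h3 : 0 ≤ 1 * U.S (2 * lam - t) θ + (-1) * U.S t θ := by
    apply U.hS
    intro φ
    have := hR t ht φ
    linarith only [h, this]
  have h4 := refl_equation U eq d lam t θ
  have h5 := hE t ht θ
  rw [h1] at h4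
  rw [← h] at h4
  nlinarith only [h2, h3, h4, h5]

/-- Hopf lemma at the reflection plane. -/
lemma hopf [CompactSpace K] [Nonempty K] (U : Cyl K) {F : ℝ → K → ℝ} {δ ν d lam : ℝ} (hν : 0 ≤ ν)
    (eq : ∀ t θ, U.f2 t θ - δ * U.f1 t θ - ν * U.f t θ + U.S t θ = - F t θ)
    (hstr : ∀ t < lam, ∀ θ, U.f t θ < U.f (2 * lam - t) θ)
    (hE : ∀ t < lam, ∀ θ, 0 ≤ Eqty U F δ d lam t θ) :
    ∀ θ, 0 < U.f1 lam θ := by
  -- lower bound for w on the slice `lam - 1`
  have cw : Continuous (fun x : ℝ × K => U.f (2 * lam - x.1) x.2 - U.f x.1 x.2) :=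
    (U.cf.comp (Continuous.prodMk (by fun_prop) continuous_snd)).sub U.cf
  have cs : Continuous (fun θ : K => U.f (2 * lam - (lam - 1)) θ - U.f (lam - 1) θ) :=
    cw.comp (Continuous.prodMk continuous_const continuous_id)
  obtain ⟨θ0, -, hθ0⟩ := isCompact_univ.exists_isMinOn (univ_nonempty (α := K)) cs.continuousOn
  set m := U.f (2 * lam - (lam - 1)) θ0 - U.f (lam - 1) θ0 with hm
  have hm0 : 0 < m := by
    have := hstr (lam - 1) (by linarith only []) θ0
    rw [hm]; linarith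
  set k := |d| + ν + 1 with hk
  have hk1 : 1 ≤ k := by
    have := abs_nonneg d
    linarith
  set ε := m / Real.exp k with hε
  have hε0 : 0 < ε := by (clear * - hm0; positivity)
  have hcomp := comparison (w := fun t θ => U.f (2 * lam - t) θ - U.f t θ)
      (w1 := fun t θ => -U.f1 (2 * lam - t) θ - U.f1 t θ)
      (w2 := fun t θ => U.f2 (2 * lam - t) θ - U.f2 t θ)
      (h := fun s => ε * (Real.exp (k * (lam - s)) - 1))
      (h1 := fun s => ε * (-k * Real.exp (k * (lam - s))))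
      (h2 := fun s => ε * (k ^ 2 * Real.exp (k * (lam - s))))
      (a := lam - 1) (b := lam) ?_ ?_ ?_ ?_ ?_ ?_ ?_ ?_
  · intro θ
    -- derivative at lam
    by_contra hneg
    push Not at hneg
    have hd := refl_hasDeriv U lam lam θ
    have e2 : 2 * lam - lam = lam := by ring
    rw [e2] at hd
    have hbd : HasDerivAt (fun s => ε * (Real.exp (k * (lam - s)) - 1)) (ε * (-k)) lam := by
      have he : HasDerivAt (fun s : ℝ => Real.exp (k * (lam - s)))
          (Real.exp (k * (lam - lam)) * (k * (-1))) lam :=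
        (((hasDerivAt_id lam).const_sub lam).const_mul k).exp
      refine ((he.sub_const 1).const_mul ε).congr_deriv ?_
      simp
    have hdiff := hd.fun_sub hbd
    have hpos : 0 < (-U.f1 lam θ - U.f1 lam θ) - ε * (-k) := by
      have : 0 < ε * k := by (clear * - hm0 hν; positivity)
      nlinarith only [hneg, this]
    have hslope := hdiff.tendsto_slope
    have h2 := hslope.eventually (lt_mem_nhds hpos)
    have h3 : ∀ᶠ s in 𝓝[<] lam, 0 < slope (fun s => U.f (2 * lam - s) θ - U.f s θ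
        - ε * (Real.exp (k * (lam - s)) - 1)) lam s :=
      h2.filter_mono (nhdsWithin_mono lam (fun s hs => ne_of_lt hs))
    have h4 : Ioo (lam - 1) lam ∈ 𝓝[<] lam := Ioo_mem_nhdsLT (by linarith only [])
    obtain ⟨s, hs, hs2⟩ := (h3.and h4).exists
    rw [slope_def_field] at hs
    have hd' : s - lam < 0 := by linarith only [hs2]
    have hc := hcomp s (Ioo_subset_Icc_self hs2) θ
    have e3 : ε * (Real.exp (k * (lam - lam)) - 1) = 0 := by simp
    have e4 : U.f (2 * lam - lam) θ - U.f lam θ = 0 := by rw [e2]; ring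
    simp only [e3, e4, sub_zero] at hs
    exact absurd hs (not_lt.mpr (div_nonpos_of_nonneg_of_nonpos (by linarith only [hc]) hd'.le))
  · exact (cw.sub (by fun_prop)).continuousOn
  · intro t _ θ; exact refl_hasDeriv U lam t θ
  · intro t _ θ; exact refl_hasDeriv1 U lam t θ
  · intro t _
    have he : HasDerivAt (fun s : ℝ => Real.exp (k * (lam - s)))
        (Real.exp (k * (lam - t)) * (k * (-1))) t :=
      (((hasDerivAt_id t).const_sub lam).const_mul k).exp
    refine ((he.sub_const 1).const_mul ε).congr_deriv ?_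
    ring
  · intro t _
    have he : HasDerivAt (fun s : ℝ => Real.exp (k * (lam - s)))
        (Real.exp (k * (lam - t)) * (k * (-1))) t :=
      (((hasDerivAt_id t).const_sub lam).const_mul k).exp
    refine ((he.const_mul (-k)).const_mul ε).congr_deriv ?_
    ring
  · intro θ
    have h1 : m ≤ U.f (2 * lam - (lam - 1)) θ - U.f (lam - 1) θ := hθ0 (mem_univ θ)
    have h2 : ε * (Real.exp (k * (lam - (lam - 1))) - 1) ≤ m := by
      have e : k * (lam - (lam - 1)) = k := by ring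
      rw [e]
      have : ε * Real.exp k = m := by rw [hε]; (clear * - hm0; field_simp)
      nlinarith only [hε0, this]
    exact h2.trans h1
  · intro θ
    simp [two_mul]
  · intro t ht θ hlt h1 h2 hφ
    have h3 : 0 ≤ 1 * U.S (2 * lam - t) θ + (-1) * U.S t θ := by
      apply U.hS
      intro φ
      have := hφ φ
      linarith only [this]
    have h4 := refl_equation U eq d lam t θ
    have h5 := hE t ht.2 θ
    rw [h1] at h4
    have hexp : 0 < Real.exp (k * (lam - t)) := Real.exp_pos _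
    have hkk : 0 < k ^ 2 - d * k - ν := by
      have h6 : d * k ≤ |d| * k := mul_le_mul_of_nonneg_right (le_abs_self d) (by linarith only [hk1])
      have h7 : ν ≤ ν * k := by nlinarith only [hν, hk1]
      have h8 : k ^ 2 = |d| * k + ν * k + k := by rw [hk]; ring
      nlinarith only [hk1, h6, h7]
    have h9 : 0 < ε * ((k ^ 2 - d * k - ν) * Real.exp (k * (lam - t))) := by (clear * - hm0 hkk; positivity)
    have h10 : ν * (U.f (2 * lam - t) θ - U.f t θ) ≤
        ν * (ε * (Real.exp (k * (lam - t)) - 1)) := mul_le_mul_of_nonneg_left hlt.le hν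
    have h11 : 0 ≤ ε * ν := by (clear * - hm0 hν; positivity)
    nlinarith only [h2, h3, h4, h5, h9, h10, h11]

end Vale.Agent.P100
end
end

section

section

open Set Filter Topology

namespace Vale.Agent.P100

variable {K : Type*} [TopologicalSpace K]

/-- Comparison of the far behaviour: `c e^{-m(2 lam - t)} ≥ C e^{a t}` when
`(m-a) t ≥ log (C/c) + 2 m lam`. -/
lemma exp_compare {c C a m lam t : ℝ} (hc : 0 < c) (hC : 0 < C)
    (h : Real.log C - Real.log c + 2 * m * lam ≤ (m - a) * t) :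
    C * Real.exp (a * t) ≤ c * Real.exp (-m * (2 * lam - t)) := by
  have h1 : C * Real.exp (a * t) = Real.exp (Real.log C + a * t) := by
    rw [Real.exp_add, Real.exp_log hC]
  have h2 : c * Real.exp (-m * (2 * lam - t)) = Real.exp (Real.log c + -m * (2 * lam - t)) := by
    rw [Real.exp_add, Real.exp_log hc]
  rw [h1, h2, Real.exp_le_exp]
  linarith only [h]

/-- The moving plane method can be started. -/
lemma start_one (U : Cyl K) {a m c C T : ℝ} (ha : 0 < a) (hma : m < a) (hc : 0 < c) (hC : 0 < C)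
    (hup : ∀ t ≤ T, ∀ θ, U.f t θ ≤ C * Real.exp (a * t))
    (hinc : ∀ t ≤ T, ∀ θ, 0 < U.f1 t θ)
    (hlow : ∀ t, T ≤ t → ∀ θ, c * Real.exp (-m * t) ≤ U.f t θ) :
    ∃ lam1, ∀ lam ≤ lam1, Refl U.f lam := by
  -- lam1 small enough
  refine ⟨min T (-(Real.log C - Real.log c + (m - a) * T) / (2 * a)), ?_⟩
  intro lam hlam t ht θ
  have hlT : lam ≤ T := hlam.trans (min_le_left _ _)
  have hl2 : lam ≤ -(Real.log C - Real.log c + (m - a) * T) / (2 * a) := hlam.trans (min_le_right _ _)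
  rcases le_or_gt (2 * lam - t) T with h | h
  · have hmono : StrictMonoOn (fun s => U.f s θ) (Iic T) := by
      apply strictMonoOn_of_deriv_pos (convex_Iic _)
      · intro s _
        exact (U.hf s θ).continuousAt.continuousWithinAt
      · intro s hs
        rw [interior_Iic] at hs
        rw [(U.hf s θ).deriv]
        exact hinc s (le_of_lt hs) θ
    exact hmono.monotoneOn (show t ∈ Iic T from by simp only [mem_Iic]; linarith only [ht, h]) h (by linarith only [ht])
  · refine (hup t (by linarith only [ht, hlT]) θ).trans (le_trans ?_ (hlow _ h.le θ))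
    apply exp_compare hc hC
    -- t < 2 lam - T
    have h1 : (m - a) * (2 * lam - T) ≤ (m - a) * t := by
      apply mul_le_mul_of_nonpos_left (by linarith only [h]) (by linarith only [hma])
    have h2 : lam * (2 * a) ≤ -(Real.log C - Real.log c + (m - a) * T) := by
      rwa [le_div_iff₀ (by positivity)] at hl2
    nlinarith only [h1, h2]

/-- Uniform behaviour at the far end. -/
lemma inf_one (U : Cyl K) {a m c C T : ℝ} (hma : m < a) (hc : 0 < c) (hC : 0 < C)
    (hup : ∀ t ≤ T, ∀ θ, U.f t θ ≤ C * Real.exp (a * t))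
    (hlow : ∀ t, T ≤ t → ∀ θ, c * Real.exp (-m * t) ≤ U.f t θ) (lam0 : ℝ) :
    ∃ T', ∀ lam ∈ Icc lam0 (lam0 + 1), ∀ t ≤ T', ∀ θ, U.f t θ ≤ U.f (2 * lam - t) θ := by
  have hpos : 0 < a - m := by linarith only [hma]
  refine ⟨min (min T (2 * lam0 - T))
    (-(Real.log C - Real.log c + 2 * |m| * (|lam0| + 1)) / (a - m)), ?_⟩
  intro lam hlam t ht θ
  have h1 : t ≤ T := ht.trans ((min_le_left _ _).trans (min_le_left _ _))
  have h2 : t ≤ 2 * lam0 - T := ht.trans ((min_le_left _ _).trans (min_le_right _ _))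
  have h3 := ht.trans (min_le_right _ _)
  refine (hup t h1 θ).trans (le_trans ?_ (hlow _ (by linarith only [h2, hlam.1]) θ))
  apply exp_compare hc hC
  rw [le_div_iff₀ hpos] at h3
  have h4 : m * lam ≤ |m| * (|lam0| + 1) := by
    calc m * lam ≤ |m * lam| := le_abs_self _
      _ = |m| * |lam| := abs_mul _ _
      _ ≤ |m| * (|lam0| + 1) := by
        apply mul_le_mul_of_nonneg_left _ (abs_nonneg m)
        have h5 := abs_le.mp (le_refl |lam0|)
        rw [abs_le]
        constructor <;> linarith only [h5, hlam.1, hlam.2]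
  nlinarith only [h3, h4]

/-- Lower bound for the axial derivative by comparison (one-sided interior gradient estimate):
`u` is `ε`-close to the constant `u0` on `[τ-1, τ+1]` and the source is at most `M` there. -/
lemma deriv_lower [CompactSpace K] (u : Cyl K) {N : ℝ} (hN : 0 ≤ N) {τ u0 ε M : ℝ} (hε : 0 < ε)
    (hM : 0 ≤ M)
    (hclose : ∀ t ∈ Icc (τ - 1) (τ + 1), ∀ θ, |u.f t θ - u0| ≤ ε)
    (hsrc : ∀ t ∈ Icc (τ - 1) (τ + 1), ∀ θ, |u.f2 t θ + N * u.f1 t θ + u.S t θ| ≤ M) :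
    ∀ θ, -(N / 2 * ε + Real.exp (N / 2) * (2 * ε + M)) ≤ u.f1 τ θ := by
  set W : Cyl K := (u.subConst u0).expMul (N / 2) with hW
  have hWf : ∀ t θ, W.f t θ = Real.exp (N / 2 * t) * (u.f t θ - u0) := fun _ _ => rfl
  have hWf1 : ∀ t θ, W.f1 t θ = Real.exp (N / 2 * t) * (N / 2 * (u.f t θ - u0) + u.f1 t θ) :=
    fun _ _ => rfl
  have hWeq : ∀ t θ, W.f2 t θ - (N / 2) ^ 2 * W.f t θ + W.S t θ =
      Real.exp (N / 2 * t) * (u.f2 t θ + N * u.f1 t θ + u.S t θ) := by
    intro t θ
    show Real.exp (N / 2 * t) * ((N / 2) ^ 2 * (u.f t θ - u0) + 2 * (N / 2) * u.f1 t θ + u.f2 t θ)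
      - (N / 2) ^ 2 * (Real.exp (N / 2 * t) * (u.f t θ - u0)) + Real.exp (N / 2 * t) * u.S t θ = _
    ring
  intro θ
  set E := Real.exp (N / 2 * (τ + 1)) with hE
  have hE0 : 0 < E := Real.exp_pos _
  have hexp : ∀ t ≤ τ + 1, Real.exp (N / 2 * t) ≤ E := by
    intro t ht
    rw [hE, Real.exp_le_exp]
    nlinarith only [hN, ht]
  have hWb : ∀ t ∈ Icc (τ - 1) (τ + 1), ∀ θ, |W.f t θ| ≤ E * ε := by
    intro t ht θ
    rw [hWf, abs_mul, abs_of_pos (Real.exp_pos _)]
    exact mul_le_mul (hexp t ht.2) (hclose t ht θ) (abs_nonneg _) hE0.le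
  have hSb : ∀ t ∈ Icc (τ - 1) (τ + 1), ∀ θ,
      |W.f2 t θ - (N / 2) ^ 2 * W.f t θ + W.S t θ| ≤ E * M := by
    intro t ht θ
    rw [hWeq, abs_mul, abs_of_pos (Real.exp_pos _)]
    exact mul_le_mul (hexp t ht.2) (hsrc t ht θ) (abs_nonneg _) hE0.le
  -- comparison for φ t = (W (τ+t) - W (τ-t)) / 2 with h t = -(E ε) t - (E (M+ε)/2) t (1-t)
  set M0 := E * ε with hM0
  set M1 := E * (M + ε) with hM1
  have d1 : ∀ t θ, HasDerivAt (fun s => W.f (τ + s) θ) (W.f1 (τ + t) θ) t := by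
    intro t θ
    have h1 : HasDerivAt (fun s : ℝ => τ + s) 1 t := by
      simpa using (hasDerivAt_id t).const_add τ
    exact ((W.hf (τ + t) θ).comp t h1).congr_deriv (by ring)
  have d2 : ∀ t θ, HasDerivAt (fun s => W.f (τ - s) θ) (-W.f1 (τ - t) θ) t := by
    intro t θ
    have h1 : HasDerivAt (fun s : ℝ => τ - s) (-1) t := by
      simpa using (hasDerivAt_id t).const_sub τ
    exact ((W.hf (τ - t) θ).comp t h1).congr_deriv (by ring)
  have d3 : ∀ t θ, HasDerivAt (fun s => W.f1 (τ + s) θ) (W.f2 (τ + t) θ) t := by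
    intro t θ
    have h1 : HasDerivAt (fun s : ℝ => τ + s) 1 t := by
      simpa using (hasDerivAt_id t).const_add τ
    exact ((W.hf1 (τ + t) θ).comp t h1).congr_deriv (by ring)
  have d4 : ∀ t θ, HasDerivAt (fun s => W.f1 (τ - s) θ) (-W.f2 (τ - t) θ) t := by
    intro t θ
    have h1 : HasDerivAt (fun s : ℝ => τ - s) (-1) t := by
      simpa using (hasDerivAt_id t).const_sub τ
    exact ((W.hf1 (τ - t) θ).comp t h1).congr_deriv (by ring)
  have hcomp := comparison (w := fun t θ => (W.f (τ + t) θ - W.f (τ - t) θ) / 2)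
      (w1 := fun t θ => (W.f1 (τ + t) θ + W.f1 (τ - t) θ) / 2)
      (w2 := fun t θ => (W.f2 (τ + t) θ - W.f2 (τ - t) θ) / 2)
      (h := fun s => -M0 * s - M1 / 2 * (s * (1 - s)))
      (h1 := fun s => -M0 - M1 / 2 * (1 - 2 * s))
      (h2 := fun _ => M1)
      (a := 0) (b := 1) ?_ ?_ ?_ ?_ ?_ ?_ ?_ ?_
  · -- conclusion
    have hder : HasDerivAt (fun t => (W.f (τ + t) θ - W.f (τ - t) θ) / 2 -
        (-M0 * t - M1 / 2 * (t * (1 - t)))) (W.f1 τ θ + M0 + M1 / 2) 0 := by
      have e1 := d1 0 θ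
      have e2 := d2 0 θ
      have e3 : HasDerivAt (fun t : ℝ => -M0 * t - M1 / 2 * (t * (1 - t)))
          (-M0 * 1 - M1 / 2 * (1 * (1 - 0) + 0 * (0 - 1))) 0 := by
        refine ((hasDerivAt_id 0).const_mul (-M0)).fun_sub (HasDerivAt.const_mul (M1 / 2) ?_)
        have := (hasDerivAt_id (0:ℝ)).fun_mul ((hasDerivAt_const (0:ℝ) (1:ℝ)).fun_sub (hasDerivAt_id (0:ℝ)))
        simpa only [sub_zero, mul_one, zero_sub, mul_neg, neg_zero, add_zero, id_eq] using this
      refine (((e1.fun_sub e2).div_const 2).fun_sub e3).congr_deriv ?_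
      simp only [add_zero, sub_zero]
      ring
    have hval : 0 ≤ W.f1 τ θ + M0 + M1 / 2 := by
      by_contra hneg
      push Not at hneg
      have h2 := hder.tendsto_slope.eventually (gt_mem_nhds hneg)
      have h3 : ∀ᶠ s in 𝓝[>] (0:ℝ), slope (fun t => (W.f (τ + t) θ - W.f (τ - t) θ) / 2 -
        (-M0 * t - M1 / 2 * (t * (1 - t)))) 0 s < 0 :=
        h2.filter_mono (nhdsWithin_mono 0 (fun s hs => ne_of_gt hs))
      have h4 : Ioo (0:ℝ) 1 ∈ 𝓝[>] (0:ℝ) := Ioo_mem_nhdsGT (by norm_num)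
      obtain ⟨s, hs, hs2⟩ := (h3.and h4).exists
      rw [slope_def_field] at hs
      have hc := hcomp s (Ioo_subset_Icc_self hs2) θ
      simp only [add_zero, sub_zero, sub_self, zero_mul, mul_zero, zero_div] at hs
      exact absurd hs (not_lt.mpr (div_nonneg (by linarith only [hc]) hs2.1.le))
    rw [hWf1] at hval
    have hE2 : Real.exp (N / 2 * τ) * Real.exp (N / 2) = E := by
      rw [hE, ← Real.exp_add]; congr 1; ring
    have hcl := hclose τ ⟨by linarith only [], by linarith only []⟩ θ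
    have hpos : 0 < Real.exp (N / 2 * τ) := Real.exp_pos _
    have h5 : 0 ≤ Real.exp (N / 2 * τ) * ((N / 2 * (u.f τ θ - u0) + u.f1 τ θ)
        + Real.exp (N / 2) * (ε + (M + ε) / 2)) := by
      have : Real.exp (N / 2 * τ) * ((N / 2 * (u.f τ θ - u0) + u.f1 τ θ)
        + Real.exp (N / 2) * (ε + (M + ε) / 2)) =
        Real.exp (N / 2 * τ) * (N / 2 * (u.f τ θ - u0) + u.f1 τ θ) + M0 + M1 / 2 := by
        rw [hM0, hM1, ← hE2]; ring
      rw [this]; exact hval
    have h6 := (mul_nonneg_iff_of_pos_left hpos).mp h5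
    have h7 : N / 2 * (u.f τ θ - u0) ≤ N / 2 * ε :=
      mul_le_mul_of_nonneg_left ((le_abs_self _).trans hcl) (by linarith only [hN])
    have h8 : Real.exp (N / 2) * (ε + (M + ε) / 2) ≤ Real.exp (N / 2) * (2 * ε + M) :=
      mul_le_mul_of_nonneg_left (by linarith only [hε, hM]) (Real.exp_pos _).le
    linarith only [h6, h7, h8]
  · refine ContinuousOn.sub (Continuous.continuousOn ?_) (Continuous.continuousOn (by fun_prop))
    exact ((W.cf.comp (Continuous.prodMk (by fun_prop) continuous_snd)).sub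
      (W.cf.comp (Continuous.prodMk (by fun_prop) continuous_snd))).div_const 2
  · intro t _ θ
    refine (((d1 t θ).fun_sub (d2 t θ)).div_const 2).congr_deriv ?_
    ring
  · intro t _ θ
    refine (((d3 t θ).fun_add (d4 t θ)).div_const 2).congr_deriv ?_
    ring
  · intro t _
    have := (hasDerivAt_id t).fun_mul ((hasDerivAt_const t (1:ℝ)).fun_sub (hasDerivAt_id t))
    refine (((hasDerivAt_id t).const_mul (-M0)).fun_sub (this.const_mul (M1 / 2))).congr_deriv ?_
    simp only [id]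
    ring
  · intro t _
    have := (((hasDerivAt_id t).const_mul 2).const_sub 1).const_mul (M1 / 2)
    refine (this.const_sub (-M0)).congr_deriv ?_
    ring
  · intro θ
    simp
  · intro θ
    have h1 := abs_le.mp (hWb (τ + 1) ⟨by linarith only [], le_refl _⟩ θ)
    have h2 := abs_le.mp (hWb (τ - 1) ⟨le_refl _, by linarith only []⟩ θ)
    simp only [sub_self, mul_zero, mul_one, sub_zero]
    linarith only [h1, h2]
  · intro t ht θ hlt h1 h2 hφ
    have h3 : 0 ≤ (1 / 2) * W.S (τ + t) θ + (-1 / 2) * W.S (τ - t) θ := by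
      apply W.hS
      intro φ
      have := hφ φ
      linarith only [this]
    have h4 := abs_le.mp (hSb (τ + t) ⟨by linarith only [ht.1], by linarith only [ht.2]⟩ θ)
    have h5 := abs_le.mp (hSb (τ - t) ⟨by linarith only [ht.2], by linarith only [ht.1]⟩ θ)
    have hM1pos : 0 < E * ε := by positivity
    have h6 : -M0 * t - M1 / 2 * (t * (1 - t)) ≤ 0 := by
      have : 0 ≤ M0 * t := mul_nonneg hM1pos.le ht.1.le
      have h7 : 0 ≤ M1 / 2 * (t * (1 - t)) := by
        have : 0 ≤ M1 := by rw [hM1]; (clear * - hM hε; positivity)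
        have := ht.1; have := ht.2
        have : 0 ≤ t * (1 - t) := mul_nonneg ht.1.le (by linarith only [this])
        (clear u hN u0 hclose hsrc W hW hWf hWf1 hWeq hE hE0 hexp hSb hWb hM0 d1 d2 d3 d4 θ hlt h1 h2 hφ h3 h4 h5 this; positivity)
      linarith only [this, h7]
    have h7 : (N / 2) ^ 2 * ((W.f (τ + t) θ - W.f (τ - t) θ) / 2) ≤ 0 :=
      mul_nonpos_of_nonneg_of_nonpos (by (clear * -; positivity)) (by linarith only [hlt, h6])
    have h8 : M1 = E * M + E * ε := by rw [hM1]; ring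
    nlinarith only [h2, h3, h4, h5, hM1pos, h7]

end Vale.Agent.P100
end
end

section

section

open Set Filter Topology

namespace Vale.Agent.P100

variable {K : Type*} [TopologicalSpace K]

/-- Positive entire solutions in cylinder form (`N = n - 2`). -/
structure Sol (K : Type*) [TopologicalSpace K] (N p q A B : ℝ) where
  u : Cyl K
  v : Cyl K
  hu : ∀ t θ, 0 < u.f t θ
  hv : ∀ t θ, 0 < v.f t θ
  eu : ∀ t θ, u.f2 t θ + N * u.f1 t θ + u.S t θ = -(Real.exp ((2 + A) * t) * v.f t θ ^ p)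
  ev : ∀ t θ, v.f2 t θ + N * v.f1 t θ + v.S t θ = -(Real.exp ((2 + B) * t) * u.f t θ ^ q)
  u0 : ℝ
  v0 : ℝ
  hu0 : 0 < u0
  hv0 : 0 < v0
  lu : ∀ ε > 0, ∃ T, ∀ t ≤ T, ∀ θ, |u.f t θ - u0| ≤ ε
  lv : ∀ ε > 0, ∃ T, ∀ t ≤ T, ∀ θ, |v.f t θ - v0| ≤ ε

namespace Sol

variable {N p q A B : ℝ}

/-- Exchange the roles of `u` and `v`. -/
def swap (s : Sol K N p q A B) : Sol K N q p B A where
  u := s.v
  v := s.u
  hu := s.hv
  hv := s.hu
  eu := s.ev
  ev := s.eu
  u0 := s.v0
  v0 := s.u0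
  hu0 := s.hv0
  hv0 := s.hu0
  lu := s.lv
  lv := s.lu

lemma sup_u (s : Sol K N p q A B) (t : ℝ) (θ : K) :
    s.u.f2 t θ + N * s.u.f1 t θ + s.u.S t θ < 0 := by
  rw [s.eu]
  have := Real.exp_pos ((2 + A) * t)
  have := Real.rpow_pos_of_pos (s.hv t θ) p
  have : 0 < Real.exp ((2 + A) * t) * s.v.f t θ ^ p := by positivity
  linarith only [this]

/-- `m_u(τ) ≥ C e^{(2+A)τ} m_v(τ)^p`. -/
lemma star [CompactSpace K] (s : Sol K N p q A B) (hN : 0 < N) (hp : 0 < p) {τ c : ℝ} (hc : 0 < c)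
    (h : ∀ θ, c ≤ s.v.f τ θ) : ∀ θ,
    Real.exp (-|2 + A| - N * p) / (4 * (1 + N)) * (Real.exp ((2 + A) * τ) * c ^ p) ≤ s.u.f τ θ := by
  have hl := s.v.lower_left hN s.swap.sup_u s.hv hc.le h
  have hr := s.v.lower_right hN s.swap.sup_u s.hv hc.le h
  have hv : ∀ t ∈ Ioo (τ - 1) (τ + 1), ∀ θ, c * Real.exp (-N) ≤ s.v.f t θ := by
    intro t ht θ
    rcases le_total t τ with h1 | h1
    · refine le_trans ?_ (hl t h1 θ)
      have : Real.exp (-N) ≤ 1 := Real.exp_le_one_iff.mpr (by linarith only [hN])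
      nlinarith only [hc, this]
    · refine le_trans ?_ (hr t h1 θ)
      apply mul_le_mul_of_nonneg_left _ hc.le
      rw [Real.exp_le_exp]
      nlinarith only [hN, ht.2]
  intro θ
  have := s.u.local_lower hN.le (τ := τ)
    (M := Real.exp (-|2 + A| - N * p) * (Real.exp ((2 + A) * τ) * c ^ p)) (by positivity) ?_ s.hu θ
  · calc _ = Real.exp (-|2 + A| - N * p) * (Real.exp ((2 + A) * τ) * c ^ p) / (4 * (1 + N)) := by
          ring
      _ ≤ _ := this
  · intro t ht θ
    rw [s.eu, neg_le_neg_iff]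
    have h1 : (c * Real.exp (-N)) ^ p ≤ s.v.f t θ ^ p :=
      Real.rpow_le_rpow (by positivity) (hv t ht θ) hp.le
    have h2 : (c * Real.exp (-N)) ^ p = c ^ p * Real.exp (-N * p) := by
      rw [Real.mul_rpow hc.le (Real.exp_pos _).le, ← Real.exp_mul]
    have h3 : Real.exp ((2 + A) * τ - |2 + A|) ≤ Real.exp ((2 + A) * t) := by
      rw [Real.exp_le_exp]
      have h4 : (2 + A) * (τ - t) ≤ |2 + A| * |τ - t| := by
        rw [← abs_mul]; exact le_abs_self _
      have h5 : |τ - t| ≤ 1 := by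
        rw [abs_le]; constructor <;> linarith [ht.1, ht.2]
      nlinarith only [h4, h5, abs_nonneg (2 + A)]
    calc Real.exp (-|2 + A| - N * p) * (Real.exp ((2 + A) * τ) * c ^ p)
        = Real.exp ((2 + A) * τ - |2 + A|) * (c ^ p * Real.exp (-N * p)) := by
          rw [show Real.exp (-|2 + A| - N * p) * (Real.exp ((2 + A) * τ) * c ^ p)
            = (Real.exp (-|2 + A| - N * p) * Real.exp ((2 + A) * τ)) * c ^ p by ring,
            show Real.exp ((2 + A) * τ - |2 + A|) * (c ^ p * Real.exp (-N * p))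
            = (Real.exp ((2 + A) * τ - |2 + A|) * Real.exp (-N * p)) * c ^ p by ring,
            ← Real.exp_add, ← Real.exp_add]
          congr 2
          ring
      _ ≤ Real.exp ((2 + A) * t) * s.v.f t θ ^ p := by
          rw [← h2]
          exact mul_le_mul h3 h1 (by positivity) (Real.exp_pos _).le

/-- Existence of the minimum on a slice, in exponential form. -/
lemma exists_min [CompactSpace K] [Nonempty K] (s : Sol K N p q A B) (τ : ℝ) :
    ∃ x : ℝ, (∀ θ, Real.exp x ≤ s.u.f τ θ) ∧ ∃ θ, s.u.f τ θ = Real.exp x := by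
  have cs : Continuous (fun θ : K => s.u.f τ θ) :=
    s.u.cf.comp (Continuous.prodMk continuous_const continuous_id)
  obtain ⟨θ0, -, hθ0⟩ := isCompact_univ.exists_isMinOn (univ_nonempty (α := K)) cs.continuousOn
  refine ⟨Real.log (s.u.f τ θ0), ?_, θ0, ?_⟩
  · intro θ
    rw [Real.exp_log (s.hu τ θ0)]
    exact hθ0 (mem_univ θ)
  · rw [Real.exp_log (s.hu τ θ0)]

/-- The scaling inequality for the logarithm of the minimum. -/
lemma scaling [CompactSpace K] [Nonempty K] (s : Sol K N p q A B) (hN : 0 < N) (hp : 0 < p)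
    (hq : 0 < q) : ∃ C : ℝ, ∀ τ : ℝ, ∃ x : ℝ, (∀ θ, Real.exp x ≤ s.u.f τ θ) ∧
      (∃ θ, s.u.f τ θ = Real.exp x) ∧ C + (2 + A + p * (2 + B)) * τ ≤ (1 - p * q) * x := by
  set L1 := Real.log (Real.exp (-|2 + A| - N * p) / (4 * (1 + N))) with hL1
  set L2 := Real.log (Real.exp (-|2 + B| - N * q) / (4 * (1 + N))) with hL2
  have e1 : Real.exp L1 = Real.exp (-|2 + A| - N * p) / (4 * (1 + N)) := Real.exp_log (by positivity)
  have e2 : Real.exp L2 = Real.exp (-|2 + B| - N * q) / (4 * (1 + N)) := Real.exp_log (by positivity)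
  refine ⟨L1 + p * L2, ?_⟩
  intro τ
  obtain ⟨x, hx1, θx, hx2⟩ := s.exists_min τ
  obtain ⟨y, hy1, θy, hy2⟩ := s.swap.exists_min τ
  refine ⟨x, hx1, ⟨θx, hx2⟩, ?_⟩
  have h1 := s.star hN hp (Real.exp_pos y) hy1 θx
  have h2 := s.swap.star hN hq (Real.exp_pos x) hx1 θy
  rw [hx2, ← e1, ← Real.exp_mul, ← Real.exp_add, ← Real.exp_add, Real.exp_le_exp] at h1
  have hy2' : s.swap.u.f τ θy = Real.exp y := hy2
  rw [hy2', ← e2, ← Real.exp_mul, ← Real.exp_add, ← Real.exp_add, Real.exp_le_exp] at h2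
  have h3 : p * (L2 + ((2 + B) * τ + x * q)) ≤ p * y := mul_le_mul_of_nonneg_left h2 hp.le
  nlinarith only [h1, h3]

/-- No solution if `p q ≤ 1` (and the weights are not too singular). -/
theorem false_of_sublinear [CompactSpace K] [Nonempty K] (s : Sol K N p q A B) (hN : 0 < N)
    (hp : 0 < p) (hq : 0 < q) (hpq : p * q ≤ 1) (hA : 0 < 2 + A + p * (2 + B)) : False := by
  obtain ⟨C, hC⟩ := s.scaling hN hp hq
  obtain ⟨θ0⟩ := ‹Nonempty K›
  set X := Real.log (s.u.f 0 θ0) with hX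
  have key : ∀ τ, 0 ≤ τ → C + (2 + A + p * (2 + B)) * τ ≤ (1 - p * q) * X := by
    intro τ hτ
    obtain ⟨x, hx1, -, hx3⟩ := hC τ
    have h1 := s.u.lower_left hN s.sup_u s.hu (Real.exp_pos x).le hx1 0 hτ θ0
    have h2 : x ≤ X := by
      rw [hX, Real.le_log_iff_exp_le (s.hu 0 θ0)]
      exact h1
    refine hx3.trans (mul_le_mul_of_nonneg_left h2 (by linarith only [hpq]))
  have h0 := key ((|(1 - p * q) * X - C| + 1) / (2 + A + p * (2 + B))) (by (clear * - hA; positivity))
  rw [mul_div_cancel₀ _ hA.ne'] at h0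
  linarith only [h0, le_abs_self ((1 - p * q) * X - C)]

/-- No solution with a lower bound `u ≥ c e^{-a τ}` where `a` is below the scaling exponent. -/
theorem false_of_lower [CompactSpace K] [Nonempty K] (s : Sol K N p q A B) (hN : 0 < N)
    (hp : 0 < p) (hq : 0 < q) (hpq : 1 < p * q) {a c : ℝ} (hc : 0 < c)
    (ha : (p * q - 1) * a < 2 + A + p * (2 + B))
    (hlow : ∀ τ, 0 ≤ τ → ∀ θ, c * Real.exp (-a * τ) ≤ s.u.f τ θ) : False := by
  obtain ⟨C, hC⟩ := s.scaling hN hp hq
  have key : ∀ τ, 0 ≤ τ → C + (2 + A + p * (2 + B)) * τ ≤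
      (p * q - 1) * a * τ - (p * q - 1) * Real.log c := by
    intro τ hτ
    obtain ⟨x, hx1, ⟨θ, hx2⟩, hx3⟩ := hC τ
    have h1 := hlow τ hτ θ
    rw [hx2] at h1
    have h2 : Real.log c + -a * τ ≤ x := by
      rw [← Real.exp_le_exp, Real.exp_add, Real.exp_log hc]
      exact h1
    have h3 : (p * q - 1) * (Real.log c + -a * τ) ≤ (p * q - 1) * x :=
      mul_le_mul_of_nonneg_left h2 (by linarith only [hpq])
    linarith
  set D := 2 + A + p * (2 + B) - (p * q - 1) * a with hD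
  have hD0 : 0 < D := by rw [hD]; linarith only [ha]
  have h0 := key ((|-(p * q - 1) * Real.log c - C| + 1) / D) (by (clear * - ha; positivity))
  have h1 : D * ((|-(p * q - 1) * Real.log c - C| + 1) / D) =
      |-(p * q - 1) * Real.log c - C| + 1 := mul_div_cancel₀ _ hD0.ne'
  have h2 := le_abs_self (-(p * q - 1) * Real.log c - C)
  have h3 : (2 + A + p * (2 + B)) = D + (p * q - 1) * a := by rw [hD]; ring
  rw [h3] at h0
  linarith

/-- Upper bound near `-∞`. -/
lemma upper_left (s : Sol K N p q A B) : ∃ T, ∀ t ≤ T, ∀ θ, s.u.f t θ ≤ s.u0 + 1 := by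
  obtain ⟨T, hT⟩ := s.lu 1 one_pos
  refine ⟨T, fun t ht θ => ?_⟩
  have := (abs_le.mp (hT t ht θ)).2
  linarith only [this]

/-- The axial derivative has nonnegative limit inferior at `-∞`. -/
lemma deriv_left [CompactSpace K] (s : Sol K N p q A B) (hN : 0 ≤ N) (hp : 0 < p)
    (hA : 0 < 2 + A) {η : ℝ} (hη : 0 < η) :
    ∃ T, ∀ t ≤ T, ∀ θ, -η ≤ s.u.f1 t θ := by
  -- choose ε
  have hK : 0 < N / 2 + 3 * Real.exp (N / 2) := by positivity
  set ε := η / (N / 2 + 3 * Real.exp (N / 2)) with hε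
  have hε0 : 0 < ε := by positivity
  obtain ⟨T1, hT1⟩ := s.lu ε hε0
  obtain ⟨T2, hT2⟩ := s.swap.upper_left
  have hT2' : ∀ t ≤ T2, ∀ θ, s.v.f t θ ≤ s.v0 + 1 := hT2
  -- source tends to zero
  have hv1 : 0 < s.v0 + 1 := by linarith only [s.hv0]
  have hlim : Tendsto (fun t : ℝ => Real.exp ((2 + A) * t) * (s.v0 + 1) ^ p) atBot (𝓝 (0 * (s.v0 + 1) ^ p)) := by
    refine Tendsto.mul_const _ (Real.tendsto_exp_atBot.comp ?_)
    exact tendsto_id.const_mul_atBot hA
  rw [zero_mul] at hlim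
  obtain ⟨T3, hT3⟩ := (hlim.eventually (gt_mem_nhds hε0)).exists_forall_of_atBot
  refine ⟨min (min T1 T2) T3 - 1, ?_⟩
  intro t ht θ
  have hle1 : ∀ r ∈ Icc (t - 1) (t + 1), r ≤ T1 := by
    intro r hr
    have := (min_le_left (min T1 T2) T3).trans (min_le_left T1 T2)
    linarith only [ht, this, hr.2]
  have hle2 : ∀ r ∈ Icc (t - 1) (t + 1), r ≤ T2 := by
    intro r hr
    have := (min_le_left (min T1 T2) T3).trans (min_le_right T1 T2)
    linarith only [ht, this, hr.2]
  have hle3 : ∀ r ∈ Icc (t - 1) (t + 1), r ≤ T3 := by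
    intro r hr
    have := min_le_right (min T1 T2) T3
    linarith only [ht, this, hr.2]
  have := deriv_lower s.u hN (τ := t) (u0 := s.u0) (ε := ε) (M := ε) hε0 hε0.le
    (fun r hr θ => hT1 r (hle1 r hr) θ) (by
      intro r hr θ
      rw [s.eu, abs_neg, abs_of_pos (by
        have := Real.rpow_pos_of_pos (s.hv r θ) p
        (clear * - this; positivity))]
      refine le_trans ?_ (hT3 r (hle3 r hr)).le
      apply mul_le_mul_of_nonneg_left _ (Real.exp_pos _).le
      exact Real.rpow_le_rpow (s.hv r θ).le (hT2' r (hle2 r hr) θ) hp.le) θ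
  have h2 : N / 2 * ε + Real.exp (N / 2) * (2 * ε + ε) = η := by
    rw [show N / 2 * ε + Real.exp (N / 2) * (2 * ε + ε) = (N / 2 + 3 * Real.exp (N / 2)) * ε by ring,
      hε, mul_div_cancel₀ _ hK.ne']
  rw [h2] at this
  exact this

end Sol

end Vale.Agent.P100
end
end

section

section

open Set Filter Topology

namespace Vale.Agent.P100

variable {K : Type*} [TopologicalSpace K]

namespace Sol

variable {N p q A B : ℝ}

/-- The equation for `U = e^{a t} u` in terms of `V = e^{b t} v`. -/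
lemma eqU (s : Sol K N p q A B) (a b t : ℝ) (θ : K) :
    (s.u.expMul a).f2 t θ - (2 * a - N) * (s.u.expMul a).f1 t θ
      - (a * (N - a)) * (s.u.expMul a).f t θ + (s.u.expMul a).S t θ
      = -(Real.exp ((2 + A + a - p * b) * t) * ((s.v.expMul b).f t θ) ^ p) := by
  show Real.exp (a * t) * (a ^ 2 * s.u.f t θ + 2 * a * s.u.f1 t θ + s.u.f2 t θ)
      - (2 * a - N) * (Real.exp (a * t) * (a * s.u.f t θ + s.u.f1 t θ))
      - (a * (N - a)) * (Real.exp (a * t) * s.u.f t θ) + Real.exp (a * t) * s.u.S t θ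
      = -(Real.exp ((2 + A + a - p * b) * t) * (Real.exp (b * t) * s.v.f t θ) ^ p)
  have h1 : (Real.exp (b * t) * s.v.f t θ) ^ p = Real.exp (b * t * p) * s.v.f t θ ^ p := by
    rw [Real.mul_rpow (Real.exp_pos _).le (s.hv t θ).le, ← Real.exp_mul]
  have h2 : Real.exp ((2 + A + a - p * b) * t) * (Real.exp (b * t * p) * s.v.f t θ ^ p)
      = Real.exp (a * t) * (Real.exp ((2 + A) * t) * s.v.f t θ ^ p) := by
    rw [← mul_assoc, ← mul_assoc, ← Real.exp_add, ← Real.exp_add]
    congr 2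
    ring
  rw [h1, h2]
  have h3 := s.eu t θ
  have h4 : Real.exp (a * t) * (s.u.f2 t θ + N * s.u.f1 t θ + s.u.S t θ) =
      Real.exp (a * t) * -(Real.exp ((2 + A) * t) * s.v.f t θ ^ p) := by rw [h3]
  linarith only [h4]

lemma expMul_pos (s : Sol K N p q A B) (a t : ℝ) (θ : K) : 0 < (s.u.expMul a).f t θ :=
  mul_pos (Real.exp_pos _) (s.hu t θ)

/-- positive lower bound on a slice -/
lemma slice_lower [CompactSpace K] [Nonempty K] (s : Sol K N p q A B) (τ : ℝ) :
    ∃ c > 0, ∀ θ, c ≤ s.u.f τ θ := by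
  obtain ⟨x, hx, -⟩ := s.exists_min τ
  exact ⟨Real.exp x, Real.exp_pos x, hx⟩

/-- Data for start of the moving planes and behaviour at infinity for `e^{a t} u`. -/
lemma asymptotics [CompactSpace K] [Nonempty K] (s : Sol K N p q A B) (hN : 0 < N) (hp : 0 < p)
    (hA : 0 < 2 + A) {a : ℝ} (ha : 0 < a) :
    ∃ T c C : ℝ, 0 < c ∧ 0 < C ∧
      (∀ t ≤ T, ∀ θ, (s.u.expMul a).f t θ ≤ C * Real.exp (a * t)) ∧
      (∀ t ≤ T, ∀ θ, 0 < (s.u.expMul a).f1 t θ) ∧
      (∀ t, T ≤ t → ∀ θ, c * Real.exp (-(N - a) * t) ≤ (s.u.expMul a).f t θ) := by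
  have hu0 := s.hu0
  obtain ⟨T1, hT1⟩ := s.upper_left
  obtain ⟨T2, hT2⟩ := s.lu (s.u0 / 2) (by linarith only [hu0])
  obtain ⟨T3, hT3⟩ := s.deriv_left hN.le hp hA (η := a * s.u0 / 4) (by positivity)
  set T := min (min T1 T2) T3 with hT
  have hTT1 : T ≤ T1 := (min_le_left _ _).trans (min_le_left _ _)
  have hTT2 : T ≤ T2 := (min_le_left _ _).trans (min_le_right _ _)
  have hTT3 : T ≤ T3 := min_le_right _ _
  obtain ⟨c0, hc0, hc⟩ := s.slice_lower T
  have hr := s.u.lower_right hN s.sup_u s.hu hc0.le hc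
  refine ⟨T, c0 * Real.exp (N * T), s.u0 + 1, by positivity, by linarith only [hu0], ?_, ?_, ?_⟩
  · intro t ht θ
    show Real.exp (a * t) * s.u.f t θ ≤ _
    rw [mul_comm]
    exact mul_le_mul_of_nonneg_right (hT1 t (ht.trans hTT1) θ) (Real.exp_pos _).le
  · intro t ht θ
    show 0 < Real.exp (a * t) * (a * s.u.f t θ + s.u.f1 t θ)
    apply mul_pos (Real.exp_pos _)
    have h1 := (abs_le.mp (hT2 t (ht.trans hTT2) θ)).1
    have h2 := hT3 t (ht.trans hTT3) θ
    have h3 : a * (s.u0 / 2) ≤ a * s.u.f t θ := mul_le_mul_of_nonneg_left (by linarith only [h1]) ha.le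
    nlinarith only [ha, hu0, h2, h3]
  · intro t ht θ
    show _ ≤ Real.exp (a * t) * s.u.f t θ
    have h1 := mul_le_mul_of_nonneg_left (hr t ht θ) (Real.exp_pos (a * t)).le
    refine le_trans (le_of_eq ?_) h1
    rw [show c0 * Real.exp (N * T) * Real.exp (-(N - a) * t) =
      c0 * (Real.exp (N * T) * Real.exp (-(N - a) * t)) by ring,
      show Real.exp (a * t) * (c0 * Real.exp (-N * (t - T))) =
      c0 * (Real.exp (a * t) * Real.exp (-N * (t - T))) by ring, ← Real.exp_add, ← Real.exp_add]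
    congr 2
    ring

/-- Strict inequality and Hopf property for one component, drift `2a - N ≥ 0`. -/
lemma strict_step [CompactSpace K] [Nonempty K] (s : Sol K N p q A B) (hp : 0 < p)
    {a b : ℝ} (ha : N / 2 ≤ a) (ha0 : 0 ≤ a) (haN : a ≤ N) (hκ : 0 < 2 + A + a - p * b) {lam : ℝ}
    (h : ∀ μ ≤ lam, Refl (s.u.expMul a).f μ ∧ Refl (s.v.expMul b).f μ) :
    (∀ t < lam, ∀ θ, (s.u.expMul a).f t θ < (s.u.expMul a).f (2 * lam - t) θ) ∧
    (∀ θ, 0 < (s.u.expMul a).f1 lam θ) := by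
  set F : ℝ → K → ℝ := fun t θ => Real.exp ((2 + A + a - p * b) * t) * ((s.v.expMul b).f t θ) ^ p
    with hF
  have eq : ∀ t θ, (s.u.expMul a).f2 t θ - (2 * a - N) * (s.u.expMul a).f1 t θ
      - (a * (N - a)) * (s.u.expMul a).f t θ + (s.u.expMul a).S t θ = - F t θ :=
    fun t θ => s.eqU a b t θ
  have hE : ∀ t < lam, ∀ θ, 0 < Eqty (s.u.expMul a) F (2 * a - N) (2 * a - N) lam t θ := by
    intro t ht θ
    have h1 : 0 ≤ (s.u.expMul a).f1 t θ :=
      Refl.deriv_nonneg (s.u.expMul a).hf (h t ht.le).1 θ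
    have h2 : (s.v.expMul b).f t θ ≤ (s.v.expMul b).f (2 * lam - t) θ :=
      (h lam le_rfl).2 t ht θ
    have h3 : 0 < (s.v.expMul b).f t θ := s.swap.expMul_pos b t θ
    have h4 : F t θ < F (2 * lam - t) θ := by
      rw [hF]
      have h5 : ((s.v.expMul b).f t θ) ^ p ≤ ((s.v.expMul b).f (2 * lam - t) θ) ^ p :=
        Real.rpow_le_rpow h3.le h2 hp.le
      have h6 : Real.exp ((2 + A + a - p * b) * t) < Real.exp ((2 + A + a - p * b) * (2 * lam - t)) := by
        rw [Real.exp_lt_exp]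
        nlinarith only [hκ, ht]
      have h7 : 0 < ((s.v.expMul b).f t θ) ^ p := Real.rpow_pos_of_pos h3 p
      calc Real.exp ((2 + A + a - p * b) * t) * ((s.v.expMul b).f t θ) ^ p
          < Real.exp ((2 + A + a - p * b) * (2 * lam - t)) * ((s.v.expMul b).f t θ) ^ p :=
            mul_lt_mul_of_pos_right h6 h7
        _ ≤ _ := mul_le_mul_of_nonneg_left h5 (Real.exp_pos _).le
    unfold Eqty
    have h8 : 0 ≤ (2 * a - N) * (s.u.expMul a).f1 t θ := mul_nonneg (by linarith only [ha]) h1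
    nlinarith only [h4, h8]
  have hstr := strict_interior (s.u.expMul a) eq (h lam le_rfl).1 hE
  refine ⟨hstr, ?_⟩
  exact hopf (s.u.expMul a) (mul_nonneg ha0 (by linarith only [haN])) eq hstr (fun t ht θ => (hE t ht θ).le)

/-- Moving planes in the region where both exponents are at least `N/2`. -/
theorem false_of_exponents [CompactSpace K] [Nonempty K] (s : Sol K N p q A B) (hN : 0 < N)
    (hp : 0 < p) (hq : 0 < q) (hpq : 1 < p * q) (hA : 0 < 2 + A) (hB : 0 < 2 + B) {a b : ℝ}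
    (ha : N / 2 < a) (haN : a ≤ N) (hb : N / 2 < b) (hbN : b ≤ N)
    (hκ1 : 0 < 2 + A + a - p * b) (hκ2 : 0 < 2 + B + b - q * a) : False := by
  have ha0 : 0 < a := by linarith only [hN, ha]
  have hb0 : 0 < b := by linarith only [hN, hb]
  obtain ⟨T, c, C, hc, hC, hup, hinc, hlow⟩ := s.asymptotics hN hp hA ha0
  obtain ⟨T', c', C', hc', hC', hup', hinc', hlow'⟩ := s.swap.asymptotics hN hq hB hb0
  have hmp : ∀ lam, Refl (s.u.expMul a).f lam ∧ Refl (s.v.expMul b).f lam := by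
    refine movingPlane (s.u.expMul a).hf (s.v.expMul b).hf (s.u.expMul a).cf (s.u.expMul a).cf1
      (s.v.expMul b).cf (s.v.expMul b).cf1 ?_ ?_ ?_
    · obtain ⟨l1, hl1⟩ := start_one (s.u.expMul a) ha0 (m := N - a) (by linarith only [ha]) hc hC hup hinc hlow
      obtain ⟨l2, hl2⟩ := start_one (s.v.expMul b) hb0 (m := N - b) (by linarith only [hb]) hc' hC' hup' hinc'
        hlow'
      exact ⟨min l1 l2, fun lam hlam => ⟨hl1 lam (hlam.trans (min_le_left _ _)),
        hl2 lam (hlam.trans (min_le_right _ _))⟩⟩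
    · intro lam h
      obtain ⟨h1, h2⟩ := s.strict_step hp ha.le ha0.le haN hκ1 h
      obtain ⟨h3, h4⟩ := s.swap.strict_step hq (a := b) (b := a) hb.le hb0.le hbN hκ2
        (fun μ hμ => ⟨(h μ hμ).2, (h μ hμ).1⟩)
      exact ⟨fun t ht θ => ⟨h1 t ht θ, h3 t ht θ⟩, fun θ => ⟨h2 θ, h4 θ⟩⟩
    · intro lam0
      obtain ⟨T1, hT1⟩ := inf_one (s.u.expMul a) (m := N - a) (by linarith only [ha]) hc hC hup hlow lam0
      obtain ⟨T2, hT2⟩ := inf_one (s.v.expMul b) (m := N - b) (by linarith only [hb]) hc' hC' hup' hlow' lam0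
      exact ⟨min T1 T2, fun lam hlam t ht θ => ⟨hT1 lam hlam t (ht.trans (min_le_left _ _)) θ,
        hT2 lam hlam t (ht.trans (min_le_right _ _)) θ⟩⟩
  -- lower bound and contradiction
  obtain ⟨c0, hc0, hcl⟩ := s.slice_lower 0
  refine s.false_of_lower hN hp hq hpq (a := a) hc0 (by nlinarith only [hp, hκ1, hκ2]) ?_
  intro τ hτ θ
  have h1 : (s.u.expMul a).f 0 θ ≤ (s.u.expMul a).f τ θ := by
    rcases eq_or_lt_of_le hτ with h | h
    · rw [← h]
    · have := (hmp (τ / 2)).1 0 (by linarith only [h]) θ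
      have e : 2 * (τ / 2) - 0 = τ := by ring
      rwa [e] at this
  have h2 : (s.u.expMul a).f 0 θ = s.u.f 0 θ := by
    show Real.exp (a * 0) * s.u.f 0 θ = _
    simp
  have h3 : (s.u.expMul a).f τ θ = Real.exp (a * τ) * s.u.f τ θ := rfl
  rw [h2, h3] at h1
  have h4 : c0 ≤ Real.exp (a * τ) * s.u.f τ θ := (hcl θ).trans h1
  have h5 : Real.exp (-a * τ) * Real.exp (a * τ) = 1 := by
    rw [← Real.exp_add]; simp
  calc c0 * Real.exp (-a * τ) = Real.exp (-a * τ) * c0 := mul_comm _ _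
    _ ≤ Real.exp (-a * τ) * (Real.exp (a * τ) * s.u.f τ θ) :=
        mul_le_mul_of_nonneg_left h4 (Real.exp_pos _).le
    _ = s.u.f τ θ := by rw [← mul_assoc, h5, one_mul]

/-- No solution when the scaling exponent exceeds `N`. -/
theorem false_of_large [CompactSpace K] [Nonempty K] (s : Sol K N p q A B) (hN : 0 < N)
    (hp : 0 < p) (hq : 0 < q) (hpq : 1 < p * q) (h : (p * q - 1) * N < 2 + A + p * (2 + B)) :
    False := by
  obtain ⟨c0, hc0, hcl⟩ := s.slice_lower 0
  have hr := s.u.lower_right hN s.sup_u s.hu hc0.le hcl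
  refine s.false_of_lower hN hp hq hpq (a := N) hc0 h ?_
  intro τ hτ θ
  have := hr τ hτ θ
  rwa [sub_zero] at this

/-- Main abstract theorem: both scaling exponents larger than `N/2`. -/
theorem false_main [CompactSpace K] [Nonempty K] (s : Sol K N p q A B) (hN : 0 < N)
    (hp : 0 < p) (hq : 0 < q) (hA : 0 < 2 + A) (hB : 0 < 2 + B)
    (h1 : (p * q - 1) * N < 2 * (2 + A + p * (2 + B)))
    (h2 : (p * q - 1) * N < 2 * (2 + B + q * (2 + A))) : False := by
  rcases le_or_gt (p * q) 1 with hpq | hpq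
  · exact s.false_of_sublinear hN hp hq hpq (by (clear * - hA hp hB; positivity))
  have hpq' : 0 < p * q - 1 := by linarith only [hpq]
  rcases lt_or_ge ((p * q - 1) * N) (2 + A + p * (2 + B)) with h3 | h3
  · exact s.false_of_large hN hp hq hpq h3
  rcases lt_or_ge ((p * q - 1) * N) (2 + B + q * (2 + A)) with h4 | h4
  · exact s.swap.false_of_large hN hq hp (by linarith only [hpq]) (by linarith only [h4])
  set α := (2 + A + p * (2 + B)) / (p * q - 1) with hα
  set β := (2 + B + q * (2 + A)) / (p * q - 1) with hβ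
  have eα : α * (p * q - 1) = 2 + A + p * (2 + B) := div_mul_cancel₀ _ hpq'.ne'
  have eβ : β * (p * q - 1) = 2 + B + q * (2 + A) := div_mul_cancel₀ _ hpq'.ne'
  have r1 : 2 + A + α = p * β := by
    have : (2 + A + α) * (p * q - 1) = p * β * (p * q - 1) := by
      rw [add_mul, eα, mul_assoc, eβ]; ring
    exact mul_right_cancel₀ hpq'.ne' this
  have r2 : 2 + B + β = q * α := by
    have : (2 + B + β) * (p * q - 1) = q * α * (p * q - 1) := by
      rw [add_mul, eβ, mul_assoc, eα]; ring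
    exact mul_right_cancel₀ hpq'.ne' this
  have hα1 : N / 2 < α := by
    rw [hα, lt_div_iff₀ hpq']; linarith only [h1]
  have hβ1 : N / 2 < β := by
    rw [hβ, lt_div_iff₀ hpq']; linarith only [h2]
  have hα2 : α ≤ N := by
    rw [hα, div_le_iff₀ hpq']; linarith only [h3]
  have hβ2 : β ≤ N := by
    rw [hβ, div_le_iff₀ hpq']; linarith only [h4]
  -- direction r with 1/q < r < p
  set r := (1 / q + p) / 2 with hr
  have hq1 : 1 / q < p := by
    rw [div_lt_iff₀ hq]; linarith only [hpq]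
  have hr1 : 1 / q < r := by rw [hr]; linarith only [hq1]
  have hr2 : r < p := by rw [hr]; linarith only [hr, hr1]
  have hr0 : 0 < r := lt_trans (by positivity) hr1
  have hqr : 1 < q * r := by
    rw [div_lt_iff₀ hq] at hr1; linarith only [hr1]
  set ε := min ((α - N / 2) / (2 * r)) ((β - N / 2) / 2) with hε
  have hε0 : 0 < ε := lt_min (div_pos (by linarith only [hα1]) (by linarith only [hr0])) (by linarith only [hβ1])
  have hε1 : r * ε ≤ (α - N / 2) / 2 := by
    have : ε ≤ (α - N / 2) / (2 * r) := min_le_left _ _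
    calc r * ε ≤ r * ((α - N / 2) / (2 * r)) := mul_le_mul_of_nonneg_left this hr0.le
      _ = (α - N / 2) / 2 := by (clear * - hr0; field_simp)
  have hε2 : ε ≤ (β - N / 2) / 2 := min_le_right _ _
  have hrε : 0 < r * ε := by (clear * - hq hp hα1 hβ1; positivity)
  refine s.false_of_exponents hN hp hq hpq hA hB (a := α - r * ε) (b := β - ε)
    (by linarith only [hε1, hrε]) (by linarith only [hα2, hrε]) (by linarith only [hε0, hε2]) (by linarith only [hβ2, hε0]) ?_ ?_
  · have : 2 + A + (α - r * ε) - p * (β - ε) = (p - r) * ε := by linarith only [r1]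
    rw [this]
    exact mul_pos (by linarith only [hr, hr1]) hε0
  · have : 2 + B + (β - ε) - q * (α - r * ε) = (q * r - 1) * ε := by linarith only [r2]
    rw [this]
    exact mul_pos (by linarith only [hqr]) hε0

end Sol

end Vale.Agent.P100
end
end

section

section

open Set Filter Topology

namespace Vale.Agent.P100

variable {E : Type*} [NormedAddCommGroup E] [InnerProductSpace ℝ E]

/-- First and second derivative of a twice differentiable function along a curve. -/
lemma hasDerivAt_along {u : E → ℝ} {c c1 : ℝ → E} {c2 : E} {s : ℝ}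
    (hu : ∀ᶠ y in 𝓝 (c s), DifferentiableAt ℝ u y) (hu2 : DifferentiableAt ℝ (fderiv ℝ u) (c s))
    (hc : HasDerivAt c (c1 s) s) (hc1 : HasDerivAt c1 c2 s) :
    HasDerivAt (fun r => u (c r)) (fderiv ℝ u (c s) (c1 s)) s ∧
    HasDerivAt (fun r => fderiv ℝ u (c r) (c1 r))
      (fderiv ℝ (fderiv ℝ u) (c s) (c1 s) (c1 s) + fderiv ℝ u (c s) c2) s := by
  constructor
  · exact (hu.self_of_nhds.hasFDerivAt).comp_hasDerivAt s hc
  · have h1 : HasDerivAt (fun r => fderiv ℝ u (c r)) (fderiv ℝ (fderiv ℝ u) (c s) (c1 s)) s :=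
      (hu2.hasFDerivAt).comp_hasDerivAt s hc
    exact h1.clm_apply hc1

lemma contDiffAt_of_ne {u : E → ℝ} (hu : ContDiffOn ℝ 2 u {0}ᶜ) {x : E} (hx : x ≠ 0) :
    ContDiffAt ℝ 2 u x :=
  hu.contDiffAt (isOpen_compl_singleton.mem_nhds hx)

lemma differentiableAt_of_ne {u : E → ℝ} (hu : ContDiffOn ℝ 2 u {0}ᶜ) {x : E} (hx : x ≠ 0) :
    DifferentiableAt ℝ u x :=
  (contDiffAt_of_ne hu hx).differentiableAt (by norm_num)

lemma eventually_differentiableAt {u : E → ℝ} (hu : ContDiffOn ℝ 2 u {0}ᶜ) {x : E} (hx : x ≠ 0) :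
    ∀ᶠ y in 𝓝 x, DifferentiableAt ℝ u y := by
  filter_upwards [isOpen_compl_singleton.mem_nhds hx] with y hy
  exact differentiableAt_of_ne hu hy

lemma differentiableAt_fderiv_of_ne {u : E → ℝ} (hu : ContDiffOn ℝ 2 u {0}ᶜ) {x : E}
    (hx : x ≠ 0) : DifferentiableAt ℝ (fderiv ℝ u) x := by
  have h : ContDiffAt ℝ 1 (fderiv ℝ u) x :=
    (contDiffAt_of_ne hu hx).fderiv_right (by norm_num)
  exact h.differentiableAt (by norm_num)

lemma continuousOn_fderiv {u : E → ℝ} (hu : ContDiffOn ℝ 2 u {0}ᶜ) :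
    ContinuousOn (fderiv ℝ u) {0}ᶜ := fun _ hx =>
  (differentiableAt_fderiv_of_ne hu hx).continuousAt.continuousWithinAt

lemma expsmul_ne_zero (t : ℝ) (θ : Metric.sphere (0 : E) 1) : Real.exp t • (θ : E) ≠ 0 := by
  have h1 : ‖(θ : E)‖ = 1 := by simp
  intro h
  rw [smul_eq_zero] at h
  rcases h with h | h
  · exact (Real.exp_pos t).ne' h
  · rw [h, norm_zero] at h1
    exact zero_ne_one h1

lemma norm_expsmul (t : ℝ) (θ : Metric.sphere (0 : E) 1) : ‖Real.exp t • (θ : E)‖ = Real.exp t := by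
  have h1 : ‖(θ : E)‖ = 1 := by simp
  rw [norm_smul, h1, mul_one, Real.norm_eq_abs, abs_of_pos (Real.exp_pos t)]

lemma hasDerivAt_expsmul (t : ℝ) (θ : E) :
    HasDerivAt (fun s : ℝ => Real.exp s • θ) (Real.exp t • θ) t :=
  (Real.hasDerivAt_exp t).smul_const θ

section sphere

variable [FiniteDimensional ℝ E]

open Module

/-- The spherical part of the Laplacian. -/
noncomputable def sph (u : E → ℝ) (x : E) : ℝ :=
  ‖x‖ ^ 2 * Laplacian.laplacian u x - fderiv ℝ (fderiv ℝ u) x x x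
    - ((finrank ℝ E : ℝ) - 1) * fderiv ℝ u x x

lemma sph_eq_sum (u : E → ℝ) {ι : Type*} [Fintype ι] [DecidableEq ι] (b : OrthonormalBasis ι ℝ E)
    (i0 : ι) (t : ℝ) : sph u (Real.exp t • b i0) =
      ∑ i ∈ Finset.univ.erase i0, (fderiv ℝ (fderiv ℝ u) (Real.exp t • b i0) (Real.exp t • b i)
        (Real.exp t • b i) - fderiv ℝ u (Real.exp t • b i0) (Real.exp t • b i0)) := by
  have hn : ‖Real.exp t • b i0‖ = Real.exp t := by
    rw [norm_smul, b.norm_eq_one, mul_one, Real.norm_eq_abs, abs_of_pos (Real.exp_pos t)]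
  have hcard : (Finset.univ.erase i0).card = Fintype.card ι - 1 := by
    rw [Finset.card_erase_of_mem (Finset.mem_univ i0), Finset.card_univ]
  have hfin : finrank ℝ E = Fintype.card ι := finrank_eq_card_basis b.toBasis
  have hpos : 1 ≤ Fintype.card ι := Fintype.card_pos_iff.mpr ⟨i0⟩
  have hlap : Laplacian.laplacian u (Real.exp t • b i0) =
      ∑ i, fderiv ℝ (fderiv ℝ u) (Real.exp t • b i0) (b i) (b i) := by
    have h := congrFun (InnerProductSpace.laplacian_eq_iteratedFDeriv_orthonormalBasis u b)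
      (Real.exp t • b i0)
    rw [h]
    simp only [iteratedFDeriv_two_apply, Fin.isValue, Matrix.cons_val_zero, Matrix.cons_val_one, Matrix.cons_val_fin_one]
  unfold sph
  rw [hn, hlap, Finset.sum_sub_distrib, Finset.sum_const, hcard, hfin, nsmul_eq_mul,
    Nat.cast_sub hpos, Nat.cast_one, Finset.mul_sum, ← Finset.add_sum_erase _ _ (Finset.mem_univ i0)]
  have h1 : ∀ i, fderiv ℝ (fderiv ℝ u) (Real.exp t • b i0) (Real.exp t • b i) (Real.exp t • b i) =
      Real.exp t ^ 2 * fderiv ℝ (fderiv ℝ u) (Real.exp t • b i0) (b i) (b i) := by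
    intro i
    simp only [map_smul, smul_apply, smul_eq_mul]
    ring
  rw [h1 i0]
  simp only [h1]
  ring

/-- Minimum principle for the spherical part of the Laplacian. -/
lemma sph_min {u : E → ℝ} (hu : ContDiffOn ℝ 2 u {0}ᶜ) (k1 k2 t1 t2 : ℝ)
    (θ : Metric.sphere (0 : E) 1)
    (hmin : ∀ φ : Metric.sphere (0 : E) 1, k1 * u (Real.exp t1 • (θ : E)) + k2 * u (Real.exp t2 • (θ : E))
      ≤ k1 * u (Real.exp t1 • (φ : E)) + k2 * u (Real.exp t2 • (φ : E))) :
    0 ≤ k1 * sph u (Real.exp t1 • (θ : E)) + k2 * sph u (Real.exp t2 • (θ : E)) := by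
  classical
  -- adapted orthonormal basis
  have hθ1 : ‖(θ : E)‖ = 1 := by simp
  have hfin : 0 < finrank ℝ E := by
    rw [Module.finrank_pos_iff_exists_ne_zero]
    refine ⟨(θ : E), ?_⟩
    intro h
    rw [h, norm_zero] at hθ1
    exact zero_ne_one hθ1
  set i0 : Fin (finrank ℝ E) := ⟨0, hfin⟩ with hi0
  obtain ⟨b, hb⟩ := Orthonormal.exists_orthonormalBasis_extension_of_card_eq (𝕜 := ℝ) (E := E)
    (ι := Fin (finrank ℝ E)) (by simp only [Fintype.card_fin]) (v := fun _ => (θ : E)) (s := {i0}) (by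
      constructor
      · intro i; simp
      · intro i j hij
        exact absurd (Subsingleton.elim i j) hij)
  have hbθ : b i0 = (θ : E) := hb i0 rfl
  rw [← hbθ] at hmin ⊢
  rw [sph_eq_sum, sph_eq_sum, Finset.mul_sum, Finset.mul_sum, ← Finset.sum_add_distrib]
  apply Finset.sum_nonneg
  intro i hi
  have hne : i ≠ i0 := Finset.ne_of_mem_erase hi
  -- great circle
  set c : ℝ → E := fun s => Real.cos s • b i0 + Real.sin s • b i with hc
  have hcnorm : ∀ s, ‖c s‖ = 1 := by
    intro s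
    have h1 : ‖c s‖ ^ 2 = 1 := by
      rw [hc]
      simp only
      rw [@norm_add_sq_real]
      rw [norm_smul, norm_smul, b.norm_eq_one, b.norm_eq_one, inner_smul_left, inner_smul_right,
        b.inner_eq_zero hne.symm]
      simp [Real.cos_sq_add_sin_sq]
    have h2 : 0 ≤ ‖c s‖ := norm_nonneg _
    nlinarith only [h1, h2]
  have hcd : ∀ s, HasDerivAt c (-Real.sin s • b i0 + Real.cos s • b i) s := fun s =>
    ((Real.hasDerivAt_cos s).smul_const _).add ((Real.hasDerivAt_sin s).smul_const _)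
  have hcd2 : HasDerivAt (fun s => -Real.sin s • b i0 + Real.cos s • b i)
      (-Real.cos 0 • b i0 + -Real.sin 0 • b i) 0 :=
    ((Real.hasDerivAt_sin 0).neg.smul_const _).add ((Real.hasDerivAt_cos 0).smul_const _)
  have hne0 : ∀ t s, Real.exp t • c s ≠ 0 := by
    intro t s h
    rw [smul_eq_zero] at h
    rcases h with h | h
    · exact (Real.exp_pos t).ne' h
    · have := hcnorm s
      rw [h, norm_zero] at this
      exact zero_ne_one this
  have hal : ∀ t s, HasDerivAt (fun r => u (Real.exp t • c r))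
      (fderiv ℝ u (Real.exp t • c s) (Real.exp t • (-Real.sin s • b i0 + Real.cos s • b i))) s := by
    intro t s
    exact ((differentiableAt_of_ne hu (hne0 t s)).hasFDerivAt).comp_hasDerivAt s
      ((hcd s).const_smul (Real.exp t))
  have hal2 : ∀ t, HasDerivAt (fun r => fderiv ℝ u (Real.exp t • c r)
        (Real.exp t • (-Real.sin r • b i0 + Real.cos r • b i)))
      (fderiv ℝ (fderiv ℝ u) (Real.exp t • b i0) (Real.exp t • b i) (Real.exp t • b i)
        - fderiv ℝ u (Real.exp t • b i0) (Real.exp t • b i0)) 0 := by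
    intro t
    have := (hasDerivAt_along (u := u) (c := fun r => Real.exp t • c r)
      (c1 := fun r => Real.exp t • (-Real.sin r • b i0 + Real.cos r • b i))
      (c2 := Real.exp t • (-Real.cos 0 • b i0 + -Real.sin 0 • b i)) (s := 0)
      (eventually_differentiableAt hu (hne0 t 0)) (differentiableAt_fderiv_of_ne hu (hne0 t 0))
      ((hcd 0).const_smul (Real.exp t)) (hcd2.const_smul (Real.exp t))).2
    refine this.congr_deriv ?_
    have e1 : c 0 = b i0 := by rw [hc]; simp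
    have e2 : (-Real.sin 0 • b i0 + Real.cos 0 • b i) = b i := by simp only [Real.sin_zero, neg_zero, zero_smul, Real.cos_zero, one_smul, zero_add]
    have e3 : (-Real.cos 0 • b i0 + -Real.sin 0 • b i) = - b i0 := by simp
    simp only [e1, e2, e3, smul_neg, map_neg]
    ring
  have hloc : IsLocalMin (fun s => k1 * u (Real.exp t1 • c s) + k2 * u (Real.exp t2 • c s)) 0 := by
    apply Filter.Eventually.of_forall
    intro s
    have := hmin ⟨c s, by simp [hcnorm s]⟩
    have e1 : c 0 = b i0 := by rw [hc]; simp only [Real.cos_zero, one_smul, Real.sin_zero, zero_smul, add_zero]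
    simp only [e1]
    exact this
  exact (second_deriv_nonneg
    (f := fun s => k1 * u (Real.exp t1 • c s) + k2 * u (Real.exp t2 • c s))
    (f1 := fun s => k1 * (fderiv ℝ u (Real.exp t1 • c s)
          (Real.exp t1 • (-Real.sin s • b i0 + Real.cos s • b i))) +
        k2 * (fderiv ℝ u (Real.exp t2 • c s)
          (Real.exp t2 • (-Real.sin s • b i0 + Real.cos s • b i))))
    (Filter.Eventually.of_forall (fun s => ((hal t1 s).const_mul k1).add ((hal t2 s).const_mul k2)))
    (((hal2 t1).const_mul k1).add ((hal2 t2).const_mul k2)) hloc).2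

/-- The cylinder function attached to a function on the punctured space. -/
noncomputable def toCyl (u : E → ℝ) (hu : ContDiffOn ℝ 2 u {0}ᶜ) :
    Cyl (Metric.sphere (0 : E) 1) where
  f t θ := u (Real.exp t • (θ : E))
  f1 t θ := fderiv ℝ u (Real.exp t • (θ : E)) (Real.exp t • (θ : E))
  f2 t θ := fderiv ℝ (fderiv ℝ u) (Real.exp t • (θ : E)) (Real.exp t • (θ : E))
      (Real.exp t • (θ : E)) + fderiv ℝ u (Real.exp t • (θ : E)) (Real.exp t • (θ : E))
  S t θ := sph u (Real.exp t • (θ : E))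
  hf t θ := (hasDerivAt_along (u := u) (c := fun s => Real.exp s • (θ : E))
      (c1 := fun s => Real.exp s • (θ : E)) (c2 := Real.exp t • (θ : E)) (s := t)
      (eventually_differentiableAt hu (expsmul_ne_zero t θ))
      (differentiableAt_fderiv_of_ne hu (expsmul_ne_zero t θ))
      (hasDerivAt_expsmul t (θ : E)) (hasDerivAt_expsmul t (θ : E))).1
  hf1 t θ := (hasDerivAt_along (u := u) (c := fun s => Real.exp s • (θ : E))
      (c1 := fun s => Real.exp s • (θ : E)) (c2 := Real.exp t • (θ : E)) (s := t)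
      (eventually_differentiableAt hu (expsmul_ne_zero t θ))
      (differentiableAt_fderiv_of_ne hu (expsmul_ne_zero t θ))
      (hasDerivAt_expsmul t (θ : E)) (hasDerivAt_expsmul t (θ : E))).2
  cf := by
    have h1 : Continuous (fun x : ℝ × Metric.sphere (0 : E) 1 => Real.exp x.1 • (x.2 : E)) := by
      fun_prop
    have h2 : ∀ x : ℝ × Metric.sphere (0 : E) 1, Real.exp x.1 • (x.2 : E) ∈ ({0}ᶜ : Set E) :=
      fun x => expsmul_ne_zero x.1 x.2
    exact hu.continuousOn.comp_continuous h1 h2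
  cf1 := by
    have h1 : Continuous (fun x : ℝ × Metric.sphere (0 : E) 1 => Real.exp x.1 • (x.2 : E)) := by
      fun_prop
    have h2 : ∀ x : ℝ × Metric.sphere (0 : E) 1, Real.exp x.1 • (x.2 : E) ∈ ({0}ᶜ : Set E) :=
      fun x => expsmul_ne_zero x.1 x.2
    exact ((continuousOn_fderiv hu).comp_continuous h1 h2).clm_apply h1
  hS k1 k2 t1 t2 θ h := sph_min hu k1 k2 t1 t2 θ h

lemma toCyl_eq (u : E → ℝ) (hu : ContDiffOn ℝ 2 u {0}ᶜ) (t : ℝ) (θ : Metric.sphere (0 : E) 1) :
    (toCyl u hu).f2 t θ + ((finrank ℝ E : ℝ) - 2) * (toCyl u hu).f1 t θ + (toCyl u hu).S t θ =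
      Real.exp (2 * t) * Laplacian.laplacian u (Real.exp t • (θ : E)) := by
  show fderiv ℝ (fderiv ℝ u) (Real.exp t • (θ : E)) (Real.exp t • (θ : E))
      (Real.exp t • (θ : E)) + fderiv ℝ u (Real.exp t • (θ : E)) (Real.exp t • (θ : E))
      + ((finrank ℝ E : ℝ) - 2) * fderiv ℝ u (Real.exp t • (θ : E)) (Real.exp t • (θ : E))
      + sph u (Real.exp t • (θ : E)) = _
  unfold sph
  rw [norm_expsmul]
  have : Real.exp (2 * t) = Real.exp t ^ 2 := by
    rw [← Real.exp_nat_mul]; norm_num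
  rw [this]
  ring

end sphere

end Vale.Agent.P100
end
end

section

section

/-! Running-minimum proof of the Henon-Lane-Emden conjecture: definitions (helper100). -/

open MeasureTheory Set Filter Topology Real

namespace Vale.Agent.P100.RM

noncomputable section

/-- The Euclidean space. -/
abbrev E (n : ℕ) := EuclideanSpace ℝ (Fin n)

/-- The unit sphere. -/
abbrev Sph (n : ℕ) := Metric.sphere (0 : E n) 1

/-- The surface measure of the unit sphere. -/
def sg (n : ℕ) : Measure (Sph n) := (volume : Measure (E n)).toSphere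

instance (n : ℕ) : IsFiniteMeasure (sg n) := by unfold sg; infer_instance

/-- A jump operator (discrete Laplacian) given by a finite family of maps. -/
def Lop {S K : Type*} [Fintype K] (c : ℝ) (R : K → S → S) (F : S → ℝ) (θ : S) : ℝ :=
  c * ∑ k, (F (R k θ) - F θ)

/-- The running minimum over the window `|i| ≤ j`. -/
def rmin {S : Type*} (X : ℤ → S → ℝ) : ℕ → S → ℝ
  | 0, θ => X 0 θ
  | (j + 1), θ => min (rmin X j θ) (min (X ((j : ℤ) + 1) θ) (X (-((j : ℤ) + 1)) θ))

/-- `e^{g s} u(e^s θ)`. -/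
def cy0 {n : ℕ} (g : ℝ) (u : E n → ℝ) (s : ℝ) (θ : Sph n) : ℝ :=
  exp (g * s) * u (exp s • (θ : E n))

/-- First axial derivative of `cy0`. -/
def cy1 {n : ℕ} (g : ℝ) (u : E n → ℝ) (s : ℝ) (θ : Sph n) : ℝ :=
  exp (g * s) * (g * u (exp s • (θ : E n)) + fderiv ℝ u (exp s • (θ : E n)) (exp s • (θ : E n)))

/-- Second axial derivative of `cy0`. -/
def cy2 {n : ℕ} (g : ℝ) (u : E n → ℝ) (s : ℝ) (θ : Sph n) : ℝ :=
  exp (g * s) * (g ^ 2 * u (exp s • (θ : E n)) +
    2 * g * fderiv ℝ u (exp s • (θ : E n)) (exp s • (θ : E n)) +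
    (fderiv ℝ (fderiv ℝ u) (exp s • (θ : E n)) (exp s • (θ : E n)) (exp s • (θ : E n)) +
      fderiv ℝ u (exp s • (θ : E n)) (exp s • (θ : E n))))

/-- Spherical Laplacian of `cy0`. -/
def cyS {n : ℕ} (g : ℝ) (u : E n → ℝ) (s : ℝ) (θ : Sph n) : ℝ :=
  exp (g * s) * sph u (exp s • (θ : E n))

/-- The Hamiltonian on the unit sphere (drift parameter `d`). -/
def Ham (n : ℕ) (p q d : ℝ) (u v : E n → ℝ) : ℝ :=
  ∫ θ, (cy1 (((n : ℝ) - 2) / 2 + d) u 0 θ * cy1 (((n : ℝ) - 2) / 2 - d) v 0 θ +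
    cyS (((n : ℝ) - 2) / 2 + d) u 0 θ * cy0 (((n : ℝ) - 2) / 2 - d) v 0 θ
    - ((((n : ℝ) - 2) / 2) ^ 2 - d ^ 2) *
      (cy0 (((n : ℝ) - 2) / 2 + d) u 0 θ * cy0 (((n : ℝ) - 2) / 2 - d) v 0 θ)
    + (v (θ : E n)) ^ (p + 1) / (p + 1) + (u (θ : E n)) ^ (q + 1) / (q + 1)) ∂(sg n)

/-- The energy on the unit sphere. -/
def En (n : ℕ) (p q : ℝ) (u v : E n → ℝ) : ℝ :=
  ∫ θ : Sph n, ((v (θ : E n)) ^ (p + 1) + (u (θ : E n)) ^ (q + 1)) ∂(sg n)

/-- The rescaled function `e^{α t} u(e^t x)`. -/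
def scl {n : ℕ} (α t : ℝ) (u : E n → ℝ) (x : E n) : ℝ := exp (α * t) * u (exp t • x)

end

end Vale.Agent.P100.RM
end
end

section

section

open MeasureTheory Metric Set Filter Topology InnerProductSpace

namespace Vale.Agent.P100.RM.Gr

/-- the Euclidean space -/
abbrev Eu (n : ℕ) := EuclideanSpace ℝ (Fin n)

variable {n : ℕ}

/-- directional derivative -/
noncomputable def D (v : (Eu n)) (F : (Eu n) → ℝ) : (Eu n) → ℝ := fun y => fderiv ℝ F y v

/-- standard basis vector -/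
noncomputable def eb (i : Fin n) : (Eu n) := EuclideanSpace.basisFun (Fin n) ℝ i

lemma D_contDiff {F : (Eu n) → ℝ} (v : (Eu n)) (hF : ContDiff ℝ 2 F) : ContDiff ℝ 1 (D v F) :=
  (hF.fderiv_right (m := 1) (by norm_num)).clm_apply contDiff_const

lemma D_continuous {F : (Eu n) → ℝ} (v : (Eu n)) (hF : ContDiff ℝ 1 F) : Continuous (D v F) :=
  (hF.continuous_fderiv (by norm_num)).clm_apply continuous_const

lemma D_mul {F G : (Eu n) → ℝ} (v : (Eu n)) (hF : ContDiff ℝ 1 F) (hG : ContDiff ℝ 1 G) :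
    D v (fun y => F y * G y) = fun y => D v F y * G y + F y * D v G y := by
  funext y
  have h1 := hF.differentiable (by norm_num) y
  have h2 := hG.differentiable (by norm_num) y
  unfold D
  rw [fderiv_fun_mul h1 h2]
  simp only [ContinuousLinearMap.add_apply, ContinuousLinearMap.smul_apply, smul_eq_mul]
  ring

lemma D_add {F G : (Eu n) → ℝ} (v : (Eu n)) (hF : ContDiff ℝ 1 F) (hG : ContDiff ℝ 1 G) :
    D v (fun y => F y + G y) = fun y => D v F y + D v G y := by
  funext y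
  have h1 := hF.differentiable (by norm_num) y
  have h2 := hG.differentiable (by norm_num) y
  unfold D
  rw [fderiv_fun_add h1 h2]
  simp only [ContinuousLinearMap.add_apply]

lemma D_comm {F : (Eu n) → ℝ} (hF : ContDiff ℝ 2 F) (u v : (Eu n)) : D u (D v F) = D v (D u F) := by
  funext y
  have hd : DifferentiableAt ℝ (fderiv ℝ F) y :=
    (hF.fderiv_right (m := 1) (by norm_num)).differentiable (by norm_num) y
  have key : ∀ a b : (Eu n), D a (D b F) y = fderiv ℝ (fderiv ℝ F) y a b := by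
    intro a b
    unfold D
    have := (hd.hasFDerivAt.clm_apply (hasFDerivAt_const b y)).fderiv
    rw [this]
    simp
  rw [key, key]
  exact (hF.contDiffAt (x := y)).isSymmSndFDerivAt (by simp) u v

lemma lap_eq {F : (Eu n) → ℝ} (hF : ContDiff ℝ 2 F) (y : (Eu n)) :
    Laplacian.laplacian F y = ∑ i, D (eb i) (D (eb i) F) y := by
  rw [laplacian_eq_iteratedFDeriv_orthonormalBasis F (EuclideanSpace.basisFun (Fin n) ℝ)]
  refine Finset.sum_congr rfl ?_
  intro i _
  rw [iteratedFDeriv_two_apply]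
  have hd : DifferentiableAt ℝ (fderiv ℝ F) y :=
    (hF.fderiv_right (m := 1) (by norm_num)).differentiable (by norm_num) y
  unfold D
  have := (hd.hasFDerivAt.clm_apply (hasFDerivAt_const (eb i) y)).fderiv
  rw [this]
  simp only [EuclideanSpace.basisFun_apply, Fin.isValue, Matrix.cons_val_zero, Matrix.cons_val_one, Matrix.cons_val_fin_one, ContinuousLinearMap.comp_zero, eb, zero_add, ContinuousLinearMap.flip_apply]

lemma D_hasCompactSupport {F : (Eu n) → ℝ} (v : (Eu n)) (hF : HasCompactSupport F) :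
    HasCompactSupport (D v F) := by
  have := hF.fderiv (𝕜 := ℝ)
  exact this.comp_left (g := fun L : (Eu n) →L[ℝ] ℝ => L v) (by simp)

/-- integration by parts -/
lemma ibp {F G : (Eu n) → ℝ} (v : (Eu n)) (hF : ContDiff ℝ 1 F) (hG : ContDiff ℝ 1 G)
    (hc : HasCompactSupport F) : ∫ y, F y * D v G y = - ∫ y, D v F y * G y := by
  refine integral_mul_fderiv_eq_neg_fderiv_mul_of_integrable ?_ ?_ ?_ ?_ ?_
  · exact ((D_continuous v hF).mul hG.continuous).integrable_of_hasCompactSupport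
      ((D_hasCompactSupport v hc).mul_right)
  · exact (hF.continuous.mul (D_continuous v hG)).integrable_of_hasCompactSupport (hc.mul_right)
  · exact (hF.continuous.mul hG.continuous).integrable_of_hasCompactSupport (hc.mul_right)
  · intro x _; exact hF.differentiable (by norm_num) x
  · intro x _; exact hG.differentiable (by norm_num) x

/-- the regularised gradient kernel -/
noncomputable def kk (s : ℝ) (a : (Eu n)) : (Eu n) → ℝ :=
  fun y => inner ℝ y a * (‖y‖ ^ 2 + s) ^ (-(n : ℝ) / 2)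

lemma base_pos {s : ℝ} (hs : 0 < s) (y : (Eu n)) : 0 < ‖y‖ ^ 2 + s := by positivity

lemma kk_contDiff {s : ℝ} (hs : 0 < s) (a : (Eu n)) : ContDiff ℝ 2 (kk s a) := by
  unfold kk
  refine (contDiff_id.inner ℝ contDiff_const).mul ?_
  refine ContDiff.rpow_const_of_ne ?_ ?_
  · exact (contDiff_id.norm_sq ℝ).add contDiff_const
  · intro y; exact (base_pos hs y).ne'

lemma D_kk {s : ℝ} (hs : 0 < s) (a b : (Eu n)) (y : (Eu n)) :
    D b (kk s a) y = inner ℝ b a * (‖y‖ ^ 2 + s) ^ (-(n : ℝ) / 2)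
      - n * (inner ℝ y a * inner ℝ y b) * (‖y‖ ^ 2 + s) ^ (-(n : ℝ) / 2 - 1) := by
  have h1 : HasFDerivAt (fun z : (Eu n) => inner ℝ z a) (innerSL ℝ a) y := by
    have := (innerSL ℝ a).hasFDerivAt (x := y)
    refine this.congr_of_eventuallyEq ?_
    filter_upwards with z
    simp [real_inner_comm]
  have h2 : HasFDerivAt (fun z : (Eu n) => ‖z‖ ^ 2 + s) (2 • (innerSL ℝ y)) y := by
    have := (hasStrictFDerivAt_norm_sq y).hasFDerivAt
    exact this.add_const s
  have h3 := h2.rpow_const (p := -(n : ℝ) / 2) (Or.inl (base_pos hs y).ne')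
  have h4 : HasFDerivAt (fun z : (Eu n) => inner ℝ z a * (‖z‖ ^ 2 + s) ^ (-(n : ℝ) / 2)) _ y :=
    h1.mul h3
  unfold D kk
  rw [h4.fderiv]
  simp only [add_apply, smul_apply, smul_eq_mul, innerSL_apply_apply, nsmul_eq_mul, Nat.cast_ofNat]
  rw [real_inner_comm a b]
  ring

lemma inner_eb (i : Fin n) (y : (Eu n)) : inner ℝ y (eb i) = y i := by
  simp [eb, EuclideanSpace.inner_single_right]

lemma sum_D_kk {s : ℝ} (hs : 0 < s) (y : (Eu n)) :
    ∑ i, D (eb i) (kk s (eb i)) y = n * s * (‖y‖ ^ 2 + s) ^ (-(n : ℝ) / 2 - 1) := by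
  have h1 : ∀ i : Fin n, D (eb i) (kk s (eb i)) y = (‖y‖ ^ 2 + s) ^ (-(n : ℝ) / 2)
      - n * (y i) ^ 2 * (‖y‖ ^ 2 + s) ^ (-(n : ℝ) / 2 - 1) := by
    intro i
    have : inner ℝ (eb i) (eb i) = (1 : ℝ) := by simp only [eb, EuclideanSpace.basisFun_apply, inner_self_eq_norm_sq_to_K, PiLp.norm_single, norm_one, Real.ringHom_apply, one_pow]
    rw [D_kk hs, this, inner_eb]; ring
  rw [Finset.sum_congr rfl fun i _ => h1 i, Finset.sum_sub_distrib, ← Finset.sum_mul,
    ← Finset.mul_sum]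
  have h2 : ∑ i : Fin n, (y i) ^ 2 = ‖y‖ ^ 2 := by
    rw [EuclideanSpace.norm_sq_eq]; simp only [Real.norm_eq_abs, sq_abs]
  rw [h2]
  simp only [Finset.sum_const, Finset.card_univ, Fintype.card_fin, nsmul_eq_mul]
  have h3 : (‖y‖ ^ 2 + s) ^ (-(n : ℝ) / 2) = (‖y‖ ^ 2 + s) ^ (-(n : ℝ) / 2 - 1) * (‖y‖ ^ 2 + s) := by
    rw [← Real.rpow_add_one (base_pos hs y).ne']; ring_nf
  rw [h3]; ring

lemma D_kk_symm {s : ℝ} (hs : 0 < s) (a b : (Eu n)) : D b (kk s a) = D a (kk s b) := by
  funext y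
  rw [D_kk hs, D_kk hs, real_inner_comm]
  ring

/-- the representation identity -/
lemma repr {φ : (Eu n) → ℝ} (hφ : ContDiff ℝ 2 φ) (hc : HasCompactSupport φ) {s : ℝ} (hs : 0 < s)
    (a : (Eu n)) : ∫ y, D a φ y * (n * s * (‖y‖ ^ 2 + s) ^ (-(n : ℝ) / 2 - 1)) =
      - ∫ y, Laplacian.laplacian φ y * kk s a y := by
  have e1 : ∀ y, D a φ y * (n * s * (‖y‖ ^ 2 + s) ^ (-(n : ℝ) / 2 - 1)) =
      ∑ i, D a φ y * D (eb i) (kk s (eb i)) y := by
    intro y; rw [← Finset.mul_sum, sum_D_kk hs]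
  have e2 : ∀ y, Laplacian.laplacian φ y * kk s a y =
      ∑ i, D (eb i) (D (eb i) φ) y * kk s a y := by
    intro y; rw [← Finset.sum_mul, lap_eq hφ]
  simp only [e1, e2]
  have c1 : ∀ v, HasCompactSupport (D v φ) := fun v => D_hasCompactSupport v hc
  have d1 : ∀ v, ContDiff ℝ 1 (D v φ) := fun v => D_contDiff v hφ
  have k1 : ∀ v, ContDiff ℝ 1 (kk (n := n) s v) := fun v => (kk_contDiff hs v).of_le (by norm_num)
  rw [integral_finset_sum, integral_finset_sum, ← Finset.sum_neg_distrib]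
  · refine Finset.sum_congr rfl ?_
    intro i _
    rw [ibp (eb i) (d1 a) (k1 _) (c1 a), D_comm hφ (eb i) a]
    rw [← ibp a (d1 (eb i)) (k1 _) (c1 _), D_kk_symm hs (eb i) a,
      ibp (eb i) (d1 (eb i)) (k1 _) (c1 _)]
  · intro i _
    exact ((D_continuous _ (d1 (eb i))).mul (k1 a).continuous).integrable_of_hasCompactSupport
      ((D_hasCompactSupport _ (c1 _)).mul_right)
  · intro i _
    exact ((d1 a).continuous.mul (D_continuous _ (k1 (eb i)))).integrable_of_hasCompactSupport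
      ((c1 a).mul_right)

end Vale.Agent.P100.RM.Gr
end
end

section

section

open MeasureTheory Metric Set Filter Topology InnerProductSpace Module

namespace Vale.Agent.P100.RM.Gr

variable {n : ℕ}

/-- the approximate identity -/
noncomputable def psi (s : ℝ) : (Eu n) → ℝ := fun y => n * s * (‖y‖ ^ 2 + s) ^ (-(n : ℝ) / 2 - 1)

lemma psi_continuous {s : ℝ} (hs : 0 < s) : Continuous (psi (n := n) s) := by
  unfold psi
  refine continuous_const.mul ?_
  refine Continuous.rpow_const (by fun_prop) ?_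
  intro y; exact Or.inl (base_pos hs y).ne'

lemma psi_pos (hn : 1 ≤ n) {s : ℝ} (hs : 0 < s) (y : (Eu n)) : 0 < psi s y := by
  unfold psi
  have h0 : (0 : ℝ) < n := by exact_mod_cast hn
  have := base_pos hs y
  positivity

lemma psi_one_integrable : Integrable (psi (n := n) 1) := by
  have h : Integrable (fun x : (Eu n) => ((1 : ℝ) + ‖x‖ ^ 2) ^ (-((n : ℝ) + 2) / 2)) :=
    integrable_rpow_neg_one_add_norm_sq (by rw [finrank_euclideanSpace_fin]; linarith only [])
  have := h.const_mul (n : ℝ)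
  refine this.congr ?_
  filter_upwards with y
  unfold psi
  rw [mul_one, add_comm 1]
  congr 2
  ring

/-- the mass of the approximate identity -/
noncomputable def Zm (n : ℕ) : ℝ := ∫ y : EuclideanSpace ℝ (Fin n), psi 1 y

lemma Zm_pos (hn : 1 ≤ n) : 0 < Zm n := by
  unfold Zm
  rw [integral_pos_iff_support_of_nonneg (fun y => (psi_pos hn one_pos y).le) psi_one_integrable]
  have : Function.support (psi (n := n) 1) = univ := by
    ext y; simp [(psi_pos hn one_pos y).ne']
  rw [this]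
  exact isOpen_univ.measure_pos _ univ_nonempty

lemma psi_scale {c : ℝ} (hc : 0 < c) (y : (Eu n)) : psi ((c ^ 2)⁻¹) y = c ^ n * psi 1 (c • y) := by
  unfold psi
  have h1 : ‖y‖ ^ 2 + (c ^ 2)⁻¹ = (c ^ 2)⁻¹ * (‖c • y‖ ^ 2 + 1) := by
    rw [norm_smul, Real.norm_of_nonneg hc.le]; field_simp
  have h2 : 0 < ‖c • y‖ ^ 2 + 1 := by (clear * -; positivity)
  rw [h1, Real.mul_rpow (by positivity) h2.le]
  have h3 : ((c ^ 2)⁻¹ : ℝ) ^ (-(n : ℝ) / 2 - 1) = c ^ n * c ^ 2 := by
    rw [Real.inv_rpow (by positivity), ← Real.rpow_neg (by positivity), ← Real.rpow_natCast c 2,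
      ← Real.rpow_mul hc.le, ← Real.rpow_natCast c n, ← Real.rpow_add hc]
    congr 1
    push_cast; ring
  rw [h3]
  (clear * - hc; field_simp)

lemma psi_decay (x : (Eu n)) : ‖x‖ ^ n * psi 1 x ≤ n * (‖x‖ ^ 2 + 1)⁻¹ := by
  unfold psi
  have h1 : 0 < ‖x‖ ^ 2 + 1 := by positivity
  have h2 : (‖x‖ ^ 2 + 1) ^ (-(n : ℝ) / 2 - 1) =
      ((‖x‖ ^ 2 + 1) ^ ((n : ℝ) / 2))⁻¹ * (‖x‖ ^ 2 + 1)⁻¹ := by
    rw [sub_eq_add_neg, Real.rpow_add h1, Real.rpow_neg_one, neg_div, Real.rpow_neg h1.le]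
  have h3 : ‖x‖ ^ n ≤ (‖x‖ ^ 2 + 1) ^ ((n : ℝ) / 2) := by
    have : ‖x‖ ^ n = (‖x‖ ^ 2) ^ ((n : ℝ) / 2) := by
      rw [← Real.rpow_natCast ‖x‖ 2, ← Real.rpow_mul (norm_nonneg x), ← Real.rpow_natCast]
      congr 1; push_cast; ring
    rw [this]
    exact Real.rpow_le_rpow (by (clear * -; positivity)) (by linarith only []) (by (clear * -; positivity))
  have h4 : ‖x‖ ^ n * ((‖x‖ ^ 2 + 1) ^ ((n : ℝ) / 2))⁻¹ ≤ 1 := by
    rw [← div_eq_mul_inv, div_le_one (by positivity)]; exact h3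
  rw [h2]
  calc ‖x‖ ^ n * (n * 1 * (((‖x‖ ^ 2 + 1) ^ ((n : ℝ) / 2))⁻¹ * (‖x‖ ^ 2 + 1)⁻¹))
      = (‖x‖ ^ n * ((‖x‖ ^ 2 + 1) ^ ((n : ℝ) / 2))⁻¹) * (n * (‖x‖ ^ 2 + 1)⁻¹) := by ring
    _ ≤ 1 * (n * (‖x‖ ^ 2 + 1)⁻¹) := by
        apply mul_le_mul_of_nonneg_right h4 (by positivity)
    _ = _ := one_mul _

lemma peak_tendsto (hn : 1 ≤ n) {g : (Eu n) → ℝ} (hg : Continuous g) (hc : HasCompactSupport g) :
    Tendsto (fun c : ℝ => ∫ x, g x * psi ((c ^ 2)⁻¹) x) atTop (𝓝 (Zm n * g 0)) := by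
  have hZ := Zm_pos hn
  have key := tendsto_integral_comp_smul_smul_of_integrable (μ := (volume : Measure (Eu n)))
    (φ := fun y => (Zm n)⁻¹ * psi 1 y) (g := g)
    (fun x => by have := psi_pos hn one_pos x; positivity)
    (by rw [integral_const_mul]; exact inv_mul_cancel₀ hZ.ne') ?_
    (hg.integrable_of_hasCompactSupport hc) hg.continuousAt
  · refine (key.const_mul (Zm n)).congr' ?_
    filter_upwards [eventually_gt_atTop 0] with c hc
    rw [← integral_const_mul]
    refine integral_congr_ae ?_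
    filter_upwards with x
    rw [psi_scale hc, finrank_euclideanSpace_fin, smul_eq_mul]
    (clear * - hZ hc; field_simp)
  · have hle : ∀ x : (Eu n), ‖x‖ ^ finrank ℝ (Eu n) * ((Zm n)⁻¹ * psi 1 x) ≤
        ((Zm n)⁻¹ * n) * (‖x‖ ^ 2 + 1)⁻¹ := by
      intro x
      rw [finrank_euclideanSpace_fin]
      calc ‖x‖ ^ n * ((Zm n)⁻¹ * psi 1 x) = (Zm n)⁻¹ * (‖x‖ ^ n * psi 1 x) := by ring
        _ ≤ (Zm n)⁻¹ * (n * (‖x‖ ^ 2 + 1)⁻¹) :=
            mul_le_mul_of_nonneg_left (psi_decay x) (inv_pos.mpr hZ).le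
        _ = _ := by ring
    refine squeeze_zero (fun x => ?_) hle ?_
    · have := psi_pos hn one_pos x; (clear * - hZ this; positivity)
    · have h5 : Tendsto (fun x : (Eu n) => ‖x‖ ^ 2 + 1) (Bornology.cobounded (Eu n)) atTop := by
        refine tendsto_atTop_add_const_right _ _ ?_
        exact (tendsto_pow_atTop (by norm_num)).comp tendsto_norm_cobounded_atTop
      have h6 := (tendsto_inv_atTop_zero.comp h5).const_mul ((Zm n)⁻¹ * n)
      rw [mul_zero] at h6
      exact h6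

lemma peak (hn : 1 ≤ n) {g : (Eu n) → ℝ} (hg : Continuous g) (hc : HasCompactSupport g) {B : ℝ}
    (hB : ∀ s, 0 < s → |∫ y, g y * psi s y| ≤ B) : Zm n * |g 0| ≤ B := by
  have h2 := (peak_tendsto hn hg hc).abs
  rw [abs_mul, abs_of_pos (Zm_pos hn)] at h2
  refine le_of_tendsto h2 ?_
  filter_upwards [eventually_gt_atTop 0] with c hc
  exact hB _ (by positivity)

end Vale.Agent.P100.RM.Gr
end
end

section

section

open MeasureTheory Metric Set Filter Topology InnerProductSpace Module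

namespace Vale.Agent.P100.RM.Gr

variable {n : ℕ}

lemma kernel_integrableOn (hn : 1 ≤ n) :
    IntegrableOn (fun y : (Eu n) => (‖y‖ ^ (n - 1))⁻¹) (closedBall 0 1) := by
  have : Nonempty (Fin n) := ⟨⟨0, hn⟩⟩
  have : Nontrivial (Eu n) := inferInstance
  have h : Integrable (fun y : (Eu n) => (Iic (1 : ℝ)).indicator (fun r => (r ^ (n - 1))⁻¹) ‖y‖) := by
    rw [integrable_fun_norm_addHaar (μ := (volume : Measure (Eu n)))
      (f := (Iic (1 : ℝ)).indicator (fun r => (r ^ (n - 1))⁻¹))]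
    have h1 : IntegrableOn (fun _ : ℝ => (1 : ℝ)) (Ioc 0 1) := by
      simp only [enorm_one, ne_eq, ENNReal.one_ne_top, not_false_eq_true, integrableOn_const_iff, one_ne_zero, Real.volume_Ioc, sub_zero, ENNReal.ofReal_one, ENNReal.one_lt_top, or_true]
    have h2 : IntegrableOn ((Iic (1 : ℝ)).indicator (fun _ : ℝ => (1 : ℝ))) (Ioi 0) := by
      rw [integrableOn_indicator_iff measurableSet_Iic]
      exact h1.mono_set (by intro x hx; exact ⟨hx.2, hx.1⟩)
    refine h2.congr_fun ?_ measurableSet_Ioi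
    intro r hr
    have hr' : (0 : ℝ) < r := hr
    simp only [indicator, smul_eq_mul, finrank_euclideanSpace_fin]
    split_ifs
    · field_simp
    · simp
  rw [← integrable_indicator_iff measurableSet_closedBall]
  refine h.congr ?_
  filter_upwards with y
  simp only [indicator, mem_Iic, mem_closedBall, dist_zero_right]

/-- kernel bounds -/
lemma kk_bound {s : ℝ} (hs : 0 < s) (hn : 1 ≤ n) (a y : (Eu n)) :
    |kk s a y| ≤ ‖a‖ * (‖y‖ ^ (n - 1))⁻¹ := by
  rcases eq_or_ne y 0 with rfl | hy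
  · simp only [kk, inner_zero_left, zero_mul, abs_zero]; positivity
  have hy0 : 0 < ‖y‖ := norm_pos_iff.mpr hy
  unfold kk
  rw [abs_mul, abs_of_pos (Real.rpow_pos_of_pos (base_pos hs y) _)]
  have h1 : (‖y‖ ^ 2 + s) ^ (-(n : ℝ) / 2) ≤ (‖y‖ ^ n)⁻¹ := by
    have h2 : (‖y‖ ^ n)⁻¹ = (‖y‖ ^ 2) ^ (-(n : ℝ) / 2) := by
      rw [← Real.rpow_natCast ‖y‖ 2, ← Real.rpow_mul hy0.le, ← Real.rpow_natCast ‖y‖ n,
        ← Real.rpow_neg hy0.le]
      congr 1; push_cast; ring
    rw [h2]
    apply Real.rpow_le_rpow_of_nonpos (by positivity) (by linarith only [hs])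
    have : (0 : ℝ) ≤ n := Nat.cast_nonneg n
    linarith
  have h3 : (‖y‖ ^ (n - 1))⁻¹ = ‖y‖ * (‖y‖ ^ n)⁻¹ := by
    obtain ⟨m, rfl⟩ : ∃ m, n = m + 1 := ⟨n - 1, by omega⟩
    simp only [Nat.add_sub_cancel, pow_succ]
    field_simp
  calc |inner ℝ y a| * (‖y‖ ^ 2 + s) ^ (-(n : ℝ) / 2) ≤ (‖y‖ * ‖a‖) * (‖y‖ ^ n)⁻¹ := by
        apply mul_le_mul (abs_real_inner_le_norm y a) h1
          (Real.rpow_nonneg (base_pos hs y).le _) (by (clear * - hy; positivity))
    _ = ‖a‖ * (‖y‖ ^ (n - 1))⁻¹ := by rw [h3]; ring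

lemma base_rpow_le {s : ℝ} (hs : 0 < s) {y : (Eu n)} (hy : 1 / 2 ≤ ‖y‖) :
    (‖y‖ ^ 2 + s) ^ (-(n : ℝ) / 2) ≤ 2 ^ n := by
  have h2 : (2 : ℝ) ^ n = ((1 / 2 : ℝ) ^ 2) ^ (-(n : ℝ) / 2) := by
    rw [← Real.rpow_natCast (1 / 2 : ℝ) 2, ← Real.rpow_mul (by norm_num), one_div,
      Real.inv_rpow (by norm_num), ← Real.rpow_neg (by norm_num), ← Real.rpow_natCast]
    congr 1; push_cast; ring
  rw [h2]
  apply Real.rpow_le_rpow_of_nonpos (by positivity)
  · have : (1 / 2 : ℝ) ^ 2 ≤ ‖y‖ ^ 2 := by gcongr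
    linarith only [hs, this]
  · have : (0 : ℝ) ≤ n := Nat.cast_nonneg n
    linarith

lemma kk_bound_far {s : ℝ} (hs : 0 < s) (a : (Eu n)) {y : (Eu n)} (hy : 1 / 2 ≤ ‖y‖) (hy1 : ‖y‖ ≤ 1) :
    |kk s a y| ≤ 2 ^ n * ‖a‖ := by
  unfold kk
  rw [abs_mul, abs_of_pos (Real.rpow_pos_of_pos (base_pos hs y) _)]
  calc |inner ℝ y a| * (‖y‖ ^ 2 + s) ^ (-(n : ℝ) / 2) ≤ (1 * ‖a‖) * 2 ^ n := by
        apply mul_le_mul _ (base_rpow_le hs hy) (Real.rpow_nonneg (base_pos hs y).le _)
          (by (clear * -; positivity))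
        exact (abs_real_inner_le_norm y a).trans
          (mul_le_mul_of_nonneg_right hy1 (norm_nonneg a))
    _ = 2 ^ n * ‖a‖ := by ring

lemma D_kk_bound_far {s : ℝ} (hs : 0 < s) (a b : (Eu n)) (hb : ‖b‖ = 1) {y : (Eu n)} (hy : 1 / 2 ≤ ‖y‖)
    : |D b (kk s a) y| ≤ (n + 1) * 2 ^ n * ‖a‖ := by
  rw [D_kk hs]
  have hp := base_pos hs y
  set r := (‖y‖ ^ 2 + s) ^ (-(n : ℝ) / 2) with hr
  have hr0 : 0 < r := Real.rpow_pos_of_pos hp _
  have hr1 : r ≤ 2 ^ n := base_rpow_le hs hy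
  have h1 : (‖y‖ ^ 2 + s) ^ (-(n : ℝ) / 2 - 1) = r * (‖y‖ ^ 2 + s)⁻¹ := by
    rw [sub_eq_add_neg, Real.rpow_add hp, Real.rpow_neg_one]
  have h2 : |inner ℝ y a * inner ℝ y b| * (‖y‖ ^ 2 + s)⁻¹ ≤ ‖a‖ := by
    rw [abs_mul]
    have h3 : |inner ℝ y a| * |inner ℝ y b| ≤ (‖y‖ * ‖a‖) * (‖y‖ * 1) := by
      have := abs_real_inner_le_norm y b
      rw [hb] at this
      exact mul_le_mul (abs_real_inner_le_norm y a) this (abs_nonneg _) (by (clear * - hy; positivity))
    calc |inner ℝ y a| * |inner ℝ y b| * (‖y‖ ^ 2 + s)⁻¹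
        ≤ ((‖y‖ * ‖a‖) * (‖y‖ * 1)) * (‖y‖ ^ 2 + s)⁻¹ := by (clear * - h3 hy hs; gcongr)
      _ = ‖a‖ * (‖y‖ ^ 2 / (‖y‖ ^ 2 + s)) := by rw [div_eq_mul_inv]; ring
      _ ≤ ‖a‖ * 1 := by
          gcongr
          rw [div_le_one hp]; linarith only [hs]
      _ = ‖a‖ := mul_one _
  have h4 : |inner ℝ b a| ≤ ‖a‖ := by
    have := abs_real_inner_le_norm b a
    rwa [hb, one_mul] at this
  calc |inner ℝ b a * r - n * (inner ℝ y a * inner ℝ y b) * (‖y‖ ^ 2 + s) ^ (-(n : ℝ) / 2 - 1)|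
      ≤ |inner ℝ b a * r| + |n * (inner ℝ y a * inner ℝ y b) * (‖y‖ ^ 2 + s) ^ (-(n : ℝ) / 2 - 1)| :=
        abs_sub _ _
    _ = |inner ℝ b a| * r + n * r * (|inner ℝ y a * inner ℝ y b| * (‖y‖ ^ 2 + s)⁻¹) := by
        have e1 : |inner ℝ b a * r| = |inner ℝ b a| * r := by rw [abs_mul, abs_of_pos hr0]
        have e2 : |n * (inner ℝ y a * inner ℝ y b) * (‖y‖ ^ 2 + s) ^ (-(n : ℝ) / 2 - 1)| =
            n * |inner ℝ y a * inner ℝ y b| * (r * (‖y‖ ^ 2 + s)⁻¹) := by
          rw [h1, abs_mul, abs_mul (n : ℝ), abs_of_nonneg (Nat.cast_nonneg n : (0 : ℝ) ≤ (n : ℝ)),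
            abs_of_pos (by (clear * - hy hs; positivity) : 0 < r * (‖y‖ ^ 2 + s)⁻¹)]
        rw [e1, e2]; ring
    _ ≤ ‖a‖ * 2 ^ n + n * 2 ^ n * ‖a‖ := by (clear * - h4 hr1 hy hs h2; gcongr)
    _ = (n + 1) * 2 ^ n * ‖a‖ := by ring

end Vale.Agent.P100.RM.Gr
end
end

section

section

open MeasureTheory Metric Set Filter Topology InnerProductSpace Module

namespace Vale.Agent.P100.RM.Gr

variable {n : ℕ}

/-- the cutoff -/
noncomputable def cut (n : ℕ) : ContDiffBump (0 : EuclideanSpace ℝ (Fin n)) :=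
  ⟨1 / 2, 1, by norm_num, by norm_num⟩

/-- the cutoff as a function -/
noncomputable def cf : (Eu n) → ℝ := fun y => cut n y

lemma cf_contDiff {m : ℕ∞} : ContDiff ℝ m (cf (n := n)) := (cut n).contDiff

lemma cf_compact : HasCompactSupport (cf (n := n)) := (cut n).hasCompactSupport

lemma cf_nonneg (y : (Eu n)) : 0 ≤ cf y := (cut n).nonneg

lemma cf_le_one (y : (Eu n)) : cf y ≤ 1 := (cut n).le_one

lemma cf_zero {y : (Eu n)} (hy : 1 < ‖y‖) : cf y = 0 := by
  unfold cf
  apply (cut n).zero_of_le_dist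
  rw [dist_zero_right]; exact hy.le

lemma cf_eq_one {y : (Eu n)} (hy : ‖y‖ < 1 / 2) : cf (n := n) =ᶠ[𝓝 y] fun _ => 1 :=
  (cut n).eventuallyEq_one_of_mem_ball (by rw [mem_ball, dist_zero_right]; exact hy)

lemma cf_eq_zero {y : (Eu n)} (hy : 1 < ‖y‖) : cf (n := n) =ᶠ[𝓝 y] fun _ => 0 := by
  have : {z : (Eu n) | 1 < ‖z‖} ∈ 𝓝 y := (isOpen_lt continuous_const continuous_norm).mem_nhds hy
  filter_upwards [this] with z hz
  exact cf_zero hz

lemma D_congr {F G : (Eu n) → ℝ} {v y : (Eu n)} (h : F =ᶠ[𝓝 y] G) : D v F =ᶠ[𝓝 y] D v G := by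
  filter_upwards [h.eventuallyEq_nhds] with z hz
  unfold D
  rw [hz.fderiv_eq]

lemma D_const (v : (Eu n)) (c : ℝ) : D v (fun _ : (Eu n) => c) = fun _ => 0 := by
  funext y; simp only [D, fderiv_fun_const, Pi.zero_apply, zero_apply]

lemma Dcf_in {y : (Eu n)} (hy : ‖y‖ < 1 / 2 ∨ 1 < ‖y‖) (v : (Eu n)) : D v cf =ᶠ[𝓝 y] fun _ => 0 := by
  rcases hy with hy | hy
  · have := D_congr (v := v) (cf_eq_one hy); rwa [D_const] at this
  · have := D_congr (v := v) (cf_eq_zero hy); rwa [D_const] at this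

lemma DDcf_in {y : (Eu n)} (hy : ‖y‖ < 1 / 2 ∨ 1 < ‖y‖) (u v : (Eu n)) : D u (D v cf) y = 0 := by
  have := (D_congr (v := u) (Dcf_in hy v)).self_of_nhds
  rw [D_const] at this; exact this

lemma cf_bounds : ∃ M : ℝ, 0 ≤ M ∧ ∀ (i : Fin n) (y : (Eu n)), |D (eb i) cf y| ≤ M ∧
    |D (eb i) (D (eb i) cf) y| ≤ M := by
  have h1 : ∀ i : Fin n, ∃ M : ℝ, ∀ y : (Eu n), |D (eb i) cf y| ≤ M := by
    intro i
    obtain ⟨C, hC⟩ := (D_hasCompactSupport (eb i) (cf_compact (n := n))).exists_bound_of_continuous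
      (D_continuous _ (cf_contDiff (n := n) (m := 1)))
    exact ⟨C, hC⟩
  have h2 : ∀ i : Fin n, ∃ M : ℝ, ∀ y : (Eu n), |D (eb i) (D (eb i) cf) y| ≤ M := by
    intro i
    obtain ⟨C, hC⟩ := (D_hasCompactSupport (eb i) (D_hasCompactSupport (eb i)
      (cf_compact (n := n)))).exists_bound_of_continuous
      (D_continuous _ (D_contDiff _ (cf_contDiff (n := n) (m := 2))))
    exact ⟨C, hC⟩
  choose M1 hM1 using h1
  choose M2 hM2 using h2
  refine ⟨∑ i, (|M1 i| + |M2 i|), by (clear * -; positivity), ?_⟩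
  intro i y
  have h3 : |M1 i| + |M2 i| ≤ ∑ i, (|M1 i| + |M2 i|) :=
    Finset.single_le_sum (f := fun i => |M1 i| + |M2 i|) (fun j _ => by positivity)
      (Finset.mem_univ i)
  constructor
  · linarith only [h3, hM1 i y, le_abs_self (M1 i), abs_nonneg (M2 i)]
  · linarith [hM2 i y, le_abs_self (M2 i), abs_nonneg (M1 i)]

lemma int_cs {F : (Eu n) → ℝ} (hF : Continuous F) (hc : HasCompactSupport F) : Integrable F :=
  hF.integrable_of_hasCompactSupport hc

/-- the expanded representation -/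
lemma expand {w : (Eu n) → ℝ} (hw : ContDiff ℝ 2 w) {s : ℝ} (hs : 0 < s) (a : (Eu n)) :
    ∫ y, Laplacian.laplacian (fun z => cf z * w z) y * kk s a y =
      (∫ y, cf y * Laplacian.laplacian w y * kk s a y) -
      ∑ i, ∫ y, w y * (D (eb i) (D (eb i) cf) y * kk s a y +
        2 * (D (eb i) cf y * D (eb i) (kk s a) y)) := by
  have c2 : ContDiff ℝ 2 (cf (n := n)) := cf_contDiff
  have c1 : ContDiff ℝ 1 (cf (n := n)) := cf_contDiff
  have w1 : ContDiff ℝ 1 w := hw.of_le (by norm_num)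
  have k2 := kk_contDiff hs a
  have k1 : ContDiff ℝ 1 (kk (n := n) s a) := k2.of_le (by norm_num)
  have dc : ∀ v, ContDiff ℝ 1 (D v (cf (n := n))) := fun v => D_contDiff v c2
  have dw : ∀ v, ContDiff ℝ 1 (D v w) := fun v => D_contDiff v hw
  have hφ : ContDiff ℝ 2 (fun z => cf z * w z) := c2.mul hw
  have e1 : ∀ i : Fin n, D (eb i) (D (eb i) (fun z => cf z * w z)) = fun y =>
      D (eb i) (D (eb i) cf) y * w y + 2 * (D (eb i) cf y * D (eb i) w y) +
        cf y * D (eb i) (D (eb i) w) y := by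
    intro i
    rw [D_mul _ c1 w1, D_add _ ((dc _).mul w1) (c1.mul (dw _)), D_mul _ (dc _) w1,
      D_mul _ c1 (dw _)]
    funext y; ring
  have e2 : ∀ y, Laplacian.laplacian (fun z => cf z * w z) y * kk s a y =
      cf y * Laplacian.laplacian w y * kk s a y +
      ∑ i, (D (eb i) (D (eb i) cf) y * w y * kk s a y +
        2 * ((D (eb i) cf y * kk s a y) * D (eb i) w y)) := by
    intro y
    rw [lap_eq hφ, lap_eq hw]
    simp only [e1]
    rw [Finset.mul_sum, Finset.sum_mul, Finset.sum_mul, ← Finset.sum_add_distrib]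
    refine Finset.sum_congr rfl ?_
    intro i _; ring
  simp only [e2]
  have cs := cf_compact (n := n)
  have i1 : Integrable (fun y => cf y * Laplacian.laplacian w y * kk s a y) := by
    have : (fun y => cf y * Laplacian.laplacian w y * kk s a y) =
        fun y => ∑ i, cf y * (D (eb i) (D (eb i) w) y * kk s a y) := by
      funext y; rw [lap_eq hw, Finset.mul_sum, Finset.sum_mul]
      refine Finset.sum_congr rfl ?_
      intro i _; ring
    rw [this]
    refine integrable_finset_sum _ fun i _ => ?_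
    exact int_cs (c1.continuous.mul ((D_continuous _ (dw _)).mul k1.continuous)) cs.mul_right
  have i2 : ∀ i : Fin n, Integrable (fun y => D (eb i) (D (eb i) cf) y * w y * kk s a y) := by
    intro i
    exact int_cs (((D_continuous _ (dc _)).mul w1.continuous).mul k1.continuous)
      ((D_hasCompactSupport _ (D_hasCompactSupport _ cs)).mul_right.mul_right)
  have i3 : ∀ i : Fin n, Integrable (fun y => (D (eb i) cf y * kk s a y) * D (eb i) w y) := by
    intro i
    exact int_cs ((((dc _).continuous).mul k1.continuous).mul (D_continuous _ w1))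
      ((D_hasCompactSupport _ cs).mul_right.mul_right)
  have i23 : ∀ i : Fin n, Integrable (fun y => D (eb i) (D (eb i) cf) y * w y * kk s a y +
      2 * ((D (eb i) cf y * kk s a y) * D (eb i) w y)) := fun i => (i2 i).add ((i3 i).const_mul 2)
  rw [integral_add i1 (integrable_finset_sum _ fun i _ => i23 i),
    integral_finset_sum _ (fun i _ => i23 i), sub_eq_add_neg,
    ← Finset.sum_neg_distrib]
  congr 1
  refine Finset.sum_congr rfl ?_
  intro i _
  rw [integral_add (i2 i) ((i3 i).const_mul 2), integral_const_mul,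
    ibp (eb i) ((dc _).mul k1) w1 ((D_hasCompactSupport _ cs).mul_right), D_mul _ (dc _) k1]
  have i4 : Integrable (fun y => w y * (D (eb i) (D (eb i) cf) y * kk s a y)) :=
    (i2 i).congr (by filter_upwards with y; ring)
  have i5 : Integrable (fun y => w y * (D (eb i) cf y * D (eb i) (kk s a) y)) :=
    int_cs (w1.continuous.mul ((dc _).continuous.mul (D_continuous _ k1)))
      ((D_hasCompactSupport _ cs).mul_right.mul_left)
  have j1 : ∫ y, D (eb i) (D (eb i) cf) y * w y * kk s a y =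
      ∫ y, w y * (D (eb i) (D (eb i) cf) y * kk s a y) := by
    congr 1; funext y; ring
  have j2 : ∫ y, (D (eb i) (D (eb i) cf) y * kk s a y + D (eb i) cf y * D (eb i) (kk s a) y) * w y
      = (∫ y, w y * (D (eb i) (D (eb i) cf) y * kk s a y)) +
        ∫ y, w y * (D (eb i) cf y * D (eb i) (kk s a) y) := by
    rw [← integral_add i4 i5]
    congr 1; funext y; ring
  have j3 : ∫ y, w y * (D (eb i) (D (eb i) cf) y * kk s a y +
        2 * (D (eb i) cf y * D (eb i) (kk s a) y)) =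
      (∫ y, w y * (D (eb i) (D (eb i) cf) y * kk s a y)) +
        2 * ∫ y, w y * (D (eb i) cf y * D (eb i) (kk s a) y) := by
    rw [← integral_const_mul, ← integral_add i4 (i5.const_mul 2)]
    congr 1; funext y; ring
  rw [j1, j2, j3]; ring

end Vale.Agent.P100.RM.Gr
end
end

section

section

open MeasureTheory Metric Set Filter Topology InnerProductSpace Module

namespace Vale.Agent.P100.RM.Gr

variable {n : ℕ}

lemma lap_continuous {w : (Eu n) → ℝ} (hw : ContDiff ℝ 2 w) : Continuous (Laplacian.laplacian w) := by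
  have : Laplacian.laplacian w = fun y => ∑ i, D (eb i) (D (eb i) w) y := by
    funext y; exact lap_eq hw y
  rw [this]
  exact continuous_finset_sum _ fun i _ => D_continuous _ (D_contDiff _ hw)

/-- the kernel times a continuous function is integrable on the unit ball -/
lemma kernel_mul_integrableOn (hn : 1 ≤ n) {g : (Eu n) → ℝ} (hg : Continuous g) :
    IntegrableOn (fun y : (Eu n) => (‖y‖ ^ (n - 1))⁻¹ * |g y|) (closedBall 0 1) := by
  obtain ⟨C, hC⟩ := (isCompact_closedBall (0 : (Eu n)) 1).exists_bound_of_continuousOn hg.continuousOn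
  refine ((kernel_integrableOn hn).mul_const C).mono' ?_ ?_
  · exact ((by fun_prop : Measurable fun y : (Eu n) => (‖y‖ ^ (n - 1))⁻¹).mul
      hg.measurable.abs).aestronglyMeasurable
  · refine (ae_restrict_iff' measurableSet_closedBall).mpr ?_
    filter_upwards with y hy
    have h1 := hC y hy
    rw [Real.norm_eq_abs, abs_mul, abs_abs, abs_of_nonneg (by positivity)]
    exact mul_le_mul_of_nonneg_left h1 (by positivity)

/-- first error term -/
lemma term1 (hn : 1 ≤ n) {w : (Eu n) → ℝ} (hw : ContDiff ℝ 2 w) {s : ℝ} (hs : 0 < s) (a : (Eu n)) :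
    |∫ y, cf y * Laplacian.laplacian w y * kk s a y| ≤
      ‖a‖ * ∫ y in closedBall (0 : (Eu n)) 1, (‖y‖ ^ (n - 1))⁻¹ * |Laplacian.laplacian w y| := by
  rw [← integral_const_mul, ← integral_indicator measurableSet_closedBall]
  refine abs_integral_le_integral_abs.trans ?_
  refine integral_mono_of_nonneg (Eventually.of_forall fun y => abs_nonneg _) ?_
    (Eventually.of_forall fun y => ?_)
  · rw [integrable_indicator_iff measurableSet_closedBall]
    exact (kernel_mul_integrableOn hn (lap_continuous hw)).const_mul _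
  · simp only [indicator, mem_closedBall, dist_zero_right]
    split_ifs with hy
    · rw [abs_mul, abs_mul, abs_of_nonneg (cf_nonneg y)]
      have h5 := kk_bound hs hn a y
      calc cf y * |Laplacian.laplacian w y| * |kk s a y|
          ≤ 1 * |Laplacian.laplacian w y| * (‖a‖ * (‖y‖ ^ (n - 1))⁻¹) := by
            gcongr
            exact cf_le_one y
        _ = ‖a‖ * ((‖y‖ ^ (n - 1))⁻¹ * |Laplacian.laplacian w y|) := by ring
    · rw [cf_zero (not_le.mp hy)]; simp

/-- pointwise bound of the second kernel -/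
lemma term2_pt {M : ℝ} (hM0 : 0 ≤ M) (i : Fin n)
    (hM : ∀ y : (Eu n), |D (eb i) cf y| ≤ M ∧ |D (eb i) (D (eb i) cf) y| ≤ M) {s : ℝ} (hs : 0 < s)
    (a y : (Eu n)) : |D (eb i) (D (eb i) cf) y * kk s a y + 2 * (D (eb i) cf y * D (eb i) (kk s a) y)| ≤
      (closedBall (0 : (Eu n)) 1).indicator
        (fun _ => (M * 2 ^ n + 2 * (M * ((n + 1) * 2 ^ n))) * ‖a‖) y := by
  by_cases hy1 : ‖y‖ < 1 / 2 ∨ 1 < ‖y‖
  · have e1 : D (eb i) cf y = 0 := (Dcf_in hy1 _).self_of_nhds
    rw [DDcf_in hy1, e1]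
    simp only [zero_mul, mul_zero, add_zero, abs_zero, indicator]
    split_ifs <;> positivity
  · push Not at hy1
    have hmem : y ∈ closedBall (0 : (Eu n)) 1 := by rw [mem_closedBall, dist_zero_right]; exact hy1.2
    rw [indicator_of_mem hmem]
    have b1 := (hM y).1
    have b2 := (hM y).2
    have b3 := kk_bound_far hs a hy1.1 hy1.2
    have b4 := D_kk_bound_far hs a (eb i) (by simp [eb]) hy1.1
    calc |D (eb i) (D (eb i) cf) y * kk s a y + 2 * (D (eb i) cf y * D (eb i) (kk s a) y)|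
        ≤ |D (eb i) (D (eb i) cf) y * kk s a y| +
          |2 * (D (eb i) cf y * D (eb i) (kk s a) y)| := abs_add_le _ _
      _ = |D (eb i) (D (eb i) cf) y| * |kk s a y| +
          2 * (|D (eb i) cf y| * |D (eb i) (kk s a) y|) := by
          rw [abs_mul, abs_mul, abs_mul, abs_two]
      _ ≤ M * (2 ^ n * ‖a‖) + 2 * (M * ((n + 1) * 2 ^ n * ‖a‖)) := by (clear * - b2 b3 hM0 b1 b4; gcongr)
      _ = (M * 2 ^ n + 2 * (M * ((n + 1) * 2 ^ n))) * ‖a‖ := by ring

/-- second error term -/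
lemma term2 {w : (Eu n) → ℝ} (hw : Continuous w) {G : (Eu n) → ℝ} {c : ℝ}
    (hG : ∀ y, |G y| ≤ (closedBall (0 : (Eu n)) 1).indicator (fun _ => c) y) :
    |∫ y, w y * G y| ≤ c * ∫ y in closedBall (0 : (Eu n)) 1, |w y| := by
  rw [← integral_const_mul, ← integral_indicator measurableSet_closedBall]
  refine abs_integral_le_integral_abs.trans ?_
  refine integral_mono_of_nonneg (Eventually.of_forall fun y => abs_nonneg _) ?_
    (Eventually.of_forall fun y => ?_)
  · rw [integrable_indicator_iff measurableSet_closedBall]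
    exact (hw.abs.continuousOn.integrableOn_compact (isCompact_closedBall 0 1)).const_mul _
  · have := hG y
    simp only [indicator, mem_closedBall, dist_zero_right] at this ⊢
    split_ifs with hy
    · rw [if_pos hy] at this
      rw [abs_mul, mul_comm]
      exact mul_le_mul_of_nonneg_right this (abs_nonneg _)
    · rw [if_neg hy] at this
      rw [abs_mul]
      have h0 : |G y| = 0 := le_antisymm this (abs_nonneg _)
      rw [h0, mul_zero]

/-- the estimate for every regularisation parameter -/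
lemma reg_bound (hn : 1 ≤ n) {M : ℝ} (hM0 : 0 ≤ M)
    (hM : ∀ (i : Fin n) (y : (Eu n)), |D (eb i) cf y| ≤ M ∧ |D (eb i) (D (eb i) cf) y| ≤ M)
    {w : (Eu n) → ℝ} (hw : ContDiff ℝ 2 w) {s : ℝ} (hs : 0 < s) (a : (Eu n)) :
    |∫ y, D a (fun z => cf z * w z) y * psi s y| ≤
      ‖a‖ * (∫ y in closedBall (0 : (Eu n)) 1, (‖y‖ ^ (n - 1))⁻¹ * |Laplacian.laplacian w y|) +
      n * ((M * 2 ^ n + 2 * (M * ((n + 1) * 2 ^ n))) * ‖a‖ *
        ∫ y in closedBall (0 : (Eu n)) 1, |w y|) := by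
  have c2 : ContDiff ℝ 2 (cf (n := n)) := cf_contDiff
  have hφ : ContDiff ℝ 2 (fun z => cf z * w z) := c2.mul hw
  have hφc : HasCompactSupport (fun z => cf z * w z) := cf_compact.mul_right
  have h1 := repr hφ hφc hs a
  have h2 := expand hw hs a
  have h3 : ∫ y, D a (fun z => cf z * w z) y * psi s y =
      -((∫ y, cf y * Laplacian.laplacian w y * kk s a y) -
    ∑ i, ∫ y, w y * (D (eb i) (D (eb i) cf) y * kk s a y +
      2 * (D (eb i) cf y * D (eb i) (kk s a) y))) := by
    rw [← h2, ← h1]; rfl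
  rw [h3, abs_neg]
  refine (abs_sub _ _).trans ?_
  refine add_le_add (term1 hn hw hs a) ((Finset.abs_sum_le_sum_abs _ _).trans ?_)
  calc _ ≤ ∑ i : Fin n, (M * 2 ^ n + 2 * (M * ((n + 1) * 2 ^ n))) * ‖a‖ *
        ∫ y in closedBall (0 : (Eu n)) 1, |w y| :=
        Finset.sum_le_sum fun i _ => term2 hw.continuous (term2_pt hM0 i (hM i) hs a)
    _ = _ := by simp only [Finset.sum_const, Finset.card_univ, Fintype.card_fin, nsmul_eq_mul]

theorem grad_unit (hn : 1 ≤ n) : ∃ C : ℝ, 0 < C ∧ ∀ w : (Eu n) → ℝ, ContDiff ℝ 2 w → ∀ a : (Eu n),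
    |D a w 0| ≤ ‖a‖ * (C * (∫ y in closedBall (0 : (Eu n)) 1, |w y|) +
      C * ∫ y in closedBall (0 : (Eu n)) 1, (‖y‖ ^ (n - 1))⁻¹ * |Laplacian.laplacian w y|) := by
  obtain ⟨M, hM0, hM⟩ := cf_bounds (n := n)
  have hZ := Zm_pos hn
  obtain ⟨CJ, hCJ⟩ : ∃ CJ : ℝ, CJ = M * 2 ^ n + 2 * (M * ((n + 1) * 2 ^ n)) := ⟨_, rfl⟩
  have hCJ0 : 0 ≤ CJ := by rw [hCJ]; (clear * - hM0 hn; positivity)
  refine ⟨(Zm n)⁻¹ * (1 + n * CJ), by positivity, ?_⟩
  intro w hw a
  have w1 : ContDiff ℝ 1 w := hw.of_le (by norm_num)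
  have c2 : ContDiff ℝ 2 (cf (n := n)) := cf_contDiff
  have c1 : ContDiff ℝ 1 (cf (n := n)) := cf_contDiff
  have hφ : ContDiff ℝ 2 (fun z => cf z * w z) := c2.mul hw
  have hφc : HasCompactSupport (fun z => cf z * w z) := cf_compact.mul_right
  have hg0 : D a (fun z => cf z * w z) 0 = D a w 0 := by
    rw [D_mul a c1 w1]
    have h1 : D a cf (0 : (Eu n)) = 0 := (Dcf_in (Or.inl (by simp)) a).self_of_nhds
    have h2 : cf (0 : (Eu n)) = 1 := (cf_eq_one (by simp)).self_of_nhds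
    show D a cf 0 * w 0 + cf 0 * D a w 0 = D a w 0
    rw [h1, h2]; ring
  have key := peak hn (D_continuous a (hφ.of_le (by norm_num))) (D_hasCompactSupport a hφc)
    (fun s hs => reg_bound hn hM0 hM hw hs a)
  rw [hg0, ← hCJ] at key
  obtain ⟨I1, hI1⟩ : ∃ I1, I1 = ∫ y in closedBall (0 : (Eu n)) 1, |w y| := ⟨_, rfl⟩
  obtain ⟨I2, hI2⟩ : ∃ I2, I2 = ∫ y in closedBall (0 : (Eu n)) 1,
      (‖y‖ ^ (n - 1))⁻¹ * |Laplacian.laplacian w y| := ⟨_, rfl⟩
  have hI1n : 0 ≤ I1 := by rw [hI1]; exact integral_nonneg fun y => abs_nonneg _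
  have hI2n : 0 ≤ I2 := by rw [hI2]; exact integral_nonneg fun y => by (clear * -; positivity)
  rw [← hI1, ← hI2] at key ⊢
  have k2 : |D a w 0| ≤ (Zm n)⁻¹ * (‖a‖ * I2 + n * (CJ * ‖a‖ * I1)) := by
    rw [inv_mul_eq_div, le_div_iff₀ hZ]; linarith only [key]
  refine k2.trans ?_
  have ha := norm_nonneg a
  have hn0 : (0 : ℝ) ≤ n := Nat.cast_nonneg n
  have hZi : 0 < (Zm n)⁻¹ := inv_pos.mpr hZ
  have h1 : ‖a‖ * ((Zm n)⁻¹ * (1 + n * CJ) * I1 + (Zm n)⁻¹ * (1 + n * CJ) * I2) -
      (Zm n)⁻¹ * (‖a‖ * I2 + n * (CJ * ‖a‖ * I1)) =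
      (Zm n)⁻¹ * (‖a‖ * I1 + n * CJ * (‖a‖ * I2)) := by ring
  have h0 : 0 ≤ (Zm n)⁻¹ * (‖a‖ * I1 + n * CJ * (‖a‖ * I2)) := by (clear * - hZ hI1n hn hCJ0 hI2n; positivity)
  linarith only [h0]

end Vale.Agent.P100.RM.Gr
end
end

section

section

open MeasureTheory Metric Set Filter Topology InnerProductSpace Module

namespace Vale.Agent.P100.RM.Gr

variable {n : ℕ}

/-- gluing with a constant -/
lemma glue {h h' : ℝ → ℝ} {L : ℝ} (hd : ∀ σ, 0 < σ → HasDerivAt h (h' σ) σ) (h0 : h' L = 0)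
    (hL : 0 < L) {σ : ℝ} (hσ : 0 < σ) :
    HasDerivAt (fun t => h (min t L)) (h' (min σ L)) σ := by
  rcases lt_trichotomy σ L with hlt | heq | hgt
  · rw [min_eq_left hlt.le]
    refine (hd σ hσ).congr_of_eventuallyEq ?_
    filter_upwards [gt_mem_nhds hlt] with t ht
    rw [min_eq_left (le_of_lt ht)]
  · subst heq
    rw [min_self, h0]
    have h1 : HasDerivWithinAt (fun t => h (min t σ)) 0 (Iic σ) σ := by
      have := (hd σ hσ).hasDerivWithinAt (s := Iic σ)
      rw [h0] at this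
      refine this.congr ?_ ?_
      · intro t ht; rw [min_eq_left ht]
      · rw [min_self]
    have h2 : HasDerivWithinAt (fun t => h (min t σ)) 0 (Ici σ) σ := by
      refine (hasDerivWithinAt_const σ (Ici σ) (h σ)).congr ?_ ?_
      · intro t ht; rw [min_eq_right ht]
      · rw [min_self]
    have h3 := h1.union h2
    rw [Iic_union_Ici] at h3
    exact hasDerivWithinAt_univ.mp h3
  · rw [min_eq_right hgt.le, h0]
    refine (hasDerivAt_const σ (h L)).congr_of_eventuallyEq ?_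
    filter_upwards [lt_mem_nhds hgt] with t ht
    rw [min_eq_right (le_of_lt ht)]

/-- the profile and its derivatives; `L = 4`, exponent `-α`. -/
noncomputable def pr (α : ℝ) (σ : ℝ) : ℝ :=
  σ ^ (-α) - (4 ^ (-α) + -α * 4 ^ (-α - 1) * (σ - 4) +
    -α * (-α - 1) * 4 ^ (-α - 1 - 1) * (σ - 4) ^ 2 / 2)

noncomputable def pr1 (α : ℝ) (σ : ℝ) : ℝ :=
  -α * σ ^ (-α - 1) - (-α * 4 ^ (-α - 1) + -α * (-α - 1) * 4 ^ (-α - 1 - 1) * (σ - 4))

noncomputable def pr2 (α : ℝ) (σ : ℝ) : ℝ :=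
  -α * (-α - 1) * σ ^ (-α - 1 - 1) - -α * (-α - 1) * 4 ^ (-α - 1 - 1)

lemma pr_deriv (α : ℝ) {σ : ℝ} (hσ : 0 < σ) : HasDerivAt (pr α) (pr1 α σ) σ := by
  have h1 := Real.hasDerivAt_rpow_const (x := σ) (p := -α) (Or.inl hσ.ne')
  have h2 : HasDerivAt (fun σ : ℝ => (4 : ℝ) ^ (-α) + -α * 4 ^ (-α - 1) * (σ - 4) +
    -α * (-α - 1) * 4 ^ (-α - 1 - 1) * (σ - 4) ^ 2 / 2)
      (-α * 4 ^ (-α - 1) + -α * (-α - 1) * 4 ^ (-α - 1 - 1) * (σ - 4)) σ := by
    have h3 : HasDerivAt (fun σ : ℝ => σ - 4) 1 σ := (hasDerivAt_id σ).sub_const 4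
    have h4 := ((h3.const_mul (-α * 4 ^ (-α - 1))).const_add ((4 : ℝ) ^ (-α))).add
      (((h3.fun_pow 2).const_mul (-α * (-α - 1) * 4 ^ (-α - 1 - 1))).div_const 2)
    refine h4.congr_deriv ?_
    push_cast; ring
  exact h1.sub h2

lemma pr1_deriv (α : ℝ) {σ : ℝ} (hσ : 0 < σ) : HasDerivAt (pr1 α) (pr2 α σ) σ := by
  have h1 := (Real.hasDerivAt_rpow_const (x := σ) (p := -α - 1) (Or.inl hσ.ne')).const_mul (-α)
  have h2 : HasDerivAt (fun σ : ℝ => -α * (4 : ℝ) ^ (-α - 1) +
    -α * (-α - 1) * 4 ^ (-α - 1 - 1) * (σ - 4)) (-α * (-α - 1) * 4 ^ (-α - 1 - 1)) σ := by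
    have h3 : HasDerivAt (fun σ : ℝ => σ - 4) 1 σ := (hasDerivAt_id σ).sub_const 4
    have h4 := (h3.const_mul (-α * (-α - 1) * (4 : ℝ) ^ (-α - 1 - 1))).const_add
      (-α * (4 : ℝ) ^ (-α - 1))
    refine h4.congr_deriv ?_
    ring
  refine (h1.sub h2).congr_deriv ?_
  unfold pr2; ring

lemma pr_four (α : ℝ) : pr α 4 = 0 := by unfold pr; ring
lemma pr1_four (α : ℝ) : pr1 α 4 = 0 := by unfold pr1; ring
lemma pr2_four (α : ℝ) : pr2 α 4 = 0 := by unfold pr2; ring

lemma pr2_nonneg {α : ℝ} (hα : 0 ≤ α) {σ : ℝ} (hσ : 0 < σ) (hσ4 : σ ≤ 4) : 0 ≤ pr2 α σ := by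
  unfold pr2
  have h1 : (4 : ℝ) ^ (-α - 1 - 1) ≤ σ ^ (-α - 1 - 1) :=
    Real.rpow_le_rpow_of_nonpos hσ hσ4 (by linarith only [hα])
  have h2 : 0 ≤ -α * (-α - 1) := by nlinarith only [hα]
  nlinarith only [h1, h2]

lemma pr1_nonpos {α : ℝ} (hα : 0 ≤ α) {σ : ℝ} (hσ : 0 < σ) (hσ4 : σ ≤ 4) : pr1 α σ ≤ 0 := by
  have hmono : MonotoneOn (pr1 α) (Ioc 0 4) := by
    refine monotoneOn_of_deriv_nonneg (convex_Ioc 0 4) ?_ ?_ ?_
    · intro x hx; exact (pr1_deriv α hx.1).continuousAt.continuousWithinAt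
    · intro x hx
      rw [interior_Ioc] at hx
      exact (pr1_deriv α hx.1).differentiableAt.differentiableWithinAt
    · intro x hx
      rw [interior_Ioc] at hx
      rw [(pr1_deriv α hx.1).deriv]
      exact pr2_nonneg hα hx.1 hx.2.le
  have := hmono ⟨hσ, hσ4⟩ ⟨by norm_num, le_rfl⟩ hσ4
  rwa [pr1_four] at this

lemma pr_nonneg {α : ℝ} (hα : 0 ≤ α) {σ : ℝ} (hσ : 0 < σ) (hσ4 : σ ≤ 4) : 0 ≤ pr α σ := by
  have hmono : AntitoneOn (pr α) (Ioc 0 4) := by
    refine antitoneOn_of_deriv_nonpos (convex_Ioc 0 4) ?_ ?_ ?_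
    · intro x hx; exact (pr_deriv α hx.1).continuousAt.continuousWithinAt
    · intro x hx
      rw [interior_Ioc] at hx
      exact (pr_deriv α hx.1).differentiableAt.differentiableWithinAt
    · intro x hx
      rw [interior_Ioc] at hx
      rw [(pr_deriv α hx.1).deriv]
      exact pr1_nonpos hα hx.1 hx.2.le
  have := hmono ⟨hσ, hσ4⟩ ⟨by norm_num, le_rfl⟩ hσ4
  rwa [pr_four] at this

end Vale.Agent.P100.RM.Gr
end
end

section

section

open MeasureTheory Metric Set Filter Topology InnerProductSpace Module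

namespace Vale.Agent.P100.RM.Gr

variable {n : ℕ}

/-- integration by parts, differentiable version -/
lemma ibp' {F G : (Eu n) → ℝ} (v : (Eu n)) (hF : Differentiable ℝ F) (hF' : Continuous (D v F))
    (hG : Differentiable ℝ G) (hG' : Continuous (D v G))
    (hc : HasCompactSupport F) : ∫ y, F y * D v G y = - ∫ y, D v F y * G y := by
  refine integral_mul_fderiv_eq_neg_fderiv_mul_of_integrable ?_ ?_ ?_ ?_ ?_
  · exact (hF'.mul hG.continuous).integrable_of_hasCompactSupport
      ((D_hasCompactSupport v hc).mul_right)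
  · exact (hF.continuous.mul hG').integrable_of_hasCompactSupport (hc.mul_right)
  · exact (hF.continuous.mul hG.continuous).integrable_of_hasCompactSupport (hc.mul_right)
  · intro x _; exact hF x
  · intro x _; exact hG x

/-- truncated argument -/
noncomputable def tm (s : ℝ) (y : (Eu n)) : ℝ := min (‖y‖ ^ 2 + s) 4

lemma tm_pos {s : ℝ} (hs : 0 < s) (y : (Eu n)) : 0 < tm s y := lt_min (base_pos hs y) (by norm_num)

lemma tm_le (s : ℝ) (y : (Eu n)) : tm s y ≤ 4 := min_le_right _ _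

lemma tm_continuous (s : ℝ) : Continuous (tm (n := n) s) := by unfold tm; fun_prop

/-- composition rule -/
lemma D_tm {h h' : ℝ → ℝ} (hd : ∀ σ, 0 < σ → HasDerivAt h (h' σ) σ) (h0 : h' 4 = 0) {s : ℝ}
    (hs : 0 < s) (y : (Eu n)) :
    HasFDerivAt (fun z : (Eu n) => h (tm s z)) ((h' (tm s y)) • (2 • (innerSL ℝ y))) y := by
  have h2 : HasFDerivAt (fun z : (Eu n) => ‖z‖ ^ 2 + s) (2 • (innerSL ℝ y)) y :=
    (hasStrictFDerivAt_norm_sq y).hasFDerivAt.add_const s
  have h3 := glue hd h0 (by norm_num) (base_pos hs y)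
  have h4 : HasFDerivAt ((fun t => h (min t 4)) ∘ fun z : (Eu n) => ‖z‖ ^ 2 + s) _ y :=
    h3.comp_hasFDerivAt y h2
  exact h4

/-- test function -/
noncomputable def Qf (α s : ℝ) : (Eu n) → ℝ := fun y => pr α (tm s y)

lemma Qf_hasFDerivAt (α : ℝ) {s : ℝ} (hs : 0 < s) (y : (Eu n)) :
    HasFDerivAt (Qf (n := n) α s) ((pr1 α (tm s y)) • (2 • (innerSL ℝ y))) y :=
  D_tm (fun _ hσ => pr_deriv α hσ) (pr1_four α) hs y

lemma D_Qf (α : ℝ) {s : ℝ} (hs : 0 < s) (a : (Eu n)) :
    D a (Qf α s) = fun y => pr1 α (tm s y) * (2 * inner ℝ y a) := by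
  funext y
  unfold D
  rw [(Qf_hasFDerivAt α hs y).fderiv]
  simp

lemma D_Qf_hasFDerivAt (α : ℝ) {s : ℝ} (hs : 0 < s) (a y : (Eu n)) :
    HasFDerivAt (fun y : (Eu n) => pr1 α (tm s y) * (2 * inner ℝ y a))
      ((pr1 α (tm s y)) • (2 • innerSL ℝ a) +
        (2 * inner ℝ y a) • ((pr2 α (tm s y)) • (2 • (innerSL ℝ y)))) y := by
  have h1 : HasFDerivAt (fun z : (Eu n) => 2 * inner ℝ z a) (2 • innerSL ℝ a) y := by
    have := (2 • innerSL ℝ a).hasFDerivAt (x := y)
    refine this.congr_of_eventuallyEq ?_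
    filter_upwards with z
    simp [real_inner_comm]
  exact (D_tm (fun _ hσ => pr1_deriv α hσ) (pr2_four α) hs y).mul h1

lemma DD_Qf (α : ℝ) {s : ℝ} (hs : 0 < s) (a : (Eu n)) :
    D a (D a (Qf α s)) = fun y => pr1 α (tm s y) * (2 * inner ℝ a a) +
      pr2 α (tm s y) * (4 * inner ℝ y a ^ 2) := by
  rw [D_Qf α hs]
  funext y
  unfold D
  rw [(D_Qf_hasFDerivAt α hs a y).fderiv]
  simp only [add_apply, smul_apply, smul_eq_mul, innerSL_apply_apply, nsmul_eq_mul, Nat.cast_ofNat]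
  ring

lemma pr1_continuous (α : ℝ) : ContinuousOn (pr1 α) (Ioi 0) :=
  fun _ hx => (pr1_deriv α hx).continuousAt.continuousWithinAt

lemma pr2_continuous (α : ℝ) : ContinuousOn (pr2 α) (Ioi 0) := by
  intro x hx
  unfold pr2
  have : ContinuousAt (fun σ : ℝ => σ ^ (-α - 1 - 1)) x :=
    Real.continuousAt_rpow_const _ _ (Or.inl (ne_of_gt hx))
  exact ((continuousAt_const.mul this).sub continuousAt_const).continuousWithinAt

lemma comp_tm {h : ℝ → ℝ} (hh : ContinuousOn h (Ioi 0)) {s : ℝ} (hs : 0 < s) :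
    Continuous (fun y : (Eu n) => h (tm s y)) :=
  hh.comp_continuous (tm_continuous s) (fun y => tm_pos hs y)

lemma Qf_compact (α : ℝ) {s : ℝ} (hs : 0 < s) : HasCompactSupport (Qf (n := n) α s) := by
  refine HasCompactSupport.intro (isCompact_closedBall (0 : (Eu n)) 2) ?_
  intro y hy
  rw [mem_closedBall, dist_zero_right, not_le] at hy
  unfold Qf tm
  rw [min_eq_right (by nlinarith only [hs, hy]), pr_four]

/-- the Laplacian of the test function -/
noncomputable def LQ (n : ℕ) (α s : ℝ) (y : EuclideanSpace ℝ (Fin n)) : ℝ :=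
  2 * n * pr1 α (tm s y) + 4 * ‖y‖ ^ 2 * pr2 α (tm s y)

lemma sum_DD_Qf (α : ℝ) {s : ℝ} (hs : 0 < s) (y : (Eu n)) :
    ∑ i, D (eb i) (D (eb i) (Qf α s)) y = LQ n α s y := by
  have h1 : ∀ i : Fin n, D (eb i) (D (eb i) (Qf α s)) y =
      pr1 α (tm s y) * 2 + pr2 α (tm s y) * 4 * (y i) ^ 2 := by
    intro i
    have : inner ℝ (eb i) (eb i) = (1 : ℝ) := by simp only [eb, EuclideanSpace.basisFun_apply, inner_self_eq_norm_sq_to_K, PiLp.norm_single, norm_one, Real.ringHom_apply, one_pow]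
    rw [DD_Qf α hs, this]
    simp only [inner_eb]; ring
  rw [Finset.sum_congr rfl fun i _ => h1 i, Finset.sum_add_distrib, ← Finset.mul_sum
    (f := fun i : Fin n => (y i) ^ 2)]
  have h2 : ∑ i : Fin n, (y i) ^ 2 = ‖y‖ ^ 2 := by
    rw [EuclideanSpace.norm_sq_eq]; simp only [Real.norm_eq_abs, sq_abs]
  rw [h2]
  simp only [Finset.sum_const, Finset.card_univ, Fintype.card_fin, nsmul_eq_mul]
  unfold LQ; ring

lemma LQ_continuous (α : ℝ) {s : ℝ} (hs : 0 < s) : Continuous (LQ n α s) := by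
  unfold LQ
  exact (continuous_const.mul (comp_tm (pr1_continuous α) hs)).add
    ((continuous_const.mul (continuous_norm.pow 2)).mul (comp_tm (pr2_continuous α) hs))

/-- Green identity -/
lemma green {w : (Eu n) → ℝ} (hw : ContDiff ℝ 2 w) (α : ℝ) {s : ℝ} (hs : 0 < s) :
    ∫ y, Qf α s y * Laplacian.laplacian w y = ∫ y, LQ n α s y * w y := by
  have hQd : Differentiable ℝ (Qf (n := n) α s) :=
    fun y => (Qf_hasFDerivAt α hs y).differentiableAt
  have hQ1 : ∀ a : (Eu n), Continuous (D a (Qf α s)) := by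
    intro a; rw [D_Qf α hs]
    exact (comp_tm (pr1_continuous α) hs).mul (by fun_prop)
  have hQ1d : ∀ a : (Eu n), Differentiable ℝ (D a (Qf α s)) := by
    intro a; rw [D_Qf α hs]
    exact fun y => (D_Qf_hasFDerivAt α hs a y).differentiableAt
  have hQ2 : ∀ a : (Eu n), Continuous (D a (D a (Qf α s))) := by
    intro a; rw [DD_Qf α hs]
    exact ((comp_tm (pr1_continuous α) hs).mul continuous_const).add
      ((comp_tm (pr2_continuous α) hs).mul (by fun_prop))
  have hc := Qf_compact (n := n) α hs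
  have w1 : ContDiff ℝ 1 w := hw.of_le (by norm_num)
  have wd : ∀ a : (Eu n), Differentiable ℝ (D a w) := fun a =>
    (D_contDiff a hw).differentiable (by norm_num)
  have e1 : ∀ y, Qf α s y * Laplacian.laplacian w y =
      ∑ i, Qf α s y * D (eb i) (D (eb i) w) y := by
    intro y; rw [lap_eq hw, Finset.mul_sum]
  have e2 : ∀ y, LQ n α s y * w y = ∑ i, D (eb i) (D (eb i) (Qf α s)) y * w y := by
    intro y; rw [← sum_DD_Qf α hs, Finset.sum_mul]
  simp only [e1, e2]
  rw [integral_finset_sum, integral_finset_sum]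
  · refine Finset.sum_congr rfl fun i _ => ?_
    rw [ibp' (eb i) hQd (hQ1 _) (wd _) (D_continuous _ (D_contDiff _ hw)) hc,
      ibp' (eb i) (hQ1d _) (hQ2 _) (w1.differentiable (by norm_num)) (D_continuous _ w1)
        (D_hasCompactSupport _ hc), neg_neg]
  · intro i _
    exact int_cs ((hQ2 _).mul w1.continuous)
      ((D_hasCompactSupport _ (D_hasCompactSupport _ hc)).mul_right)
  · intro i _
    exact int_cs (hQd.continuous.mul (D_continuous _ (D_contDiff _ hw))) hc.mul_right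

/-- lower bound of the Laplacian -/
lemma LQ_lower (hn : 3 ≤ n) {s : ℝ} (hs : 0 < s) (y : (Eu n)) (hy : ‖y‖ ^ 2 + s ≤ 4) :
    ((n : ℝ) / 2 - 1) * n * (n + 2) * 4 ^ (-((n : ℝ) / 2 - 1) - 1 - 1) * (4 - (‖y‖ ^ 2 + s)) -
      (n - 2) * psi s y ≤ LQ n ((n : ℝ) / 2 - 1) s y := by
  have hn' : (3 : ℝ) ≤ n := by exact_mod_cast hn
  have hb := base_pos hs y
  unfold LQ tm psi
  rw [min_eq_left hy]
  unfold pr1 pr2
  obtain ⟨σ, hσ⟩ : ∃ σ, σ = ‖y‖ ^ 2 + s := ⟨_, rfl⟩
  have hy2 : ‖y‖ ^ 2 = σ - s := by rw [hσ]; ring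
  rw [← hσ] at hb ⊢
  rw [hy2]
  have e1 : σ ^ (-((n : ℝ) / 2 - 1) - 1) = σ ^ (-(n : ℝ) / 2 - 1) * σ := by
    rw [← Real.rpow_add_one hb.ne']; ring_nf
  have e2 : σ ^ (-((n : ℝ) / 2 - 1) - 1 - 1) = σ ^ (-(n : ℝ) / 2 - 1) := by ring_nf
  have e3 : (4 : ℝ) ^ (-((n : ℝ) / 2 - 1) - 1) = 4 ^ (-((n : ℝ) / 2 - 1) - 1 - 1) * 4 := by
    rw [← Real.rpow_add_one (by norm_num)]; ring_nf
  rw [e1, e2, e3]
  obtain ⟨k, hk⟩ : ∃ k, k = (4 : ℝ) ^ (-((n : ℝ) / 2 - 1) - 1 - 1) := ⟨_, rfl⟩
  obtain ⟨r, hr⟩ : ∃ r, r = σ ^ (-(n : ℝ) / 2 - 1) := ⟨_, rfl⟩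
  have hk0 : 0 < k := by rw [hk]; positivity
  have hr0 : 0 < r := by rw [hr]; exact Real.rpow_pos_of_pos hb _
  rw [← hk, ← hr]
  have key : 2 * (n : ℝ) * (-((n : ℝ) / 2 - 1) * (r * σ) - (-((n : ℝ) / 2 - 1) * (k * 4) +
      -((n : ℝ) / 2 - 1) * (-((n : ℝ) / 2 - 1) - 1) * k * (σ - 4))) +
      4 * (σ - s) * (-((n : ℝ) / 2 - 1) * (-((n : ℝ) / 2 - 1) - 1) * r -
        -((n : ℝ) / 2 - 1) * (-((n : ℝ) / 2 - 1) - 1) * k) -
      (((n : ℝ) / 2 - 1) * n * (n + 2) * k * (4 - σ) - (n - 2) * (n * s * r)) =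
      4 * s * (((n : ℝ) / 2 - 1) * ((n : ℝ) / 2)) * k := by ring
  have h0 : 0 ≤ 4 * s * (((n : ℝ) / 2 - 1) * ((n : ℝ) / 2)) * k := by
    have : 0 ≤ (n : ℝ) / 2 - 1 := by linarith only [hn']
    (clear * - hs this hn hk0; positivity)
  linarith only [h0]

end Vale.Agent.P100.RM.Gr
end
end

section

section

open Set Filter Topology

namespace Vale.Agent.P100

variable {K : Type*} [TopologicalSpace K]

/-- Local lower bound from a source term, with nonnegativity only at the two ends. -/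
theorem Cyl.local_lower' [CompactSpace K] (u : Cyl K) {N : ℝ} (hN : 0 ≤ N) {τ M : ℝ} (hM : 0 < M)
    (hL : ∀ t ∈ Ioo (τ - 1) (τ + 1), ∀ θ, u.f2 t θ + N * u.f1 t θ + u.S t θ ≤ -M)
    (hl : ∀ θ, 0 ≤ u.f (τ - 1) θ) (hr : ∀ θ, 0 ≤ u.f (τ + 1) θ) :
    ∀ θ, M / (4 * (1 + N)) ≤ u.f τ θ := by
  intro θ
  set k := M / (4 * (1 + N)) with hk
  have hk0 : 0 < k := by positivity
  have hkM : 4 * (1 + N) * k = M := by
    rw [hk]; field_simp
  have := comparison (w := u.f) (w1 := u.f1) (w2 := u.f2)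
      (h := fun s => k * (1 - (s - τ) ^ 2))
      (h1 := fun s => k * (-(2 * (s - τ))))
      (h2 := fun _ => k * (-2))
      (a := τ - 1) (b := τ + 1) ?_ ?_ ?_ ?_ ?_ ?_ ?_ ?_ τ ⟨by linarith only [], by linarith only []⟩ θ
  · simpa only [ge_iff_le, sub_self, ne_eq, OfNat.ofNat_ne_zero, not_false_eq_true, zero_pow, sub_zero,     mul_one] using this
  · exact (u.cf.sub (by fun_prop)).continuousOn
  · intro t _ θ; exact u.hf t θ
  · intro t _ θ; exact u.hf1 t θ
  · intro t _
    have he : HasDerivAt (fun s : ℝ => (s - τ) ^ 2) (2 * (t - τ)) t := by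
      have := ((hasDerivAt_id t).sub_const τ).fun_pow 2
      simpa only [id_eq, Nat.cast_ofNat, Nat.add_one_sub_one, pow_one, mul_one] using this
    exact (he.const_sub 1).const_mul k
  · intro t _
    have he : HasDerivAt (fun s : ℝ => (-(2 * (s - τ)))) (-(2 * 1)) t :=
      (((hasDerivAt_id t).sub_const τ).const_mul 2).neg
    refine (he.const_mul k).congr_deriv ?_
    ring
  · intro θ
    show k * (1 - (τ - 1 - τ) ^ 2) ≤ u.f (τ - 1) θ
    have : k * (1 - (τ - 1 - τ) ^ 2) = 0 := by ring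
    rw [this]; exact hl θ
  · intro θ
    show k * (1 - (τ + 1 - τ) ^ 2) ≤ u.f (τ + 1) θ
    have : k * (1 - (τ + 1 - τ) ^ 2) = 0 := by ring
    rw [this]; exact hr θ
  · intro t ht θ _ h1 h2 hφ
    have h3 := u.hS1 t θ hφ
    have h4 := hL t ht θ
    rw [h1] at h4
    have h5 : t - τ ≤ 1 := by linarith only [ht.2]
    have h6 : N * (k * (-(2 * (t - τ)))) ≥ - (2 * N * k) := by
      have : 0 ≤ N * k := by (clear * - hN hM; positivity)
      nlinarith only [this, h5]
    linarith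

namespace Sol

variable {N p q A B : ℝ}

/-- No solution if the weight in front of `v^p` is too singular at the origin. -/
theorem false_of_singular [CompactSpace K] [Nonempty K] (s : Sol K N p q A B) (hN : 0 ≤ N)
    (hp : 0 < p) (hA : 2 + A ≤ 0) : False := by
  have hv0 := s.hv0
  obtain ⟨T1, hT1⟩ := s.lv (s.v0 / 2) (by linarith only [hv0])
  set c := (s.v0 / 2) ^ p with hc
  have hc0 : 0 < c := Real.rpow_pos_of_pos (by linarith only [hv0]) p
  set k := c / (4 * (1 + N)) with hk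
  have hk0 : 0 < k := by positivity
  obtain ⟨T2, hT2⟩ := s.lu (k / 4) (by linarith only [hk0])
  set T := min (min T1 T2) 0 with hT
  have hTT1 : T ≤ T1 := (min_le_left _ _).trans (min_le_left _ _)
  have hTT2 : T ≤ T2 := (min_le_left _ _).trans (min_le_right _ _)
  have hTT3 : T ≤ 0 := min_le_right _ _
  obtain ⟨θ0⟩ := ‹Nonempty K›
  have hval : ∀ t ≤ T, ∀ θ, |s.u.f t θ - s.u0| ≤ k / 4 := fun t ht θ => hT2 t (ht.trans hTT2) θ
  have key := (s.u.subConst (s.u0 - k / 2)).local_lower' hN (τ := T - 1) hc0 ?_ ?_ ?_ θ0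
  · have h1 := (abs_le.mp (hval (T - 1) (by linarith only []) θ0)).2
    have h2 : (s.u.subConst (s.u0 - k / 2)).f (T - 1) θ0 = s.u.f (T - 1) θ0 - (s.u0 - k / 2) := rfl
    rw [h2] at key
    linarith only [hk0, key, h1]
  · intro t ht θ
    show s.u.f2 t θ + N * s.u.f1 t θ + s.u.S t θ ≤ -c
    rw [s.eu, neg_le_neg_iff]
    have ht' : t ≤ T := by linarith only [ht.2]
    have h1 := (abs_le.mp (hT1 t (ht'.trans hTT1) θ)).1
    have h2 : c ≤ s.v.f t θ ^ p := Real.rpow_le_rpow (by linarith only [hv0]) (by linarith only [h1]) hp.le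
    have h3 : 1 ≤ Real.exp ((2 + A) * t) := by
      rw [Real.one_le_exp_iff]
      exact mul_nonneg_of_nonpos_of_nonpos hA (ht'.trans hTT3)
    nlinarith only [h2, hc0, h3]
  · intro θ
    have h1 := (abs_le.mp (hval (T - 1 - 1) (by linarith only []) θ)).1
    show 0 ≤ s.u.f (T - 1 - 1) θ - (s.u0 - k / 2)
    linarith only [hk0, h1]
  · intro θ
    have h1 := (abs_le.mp (hval (T - 1 + 1) (by linarith only []) θ)).1
    show 0 ≤ s.u.f (T - 1 + 1) θ - (s.u0 - k / 2)
    linarith only [hk0, h1]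

/-- No solution in dimension two (`N = 0`). -/
theorem false_of_N_zero [CompactSpace K] [Nonempty K] (s : Sol K 0 p q A B) : False := by
  obtain ⟨x, hx1, θ0, hx2⟩ := s.exists_min 0
  set m := Real.exp x with hm
  have hm0 : 0 < m := Real.exp_pos x
  have hL : ∀ t θ, s.u.f2 t θ + s.u.S t θ < 0 := by
    intro t θ
    have := s.sup_u t θ
    linarith only [this]
  have right : ∀ t, 0 ≤ t → ∀ θ, m ≤ s.u.f t θ := by
    intro t ht θ
    have main : ∀ T > t, m - m / T * t ≤ s.u.f t θ := by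
      intro T hT
      have hT0 : 0 < T := by linarith
      refine comparison (w := s.u.f) (w1 := s.u.f1) (w2 := s.u.f2)
        (h := fun r => m - m / T * r) (h1 := fun _ => -(m / T * 1)) (h2 := fun _ => 0)
        (a := 0) (b := T) ?_ ?_ ?_ ?_ ?_ ?_ ?_ ?_ t ⟨ht, hT.le⟩ θ
      · exact (s.u.cf.sub (by fun_prop)).continuousOn
      · intro t _ θ; exact s.u.hf t θ
      · intro t _ θ; exact s.u.hf1 t θ
      · intro t _
        exact ((hasDerivAt_id t).const_mul (m / T)).const_sub m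
      · intro t _; exact hasDerivAt_const t _
      · intro θ; simpa only [mul_zero, sub_zero] using hx1 θ
      · intro θ
        have : m - m / T * T = 0 := by field_simp; ring
        rw [this]; exact (s.hu T θ).le
      · intro t _ θ _ h1 h2 hφ
        have h3 := s.u.hS1 t θ hφ
        have h4 := hL t θ
        linarith only [h2, h3, h4]
    have hlim : Tendsto (fun T : ℝ => m - m / T * t) atTop (𝓝 (m - 0 * t)) := by
      refine tendsto_const_nhds.sub (Tendsto.mul_const t ?_)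
      exact tendsto_const_nhds.div_atTop tendsto_id
    rw [zero_mul, sub_zero] at hlim
    refine le_of_tendsto hlim ?_
    filter_upwards [eventually_gt_atTop t] with T hT
    exact main T hT
  have left : ∀ t, t ≤ 0 → ∀ θ, m ≤ s.u.f t θ := by
    intro t ht θ
    have main : ∀ T > -t, m - m / T * (-t) ≤ s.u.f t θ := by
      intro T hT
      have hT0 : 0 < T := by linarith only [ht, hT]
      refine comparison (w := s.u.f) (w1 := s.u.f1) (w2 := s.u.f2)
        (h := fun r => m - m / T * (-r)) (h1 := fun _ => -(m / T * (-1))) (h2 := fun _ => 0)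
        (a := -T) (b := 0) ?_ ?_ ?_ ?_ ?_ ?_ ?_ ?_ t ⟨by linarith, ht⟩ θ
      · exact (s.u.cf.sub (by fun_prop)).continuousOn
      · intro t _ θ; exact s.u.hf t θ
      · intro t _ θ; exact s.u.hf1 t θ
      · intro t _
        exact ((hasDerivAt_id t).neg.const_mul (m / T)).const_sub m
      · intro t _; exact hasDerivAt_const t _
      · intro θ
        have : m - m / T * (- -T) = 0 := by rw [neg_neg]; field_simp; ring
        rw [this]; exact (s.hu (-T) θ).le
      · intro θ; simpa only [neg_zero, mul_zero, sub_zero] using hx1 θ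
      · intro t _ θ _ h1 h2 hφ
        have h3 := s.u.hS1 t θ hφ
        have h4 := hL t θ
        linarith only [h2, h3, h4]
    have hlim : Tendsto (fun T : ℝ => m - m / T * (-t)) atTop (𝓝 (m - 0 * (-t))) := by
      refine tendsto_const_nhds.sub (Tendsto.mul_const (-t) ?_)
      exact tendsto_const_nhds.div_atTop tendsto_id
    rw [zero_mul, sub_zero] at hlim
    refine le_of_tendsto hlim ?_
    filter_upwards [eventually_gt_atTop (-t)] with T hT
    exact main T hT
  have hmin : IsLocalMin (fun r => s.u.f r θ0) 0 := by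
    apply Filter.Eventually.of_forall
    intro r
    show s.u.f 0 θ0 ≤ s.u.f r θ0
    rw [hx2]
    rcases le_total 0 r with h | h
    · exact right r h θ0
    · exact left r h θ0
  have h2 := (second_deriv_nonneg (f := fun r => s.u.f r θ0) (f1 := fun r => s.u.f1 r θ0)
    (Filter.Eventually.of_forall (fun r => s.u.hf r θ0)) (s.u.hf1 0 θ0) hmin).2
  have h3 := s.u.hS1 0 θ0 (by intro φ; rw [hx2]; exact hx1 φ)
  have h4 := hL 0 θ0
  linarith only [h2, h3, h4]

end Sol

end Vale.Agent.P100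
end
end

section

section

open Set Filter Topology

namespace Vale.Agent.P100

/-- A positive entire solution on `ℝ^n` gives a solution on the cylinder. -/
noncomputable def IsPositiveEntireSolution.toSol {n : ℕ} {p q A B : ℝ}
    {u v : EuclideanSpace ℝ (Fin n) → ℝ} (h : IsPositiveEntireSolution n p q A B u v) :
    Sol (Metric.sphere (0 : EuclideanSpace ℝ (Fin n)) 1) ((n : ℝ) - 2) p q A B where
  u := toCyl u h.contDiffOn_u
  v := toCyl v h.contDiffOn_v
  hu t θ := h.pos_u _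
  hv t θ := h.pos_v _
  eu t θ := by
    have h1 := toCyl_eq u h.contDiffOn_u t θ
    rw [finrank_euclideanSpace_fin] at h1
    rw [h1]
    have h2 := h.eq_u (Real.exp t • (θ : EuclideanSpace ℝ (Fin n))) (expsmul_ne_zero t θ)
    rw [norm_expsmul, ← Real.exp_mul] at h2
    have h3 : Laplacian.laplacian u (Real.exp t • (θ : EuclideanSpace ℝ (Fin n))) =
      -(Real.exp (t * A) * v (Real.exp t • (θ : EuclideanSpace ℝ (Fin n))) ^ p) := by linarith
    rw [h3]
    show Real.exp (2 * t) * -(Real.exp (t * A) * v (Real.exp t • (θ : EuclideanSpace ℝ (Fin n))) ^ p)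
      = -(Real.exp ((2 + A) * t) * v (Real.exp t • (θ : EuclideanSpace ℝ (Fin n))) ^ p)
    rw [mul_neg, ← mul_assoc, ← Real.exp_add]
    congr 3
    ring
  ev t θ := by
    have h1 := toCyl_eq v h.contDiffOn_v t θ
    rw [finrank_euclideanSpace_fin] at h1
    rw [h1]
    have h2 := h.eq_v (Real.exp t • (θ : EuclideanSpace ℝ (Fin n))) (expsmul_ne_zero t θ)
    rw [norm_expsmul, ← Real.exp_mul] at h2
    have h3 : Laplacian.laplacian v (Real.exp t • (θ : EuclideanSpace ℝ (Fin n))) =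
      -(Real.exp (t * B) * u (Real.exp t • (θ : EuclideanSpace ℝ (Fin n))) ^ q) := by linarith
    rw [h3]
    show Real.exp (2 * t) * -(Real.exp (t * B) * u (Real.exp t • (θ : EuclideanSpace ℝ (Fin n))) ^ q)
      = -(Real.exp ((2 + B) * t) * u (Real.exp t • (θ : EuclideanSpace ℝ (Fin n))) ^ q)
    rw [mul_neg, ← mul_assoc, ← Real.exp_add]
    congr 3
    ring
  u0 := u 0
  v0 := v 0
  hu0 := h.pos_u 0
  hv0 := h.pos_v 0
  lu ε hε := by
    obtain ⟨δ, hδ, hd⟩ := Metric.continuousAt_iff.mp (h.continuous_u.continuousAt (x := 0)) ε hε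
    refine ⟨Real.log (δ / 2), fun t ht θ => ?_⟩
    have h1 : dist (Real.exp t • (θ : EuclideanSpace ℝ (Fin n))) 0 < δ := by
      rw [dist_zero_right, norm_expsmul]
      have : Real.exp t ≤ δ / 2 := by
        rw [← Real.le_log_iff_exp_le (by positivity)]; exact ht
      linarith
    exact (hd h1).le
  lv ε hε := by
    obtain ⟨δ, hδ, hd⟩ := Metric.continuousAt_iff.mp (h.continuous_v.continuousAt (x := 0)) ε hε
    refine ⟨Real.log (δ / 2), fun t ht θ => ?_⟩
    have h1 : dist (Real.exp t • (θ : EuclideanSpace ℝ (Fin n))) 0 < δ := by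
      rw [dist_zero_right, norm_expsmul]
      have : Real.exp t ≤ δ / 2 := by
        rw [← Real.le_log_iff_exp_le (by positivity)]; exact ht
      linarith
    exact (hd h1).le

instance sphere_compact (n : ℕ) :
    CompactSpace (Metric.sphere (0 : EuclideanSpace ℝ (Fin n)) 1) :=
  isCompact_iff_compactSpace.mp (isCompact_sphere _ _)

lemma sphere_nonempty {n : ℕ} (hn : 1 ≤ n) :
    Nonempty (Metric.sphere (0 : EuclideanSpace ℝ (Fin n)) 1) := by
  refine ⟨⟨EuclideanSpace.single (⟨0, hn⟩ : Fin n) (1 : ℝ), ?_⟩⟩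
  simp only [mem_sphere_iff_norm, sub_zero, PiLp.norm_single, norm_one]

/-- Region 1: nonexistence when both scaling exponents exceed `(n-2)/2` (in product form). -/
theorem no_solution_region1 {n : ℕ} (hn : 2 ≤ n) {p q A B : ℝ} (hp : 0 < p) (hq : 0 < q)
    (h : A ≤ -2 ∨ B ≤ -2 ∨
      ((p * q - 1) * ((n : ℝ) - 2) < 2 * (2 + A + p * (2 + B)) ∧
       (p * q - 1) * ((n : ℝ) - 2) < 2 * (2 + B + q * (2 + A)))) :
    ¬ ∃ u v : EuclideanSpace ℝ (Fin n) → ℝ, IsPositiveEntireSolution n p q A B u v := by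
  rintro ⟨u, v, hs⟩
  have := sphere_nonempty (n := n) (by omega)
  have s := hs.toSol
  have hn2 : (2 : ℝ) ≤ n := by exact_mod_cast hn
  rcases le_or_gt A (-2) with hA | hA
  · exact s.false_of_singular (by linarith only [hn2]) hp (by linarith only [hA])
  rcases le_or_gt B (-2) with hB | hB
  · exact s.swap.false_of_singular (by linarith only [hn2]) hq (by linarith only [hB])
  rcases h with h | h | h
  · linarith only [hA, h]
  · linarith only [hB, h]
  rcases eq_or_lt_of_le hn2 with h2 | h2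
  · rw [← h2, sub_self] at s
    exact s.false_of_N_zero
  · exact s.false_main (by linarith only [h2]) hp hq (by linarith only [hA]) (by linarith only [hB]) h.1 h.2

end Vale.Agent.P100
end
end

section

section

/-! # Scaling of positive entire solutions (P100, running minimum; helper37) -/

open Set Filter MeasureTheory Topology Real

namespace Vale.Agent.P100.RM

noncomputable section

section general

variable {E' : Type*} [NormedAddCommGroup E'] [InnerProductSpace ℝ E']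

lemma fderiv_scale (a R : ℝ) (u : E' → ℝ) (x : E') :
    fderiv ℝ (fun y => a * u (R • y)) x = (a * R) • fderiv ℝ u (R • x) := by
  have h : fderiv ℝ (fun y => a * u (R • y)) x = a • fderiv ℝ (fun y => u (R • y)) x :=
    congrFun (fderiv_const_smul_field (𝕜 := ℝ) (f := fun y => u (R • y)) a) x
  rw [h, fderiv_comp_smul, smul_smul]

lemma fderiv_scale_apply (a R : ℝ) (u : E' → ℝ) (x y : E') :
    fderiv ℝ (fun y => a * u (R • y)) x y = a * fderiv ℝ u (R • x) (R • y) := by
  rw [fderiv_scale, map_smul]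
  simp only [FunLike.coe_smul, Pi.smul_apply, smul_eq_mul]
  ring

lemma fderiv2_scale (a R : ℝ) (u : E' → ℝ) (x : E') :
    fderiv ℝ (fderiv ℝ (fun y => a * u (R • y))) x =
      (a * R ^ 2) • fderiv ℝ (fderiv ℝ u) (R • x) := by
  have h : fderiv ℝ (fun y => a * u (R • y)) = fun x => (a * R) • fderiv ℝ u (R • x) := by
    funext x
    exact fderiv_scale a R u x
  rw [h]
  have h2 : fderiv ℝ (fun x => (a * R) • fderiv ℝ u (R • x)) x =
      (a * R) • fderiv ℝ (fun x => fderiv ℝ u (R • x)) x :=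
    congrFun (fderiv_const_smul_field (𝕜 := ℝ) (f := fun x => fderiv ℝ u (R • x)) (a * R)) x
  rw [h2, fderiv_comp_smul, smul_smul]
  congr 1
  ring

lemma fderiv2_scale_apply (a R : ℝ) (u : E' → ℝ) (x y z : E') :
    fderiv ℝ (fderiv ℝ (fun y => a * u (R • y))) x y z =
      a * fderiv ℝ (fderiv ℝ u) (R • x) (R • y) (R • z) := by
  rw [fderiv2_scale, map_smul]
  simp only [FunLike.coe_smul, Pi.smul_apply, smul_eq_mul, map_smul]
  ring

variable [FiniteDimensional ℝ E']

lemma laplacian_scale (a R : ℝ) (u : E' → ℝ) (x : E') :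
    Laplacian.laplacian (fun y => a * u (R • y)) x =
      a * R ^ 2 * Laplacian.laplacian u (R • x) := by
  have h1 := congrFun (InnerProductSpace.laplacian_eq_iteratedFDeriv_stdOrthonormalBasis
    (fun y => a * u (R • y))) x
  have h2 := congrFun (InnerProductSpace.laplacian_eq_iteratedFDeriv_stdOrthonormalBasis u) (R • x)
  rw [h1, h2, Finset.mul_sum]
  refine Finset.sum_congr rfl fun i _ => ?_
  rw [iteratedFDeriv_two_apply, iteratedFDeriv_two_apply, fderiv2_scale]
  simp only [FunLike.coe_smul, Pi.smul_apply, smul_eq_mul]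

lemma sph_scale (a R : ℝ) (hR : 0 ≤ R) (u : E' → ℝ) (x : E') :
    sph (fun y => a * u (R • y)) x = a * sph u (R • x) := by
  unfold sph
  rw [laplacian_scale, fderiv2_scale_apply, fderiv_scale_apply, norm_smul, Real.norm_of_nonneg hR]
  ring

end general

variable {n : ℕ}

lemma scl_def (α t : ℝ) (u : E n → ℝ) :
    scl α t u = fun x => exp (α * t) * u (exp t • x) := rfl

/-- Scaling of solutions. -/
lemma scl_sol {p q A B α β : ℝ} {u v : E n → ℝ} (hs : IsPositiveEntireSolution n p q A B u v)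
    (h1 : α + 2 + A = β * p) (h2 : β + 2 + B = α * q) (t : ℝ) :
    IsPositiveEntireSolution n p q A B (scl α t u) (scl β t v) := by
  have hR : 0 < exp t := exp_pos t
  have hsm : ContDiff ℝ 2 fun x : E n => exp t • x := contDiff_const_smul _
  have hmaps : MapsTo (fun x : E n => exp t • x) {0}ᶜ {0}ᶜ := fun x hx =>
    smul_ne_zero hR.ne' hx
  have key : ∀ (w z : E n → ℝ) (P A' a b : ℝ), (∀ x, 0 < z x) →
      (∀ x, x ≠ 0 → -(Laplacian.laplacian w x) = ‖x‖ ^ A' * z x ^ P) → a + 2 + A' = b * P →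
      ∀ x, x ≠ 0 →
      -(Laplacian.laplacian (fun x => exp (a * t) * w (exp t • x)) x) =
        ‖x‖ ^ A' * (exp (b * t) * z (exp t • x)) ^ P := by
    intro w z P A' a b hz he hab x hx
    rw [laplacian_scale, ← mul_neg, he _ (smul_ne_zero hR.ne' hx), norm_smul,
      Real.norm_of_nonneg hR.le,
      Real.mul_rpow hR.le (norm_nonneg x), Real.mul_rpow (exp_pos _).le (hz _).le,
      ← Real.exp_mul, ← Real.exp_mul]
    have e1 : exp (b * t * P) = exp (a * t) * exp t ^ 2 * exp (t * A') := by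
      rw [← Real.exp_nat_mul, ← Real.exp_add, ← Real.exp_add]
      congr 1
      have : b * t * P = b * P * t := by ring
      rw [this, ← hab]
      push_cast
      ring
    rw [e1]
    ring
  exact ⟨contDiffOn_const.mul (hs.contDiffOn_u.comp hsm.contDiffOn hmaps),
    contDiffOn_const.mul (hs.contDiffOn_v.comp hsm.contDiffOn hmaps),
    continuous_const.mul (hs.continuous_u.comp (continuous_const_smul _)),
    continuous_const.mul (hs.continuous_v.comp (continuous_const_smul _)),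
    fun x => mul_pos (exp_pos _) (hs.pos_u _), fun x => mul_pos (exp_pos _) (hs.pos_v _),
    key u v p A α β hs.pos_v hs.eq_u h1, key v u q B β α hs.pos_u hs.eq_v h2⟩

lemma scl_scl (α s t : ℝ) (u : E n → ℝ) : scl α s (scl α t u) = scl α (s + t) u := by
  funext x
  simp only [scl]
  rw [smul_smul, ← Real.exp_add, ← mul_assoc, ← Real.exp_add, add_comm t s]
  congr 2
  ring

private lemma smul_exp (s t : ℝ) (θ : E n) : exp t • (exp s • θ) = exp (s + t) • θ := by
  rw [smul_smul, Real.exp_add, mul_comm]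

private lemma exp_comb (α g s t : ℝ) :
    exp (g * s) * exp (α * t) = exp ((α - g) * t) * exp (g * (s + t)) := by
  rw [← Real.exp_add, ← Real.exp_add]
  congr 1
  ring

/-- Cylinder functions of rescaled functions. -/
lemma cy_scl {u : E n → ℝ} (hu : ContDiffOn ℝ 2 u {0}ᶜ) (α g t s : ℝ) (θ : Sph n) :
    cy0 g (scl α t u) s θ = exp ((α - g) * t) * cy0 g u (s + t) θ ∧
    cy1 g (scl α t u) s θ = exp ((α - g) * t) * cy1 g u (s + t) θ ∧
    cy2 g (scl α t u) s θ = exp ((α - g) * t) * cy2 g u (s + t) θ ∧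
    cyS g (scl α t u) s θ = exp ((α - g) * t) * cyS g u (s + t) θ := by
  have _ := hu
  have he := exp_comb α g s t
  refine ⟨?_, ?_, ?_, ?_⟩
  · simp only [cy0, scl]
    rw [smul_exp, ← mul_assoc, he, mul_assoc]
  · simp only [cy1, scl_def]
    rw [fderiv_scale_apply, smul_exp]
    linear_combination (g * u (exp (s + t) • (θ : E n)) +
      fderiv ℝ u (exp (s + t) • (θ : E n)) (exp (s + t) • (θ : E n))) * he
  · simp only [cy2, scl_def]
    rw [fderiv_scale_apply, fderiv2_scale_apply, smul_exp]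
    linear_combination (g ^ 2 * u (exp (s + t) • (θ : E n)) +
      2 * g * fderiv ℝ u (exp (s + t) • (θ : E n)) (exp (s + t) • (θ : E n)) +
      (fderiv ℝ (fderiv ℝ u) (exp (s + t) • (θ : E n)) (exp (s + t) • (θ : E n))
        (exp (s + t) • (θ : E n)) +
        fderiv ℝ u (exp (s + t) • (θ : E n)) (exp (s + t) • (θ : E n)))) * he
  · simp only [cyS, scl_def]
    rw [sph_scale _ _ (exp_pos t).le, smul_exp, ← mul_assoc, he, mul_assoc]

/-- Continuity in time of the energy. -/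
lemma continuous_En {p q α β : ℝ} (hp : 0 < p) (hq : 0 < q) {u v : E n → ℝ}
    (hu : Continuous u) (hv : Continuous v) (pu : ∀ x, 0 < u x) (pv : ∀ x, 0 < v x) :
    Continuous (fun t => En n p q (scl α t u) (scl β t v)) := by
  unfold En
  have hc : ∀ (a : ℝ) (w : E n → ℝ), Continuous w →
      Continuous (fun x : ℝ × Sph n => scl a x.1 w (x.2 : E n)) := by
    intro a w hw
    unfold scl
    have h1 : Continuous fun x : ℝ × Sph n => exp x.1 • (x.2 : E n) :=
      (Real.continuous_exp.comp continuous_fst).smul (continuous_subtype_val.comp continuous_snd)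
    exact (Real.continuous_exp.comp (continuous_const.mul continuous_fst)).mul (hw.comp h1)
  have hF : Continuous (fun x : ℝ × Sph n => (scl β x.1 v (x.2 : E n)) ^ (p + 1) +
      (scl α x.1 u (x.2 : E n)) ^ (q + 1)) :=
    ((hc β v hv).rpow_const fun x => Or.inr (by linarith only [hp])).add
      ((hc α u hu).rpow_const fun x => Or.inr (by linarith only [hq]))
  have h := continuous_parametric_integral_of_continuous (μ := sg n) (s := (Set.univ : Set (Sph n)))
    (f := fun t (θ : Sph n) => (scl β t v (θ : E n)) ^ (p + 1) + (scl α t u (θ : E n)) ^ (q + 1))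
    hF isCompact_univ
  simpa only [Measure.restrict_univ] using h

end

end Vale.Agent.P100.RM
end
end

section

section

/-! # P100-RM: polar coordinates `x = e^s ω`, kernel estimates on the sphere -/

open MeasureTheory Set Metric
open scoped ENNReal Pointwise

namespace Vale.Agent.P100.RM

variable {n : ℕ}

/-- Logarithmic polar coordinates. -/
theorem polar_exp (hn : 1 ≤ n) {F : E n → ℝ≥0∞} (hF : Measurable F) :
    ∫⁻ v, F v = ∫⁻ w : Sph n, ∫⁻ s : ℝ,
      ENNReal.ofReal (Real.exp (n * s)) * F (Real.exp s • (w : E n))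
        ∂volume ∂(sg n) := by
  have hdim : Module.finrank ℝ (E n) = n := by simp only [finrank_euclideanSpace, Fintype.card_fin]
  have hnt : Nontrivial (E n) := by
    apply Module.nontrivial_of_finrank_pos (R := ℝ)
    omega
  have hmp := (volume : Measure (E n)).measurePreserving_homeomorphUnitSphereProd
  rw [hdim] at hmp
  have hG : Measurable (fun p : Sph n × Ioi (0 : ℝ) =>
      F (p.2.1 • p.1.1)) := by
    refine hF.comp ?_
    fun_prop
  calc ∫⁻ v, F v = ∫⁻ v in ({0}ᶜ : Set (E n)), F v := by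
        rw [restrict_compl_singleton]
    _ = ∫⁻ v : ({0}ᶜ : Set (E n)), F v ∂(Measure.comap (Subtype.val :
          ({0}ᶜ : Set (E n)) → E n) volume) :=
        (lintegral_subtype_comap (measurableSet_singleton (0 : E n)).compl
          F).symm
    _ = ∫⁻ v : ({0}ᶜ : Set (E n)),
          (fun p : Sph n × Ioi (0 : ℝ) =>
          F (p.2.1 • p.1.1)) (homeomorphUnitSphereProd (E n) v)
          ∂(Measure.comap (Subtype.val : ({0}ᶜ : Set (E n)) →
            E n) volume) := by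
        refine lintegral_congr fun v => ?_
        have h := congrArg Subtype.val ((homeomorphUnitSphereProd
          (E n)).symm_apply_apply v)
        rw [homeomorphUnitSphereProd_symm_apply_coe] at h
        change F v = F (((homeomorphUnitSphereProd (E n) v).2 : ℝ) •
          ((homeomorphUnitSphereProd (E n) v).1 :
            E n))
        rw [h]
    _ = ∫⁻ p : Sph n × Ioi (0 : ℝ), F (p.2.1 • p.1.1)
          ∂((sg n).prod
            (Measure.volumeIoiPow (n - 1))) :=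
        hmp.lintegral_comp hG
    _ = ∫⁻ u : Sph n, ∫⁻ r : Ioi (0 : ℝ), F (r.1 • u.1)
          ∂(Measure.volumeIoiPow (n - 1))
          ∂(sg n) :=
        lintegral_prod _ hG.aemeasurable
    _ = _ := by
        refine lintegral_congr fun u => ?_
        have hm : Measurable (fun r : Ioi (0 : ℝ) => F (r.1 • (u : E n))) := by
          refine hF.comp ?_
          fun_prop
        rw [Measure.volumeIoiPow, lintegral_withDensity_eq_lintegral_mul _ (by fun_prop) hm]
        refine (lintegral_subtype_comap measurableSet_Ioi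
          (fun r : ℝ => ENNReal.ofReal (r ^ (n - 1)) *
            F (r • (u : E n)))).trans ?_
        have e2 := lintegral_image_eq_lintegral_abs_deriv_mul (s := univ) (f := Real.exp)
          (f' := Real.exp) MeasurableSet.univ
          (fun x _ => (Real.hasDerivAt_exp x).hasDerivWithinAt) Real.exp_injective.injOn
          (fun r : ℝ => ENNReal.ofReal (r ^ (n - 1)) * F (r • (u : E n)))
        rw [image_univ, Real.range_exp, Measure.restrict_univ] at e2
        rw [e2]
        refine lintegral_congr fun s => ?_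
        rw [← mul_assoc, ← ENNReal.ofReal_mul (abs_nonneg _), abs_of_pos (Real.exp_pos s)]
        congr 2
        rw [← Real.exp_nat_mul, ← Real.exp_add]
        congr 1
        rw [Nat.cast_sub hn]
        push_cast
        ring

/-- Exact distance in logarithmic polar coordinates. -/
theorem norm_exp_sub_sq (w w' : Sph n) (s t : ℝ) :
    ‖Real.exp t • (w : E n) - Real.exp s • (w' : E n)‖ ^ 2
      = (Real.exp t - Real.exp s) ^ 2 +
        Real.exp t * Real.exp s * ‖(w : E n) - w'‖ ^ 2 := by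
  have h1 : ‖(w : E n)‖ = 1 := by simp
  have h2 : ‖(w' : E n)‖ = 1 := by simp only [norm_eq_of_mem_sphere]
  rw [@norm_sub_sq_real, @norm_sub_sq_real, norm_smul, norm_smul, h1, h2, real_inner_smul_left,
    real_inner_smul_right, Real.norm_eq_abs, Real.norm_eq_abs, abs_of_pos (Real.exp_pos t),
    abs_of_pos (Real.exp_pos s)]
  ring

/-- The singular integral on a ball. -/
theorem lintegral_ball_kernel (hn : 1 ≤ n) {ε : ℝ} (hε : 0 < ε)
    (z : E n) {ρ : ℝ} (hρ : 0 < ρ) :
    ∫⁻ y, (ball z ρ).indicator (fun y => ENNReal.ofReal (‖z - y‖ ^ (-(n : ℝ) + ε))) y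
      = ENNReal.ofReal (ρ ^ ε / ε) *
        (sg n univ) := by
  have h1 : ∀ y : E n,
      (ball z ρ).indicator (fun y => ENNReal.ofReal (‖z - y‖ ^ (-(n : ℝ) + ε))) y
      = (fun y => (ball (0 : E n) ρ).indicator
          (fun y => ENNReal.ofReal (‖y‖ ^ (-(n : ℝ) + ε))) y) (z - y) := by
    intro y
    by_cases hy : y ∈ ball z ρ
    · have hy' : z - y ∈ ball (0 : E n) ρ := by
        rw [mem_ball_zero_iff, ← dist_eq_norm, dist_comm]; exact hy
      simp only [indicator_of_mem hy, indicator_of_mem hy']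
    · have hy' : z - y ∉ ball (0 : E n) ρ := by
        rw [mem_ball_zero_iff, ← dist_eq_norm, dist_comm]; exact hy
      simp only [indicator_of_notMem hy, indicator_of_notMem hy']
  rw [lintegral_congr h1, lintegral_sub_left_eq_self]
  have hmeas : Measurable (fun y : E n =>
      (ball (0 : E n) ρ).indicator
          (fun y => ENNReal.ofReal (‖y‖ ^ (-(n : ℝ) + ε))) y) := by
    refine Measurable.indicator ?_ measurableSet_ball
    fun_prop
  rw [polar_exp hn hmeas]
  have h2 : ∀ w : Sph n,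
      ∫⁻ s : ℝ, ENNReal.ofReal (Real.exp (n * s)) *
        (ball (0 : E n) ρ).indicator
          (fun y => ENNReal.ofReal (‖y‖ ^ (-(n : ℝ) + ε)))
          (Real.exp s • (w : E n)) = ENNReal.ofReal (ρ ^ ε / ε) := by
    intro w
    have h3 : ∀ s : ℝ, ENNReal.ofReal (Real.exp (n * s)) *
        (ball (0 : E n) ρ).indicator
          (fun y => ENNReal.ofReal (‖y‖ ^ (-(n : ℝ) + ε)))
          (Real.exp s • (w : E n))
        = (Iio (Real.log ρ)).indicator (fun s => ENNReal.ofReal (Real.exp (ε * s))) s := by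
      intro s
      have hw : ‖(w : E n)‖ = 1 := by simp
      have hnorm : ‖Real.exp s • (w : E n)‖ = Real.exp s := by
        rw [norm_smul, hw, Real.norm_eq_abs, abs_of_pos (Real.exp_pos s), mul_one]
      have hiff : (Real.exp s • (w : E n) ∈
          ball (0 : E n) ρ) ↔ s ∈ Iio (Real.log ρ) := by
        rw [mem_ball_zero_iff, hnorm, mem_Iio, Real.lt_log_iff_exp_lt hρ]
      by_cases hs : s ∈ Iio (Real.log ρ)
      · rw [indicator_of_mem hs, indicator_of_mem (hiff.2 hs), hnorm,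
          ← ENNReal.ofReal_mul (Real.exp_pos _).le, ← Real.exp_mul, ← Real.exp_add]
        congr 2
        ring
      · rw [indicator_of_notMem hs, indicator_of_notMem (fun h => hs (hiff.1 h)), mul_zero]
    rw [lintegral_congr h3, lintegral_indicator measurableSet_Iio,
      setLIntegral_congr Iio_ae_eq_Iic,
      ← ofReal_integral_eq_lintegral_ofReal (integrableOn_exp_mul_Iic hε _)
        (Filter.Eventually.of_forall fun x => (Real.exp_pos _).le),
      integral_exp_mul_Iic hε]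
    congr 2
    rw [Real.rpow_def_of_pos hρ, mul_comm]
  rw [lintegral_congr h2, lintegral_const]

/-- Points of the sphere are null sets. -/
theorem toSphere_singleton (hn : 2 ≤ n) (w : Sph n) :
    sg n {w} = 0 := by
  unfold sg
  rw [Measure.toSphere_apply' _ (measurableSet_singleton w)]
  have hsub : (Ioo (0 : ℝ) 1 • ((Subtype.val '' {w} : Set (E n))))
      ⊆ (Submodule.span ℝ {(w : E n)} : Set (E n)) := by
    rintro x ⟨r, _, y, hy, rfl⟩
    obtain ⟨w', hw', rfl⟩ := hy
    rw [mem_singleton_iff] at hw'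
    subst hw'
    exact Submodule.smul_mem _ _ (Submodule.mem_span_singleton_self _)
  have hne : (Submodule.span ℝ {(w : E n)} :
      Submodule ℝ (E n)) ≠ ⊤ := by
    intro h
    have h1 : Module.finrank ℝ (Submodule.span ℝ {(w : E n)}) ≤ 1 := by
      have := finrank_span_le_card (R := ℝ) ({(w : E n)} : Set _)
      simpa only [ge_iff_le, toFinset_singleton, Finset.card_singleton] using this
    rw [h, finrank_top] at h1
    simp only [finrank_euclideanSpace, Fintype.card_fin] at h1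
    omega
  have h0 : (volume : Measure (E n))
      (Ioo (0 : ℝ) 1 • ((Subtype.val '' {w} : Set (E n)))) = 0 :=
    measure_mono_null hsub (Measure.addHaar_submodule _ _ hne)
  rw [h0, mul_zero]

/-- The kernel on the sphere: `h^{1-n+ε}` cut off at `h ≤ ρ`. -/
noncomputable def kap (n : ℕ) (ε ρ : ℝ) (w w' : Sph n) : ℝ :=
  if ‖(w : E n) - w'‖ ≤ ρ then
    ‖(w : E n) - w'‖ ^ (1 - (n : ℝ) + ε) else 0

theorem kap_symm (ε ρ : ℝ) (w w' : Sph n) :
    kap n ε ρ w w' = kap n ε ρ w' w := by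
  unfold kap
  rw [norm_sub_rev]

theorem measurable_kap (ε ρ : ℝ) :
    Measurable (fun x : Sph n ×
      Sph n => kap n ε ρ x.1 x.2) := by
  unfold kap
  refine Measurable.ite ?_ ?_ measurable_const
  · have : Measurable (fun x : Sph n ×
      Sph n => ‖(x.1 : E n) - x.2‖) := by
      fun_prop
    exact this measurableSet_Iic
  · fun_prop

/-- The integral of the kernel over the sphere. -/
theorem lintegral_kap_le (hn : 2 ≤ n) {ε : ℝ} (hε : 0 < ε) (hε1 : ε < (n : ℝ) - 1)
    (w : Sph n) {ρ : ℝ} (hρ : 0 < ρ) (hρ1 : ρ ≤ 1) :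
    ∫⁻ w', ENNReal.ofReal (kap n ε ρ w w') ∂(sg n)
      ≤ ENNReal.ofReal (2⁻¹ * Real.exp n * 3 ^ n * (2 ^ ε * ρ ^ ε / ε)) *
        (sg n univ) := by
  have hn' : (2 : ℝ) ≤ n := by exact_mod_cast hn
  set F : E n → ℝ≥0∞ := fun y =>
    (ball (w : E n) (6 * ρ)).indicator
      (fun y => ENNReal.ofReal (‖(w : E n) - y‖ ^ (-(n : ℝ) + ε))) y with hF
  have hFm : Measurable F := by
    refine Measurable.indicator ?_ measurableSet_ball
    fun_prop
  have key : ∀ w' : Sph n,
      ENNReal.ofReal (kap n ε ρ w w') ≤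
        ENNReal.ofReal (2⁻¹ * Real.exp n * 3 ^ n * 3 ^ (-ε)) *
        ∫⁻ s : ℝ, ENNReal.ofReal (Real.exp (n * s)) *
          F (Real.exp s • (w' : E n)) := by
    intro w'
    by_cases hh : ‖(w : E n) - w'‖ ≤ ρ
    swap
    · unfold kap
      rw [if_neg hh]
      simp only [ENNReal.ofReal_zero, zero_le]
    rcases (norm_nonneg ((w : E n) - w')).eq_or_lt with h0 | h0
    · unfold kap
      rw [if_pos hh, ← h0, Real.zero_rpow (by linarith only [hε1])]
      simp only [ENNReal.ofReal_zero, zero_le]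
    set h := ‖(w : E n) - w'‖ with hhdef
    have hlow : ∀ s ∈ Icc (-h) h, ENNReal.ofReal (Real.exp (-n) * (3 * h) ^ (-(n : ℝ) + ε)) ≤
        ENNReal.ofReal (Real.exp (n * s)) *
          F (Real.exp s • (w' : E n)) := by
      intro s hs
      have hs1 : |s| ≤ h := abs_le.2 hs
      have hs2 : |s| ≤ 1 := by linarith only [hρ1, hh, hs1]
      have hd : ‖(w : E n) - Real.exp s • (w' : E n)‖
          ≤ 3 * h := by
        have e1 : (w : E n) - Real.exp s • (w' : E n)
            = ((w : E n) - w') - (Real.exp s - 1) •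
              (w' : E n) := by
          rw [sub_smul, one_smul]; abel
        rw [e1]
        refine (norm_sub_le _ _).trans ?_
        have hw' : ‖(w' : E n)‖ = 1 := by simp
        rw [norm_smul, hw', mul_one, Real.norm_eq_abs]
        have := Real.abs_exp_sub_one_le hs2
        linarith only [hs1, this]
      have hd0 : 0 < ‖(w : E n) -
          Real.exp s • (w' : E n)‖ := by
        have e2 := norm_exp_sub_sq w w' s 0
        rw [Real.exp_zero, one_smul] at e2
        have : 0 < ‖(w : E n) -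
          Real.exp s • (w' : E n)‖ ^ 2 := by
          rw [e2]
          have := Real.exp_pos s
          (clear * - h0; positivity)
        refine lt_of_le_of_ne (norm_nonneg _) (fun h => ?_)
        rw [← h] at this
        norm_num at this
      have hmem : Real.exp s • (w' : E n) ∈
          ball (w : E n) (6 * ρ) := by
        rw [mem_ball, dist_comm, dist_eq_norm]
        linarith only [hρ, hh, hd]
      rw [hF]
      simp only
      rw [indicator_of_mem hmem, ← ENNReal.ofReal_mul (Real.exp_pos _).le]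
      refine ENNReal.ofReal_le_ofReal ?_
      have h3 : Real.exp (-n) ≤ Real.exp (n * s) := by
        refine Real.exp_le_exp.2 ?_
        have := (abs_le.1 hs2).1
        nlinarith only [this]
      have h4 : (3 * h) ^ (-(n : ℝ) + ε) ≤ ‖(w : E n) -
          Real.exp s • (w' : E n)‖ ^ (-(n : ℝ) + ε) :=
        Real.rpow_le_rpow_of_nonpos hd0 hd (by linarith only [hε1])
      exact mul_le_mul h3 h4 (by positivity) (Real.exp_pos _).le
    have hint : ENNReal.ofReal (Real.exp (-n) * (3 * h) ^ (-(n : ℝ) + ε)) *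
        ENNReal.ofReal (2 * h) ≤ ∫⁻ s : ℝ, ENNReal.ofReal (Real.exp (n * s)) *
          F (Real.exp s • (w' : E n)) := by
      calc ENNReal.ofReal (Real.exp (-n) * (3 * h) ^ (-(n : ℝ) + ε)) * ENNReal.ofReal (2 * h)
          = ∫⁻ s in Icc (-h) h, ENNReal.ofReal (Real.exp (-n) * (3 * h) ^ (-(n : ℝ) + ε)) := by
            rw [setLIntegral_const, Real.volume_Icc]
            congr 2
            ring
        _ ≤ ∫⁻ s in Icc (-h) h, ENNReal.ofReal (Real.exp (n * s)) *
          F (Real.exp s • (w' : E n)) :=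
            setLIntegral_mono' measurableSet_Icc hlow
        _ ≤ _ := setLIntegral_le_lintegral _ _
    refine le_trans (le_of_eq ?_) (mul_le_mul_right hint _)
    unfold kap
    rw [if_pos hh, ← ENNReal.ofReal_mul (by positivity), ← ENNReal.ofReal_mul (by positivity)]
    congr 1
    rw [Real.mul_rpow (by norm_num) h0.le, Real.rpow_add (by norm_num : (0:ℝ) < 3),
      Real.rpow_neg (by norm_num : (0:ℝ) ≤ 3) (n : ℝ), Real.rpow_natCast,
      Real.rpow_neg (by norm_num : (0:ℝ) ≤ 3) ε]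
    have e3 : h ^ (1 - (n : ℝ) + ε) = h * h ^ (-(n : ℝ) + ε) := by
      rw [show (1 - (n : ℝ) + ε) = 1 + (-(n : ℝ) + ε) by ring, Real.rpow_add h0, Real.rpow_one]
    have e4 : Real.exp (n : ℝ) * Real.exp (-(n : ℝ)) = 1 := by
      rw [← Real.exp_add, add_neg_cancel, Real.exp_zero]
    have e5 : (3 : ℝ) ^ ε ≠ 0 := by positivity
    have e6 : (3 : ℝ) ^ n ≠ 0 := by positivity
    rw [← hhdef, e3]
    field_simp
    linear_combination -e4
  have hmeas2 : Measurable (fun x : Sph n =>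
      ∫⁻ s : ℝ, ENNReal.ofReal (Real.exp (n * s)) *
          F (Real.exp s • (x : E n))) := by
    refine Measurable.lintegral_prod_right' (f := fun q : Sph n × ℝ =>
      ENNReal.ofReal (Real.exp (n * q.2)) *
          F (Real.exp q.2 • (q.1 : E n))) ?_
    refine Measurable.mul (by fun_prop) (hFm.comp (by fun_prop))
  calc ∫⁻ w', ENNReal.ofReal (kap n ε ρ w w')
          ∂(sg n)
      ≤ ∫⁻ w' : Sph n,
        ENNReal.ofReal (2⁻¹ * Real.exp n * 3 ^ n * 3 ^ (-ε)) *
        ∫⁻ s : ℝ, ENNReal.ofReal (Real.exp (n * s)) *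
          F (Real.exp s • (w' : E n))
          ∂volume ∂(sg n) := lintegral_mono key
    _ = ENNReal.ofReal (2⁻¹ * Real.exp n * 3 ^ n * 3 ^ (-ε)) * ∫⁻ y, F y := by
        rw [lintegral_const_mul _ hmeas2, polar_exp (by omega) hFm]
    _ = _ := by
        rw [hF, lintegral_ball_kernel (by omega) hε _ (by positivity), ← mul_assoc,
          ← ENNReal.ofReal_mul (by positivity)]
        congr 2
        rw [Real.mul_rpow (by norm_num) hρ.le, Real.rpow_neg (by norm_num),
          show (6 : ℝ) = 2 * 3 by norm_num, Real.mul_rpow (by norm_num) (by norm_num)]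
        have e5 : (3 : ℝ) ^ ε ≠ 0 := by positivity
        field_simp

end Vale.Agent.P100.RM
end
end

section

section

open MeasureTheory Metric Set Filter Topology InnerProductSpace Module

namespace Vale.Agent.P100.RM.Gr

variable {n : ℕ}

lemma D_comp {F : (Eu n) → ℝ} (hF : Differentiable ℝ F) (a x : (Eu n)) (l : ℝ) :
    D a (fun z => F (x + l • z)) = fun z => l * D a F (x + l • z) := by
  funext z
  have h1 : HasFDerivAt (fun z : (Eu n) => x + l • z) (l • ContinuousLinearMap.id ℝ (Eu n)) z :=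
    ((hasFDerivAt_id z).const_smul l).const_add x
  have h2 : HasFDerivAt (fun z => F (x + l • z)) _ z := (hF (x + l • z)).hasFDerivAt.comp z h1
  unfold D
  rw [h2.fderiv]
  simp

lemma lap_comp {F : (Eu n) → ℝ} (hF : ContDiff ℝ 2 F) (x : (Eu n)) (l : ℝ) (z : (Eu n)) :
    Laplacian.laplacian (fun z => F (x + l • z)) z = l ^ 2 * Laplacian.laplacian F (x + l • z) := by
  have h1 : ContDiff ℝ 2 (fun z : (Eu n) => F (x + l • z)) :=
    hF.comp (contDiff_const.add (contDiff_id.const_smul l))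
  rw [lap_eq h1, lap_eq hF, Finset.mul_sum]
  refine Finset.sum_congr rfl ?_
  intro i _
  have hF1 : Differentiable ℝ (D (eb i) F) := (D_contDiff _ hF).differentiable (by norm_num)
  rw [D_comp (hF.differentiable (by norm_num))]
  have h2 : D (eb i) (fun z => l * D (eb i) F (x + l • z)) =
      fun z => l * D (eb i) (fun z => D (eb i) F (x + l • z)) z := by
    funext z
    unfold D
    rw [fderiv_const_mul]
    · simp only [smul_apply, smul_eq_mul]
    · have : Differentiable ℝ (fun z : (Eu n) => x + l • z) := by fun_prop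
      exact (hF1.comp this) z
  rw [h2, D_comp hF1]
  ring

lemma scale_int (F : (Eu n) → ℝ) (x : (Eu n)) {l : ℝ} (hl : 0 < l) :
    ∫ z in closedBall (0 : (Eu n)) 1, F (x + l • z) = (l ^ n)⁻¹ * ∫ y in closedBall x l, F y := by
  rw [← integral_indicator measurableSet_closedBall, ← integral_indicator measurableSet_closedBall]
  have h1 : (closedBall (0 : (Eu n)) 1).indicator (fun z => F (x + l • z)) =
      fun z => (fun y => (closedBall x l).indicator F (x + y)) (l • z) := by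
    funext z
    simp only [indicator, mem_closedBall, dist_zero_right, dist_self_add_left, norm_smul, Real.norm_of_nonneg hl.le]
    have : ‖z‖ ≤ 1 ↔ l * ‖z‖ ≤ l := by
      constructor
      · intro h; nlinarith only [hl, h]
      · intro h; by_contra h2; push Not at h2; nlinarith only [h, hl, h2]
    simp only [this]
  rw [h1, Measure.integral_comp_smul, finrank_euclideanSpace_fin, smul_eq_mul,
    abs_of_pos (by positivity), integral_add_left_eq_self (f := (closedBall x l).indicator F)]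

/-- interior gradient estimate, global version -/
theorem grad_global (hn : 1 ≤ n) : ∃ C : ℝ, 0 < C ∧ ∀ w : (Eu n) → ℝ, ContDiff ℝ 2 w → ∀ (x : (Eu n)) (l : ℝ),
    0 < l → ∀ a : (Eu n), |fderiv ℝ w x a| ≤ ‖a‖ * (C * (l ^ (n + 1))⁻¹ * (∫ y in closedBall x l, |w y|) +
      C * ∫ y in closedBall x l, (‖x - y‖ ^ (n - 1))⁻¹ * |Laplacian.laplacian w y|) := by
  obtain ⟨C, hC, h⟩ := grad_unit hn
  refine ⟨C, hC, ?_⟩
  intro w hw x l hl a
  have h1 : ContDiff ℝ 2 (fun z : (Eu n) => w (x + l • z)) :=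
    hw.comp (contDiff_const.add (contDiff_id.const_smul l))
  have key := h _ h1 a
  rw [D_comp (hw.differentiable (by norm_num))] at key
  simp only [lap_comp hw, smul_zero, add_zero] at key
  have e1 := scale_int (fun y => |w y|) x hl
  have e2 := scale_int (fun y => (‖l⁻¹ • (y - x)‖ ^ (n - 1))⁻¹ * |l ^ 2 * Laplacian.laplacian w y|)
    x hl
  have e3 : ∀ z : (Eu n), l⁻¹ • (x + l • z - x) = z := by
    intro z; rw [add_sub_cancel_left, smul_smul, inv_mul_cancel₀ hl.ne', one_smul]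
  simp only [e3] at e2
  rw [e1, e2] at key
  have e4 : ∀ y : (Eu n), (‖l⁻¹ • (y - x)‖ ^ (n - 1))⁻¹ * |l ^ 2 * Laplacian.laplacian w y| =
      l ^ (n + 1) * ((‖x - y‖ ^ (n - 1))⁻¹ * |Laplacian.laplacian w y|) := by
    intro y
    rw [norm_smul, norm_sub_rev y x, Real.norm_of_nonneg (inv_pos.mpr hl).le, abs_mul,
      abs_of_pos (by positivity : 0 < l ^ 2), mul_pow, mul_inv, inv_pow, inv_inv]
    obtain ⟨m, rfl⟩ : ∃ m, n = m + 1 := ⟨n - 1, by omega⟩
    simp only [Nat.add_sub_cancel]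
    ring
  simp only [e4] at key
  rw [integral_const_mul, abs_mul, abs_of_pos hl] at key
  have e5 : D a w x = fderiv ℝ w x a := rfl
  rw [e5] at key
  obtain ⟨I1, hI1⟩ : ∃ I1, I1 = ∫ y in closedBall x l, |w y| := ⟨_, rfl⟩
  obtain ⟨I2, hI2⟩ : ∃ I2, I2 = ∫ y in closedBall x l,
      (‖x - y‖ ^ (n - 1))⁻¹ * |Laplacian.laplacian w y| := ⟨_, rfl⟩
  rw [← hI1, ← hI2] at key ⊢
  have e6 : |fderiv ℝ w x a| = l⁻¹ * (l * |fderiv ℝ w x a|) := by
    rw [← mul_assoc, inv_mul_cancel₀ hl.ne', one_mul]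
  rw [e6]
  refine (mul_le_mul_of_nonneg_left key (inv_pos.mpr hl).le).trans (le_of_eq ?_)
  rw [pow_succ]
  (clear * - hl hC; field_simp)

/-- **Interior gradient estimate** -/
theorem _root_.Vale.Agent.P100.RM.grad_est (n : ℕ) (hn : 1 ≤ n) : ∃ C : ℝ, 0 < C ∧
    ∀ (w : EuclideanSpace ℝ (Fin n) → ℝ) (U : Set (EuclideanSpace ℝ (Fin n)))
      (x : EuclideanSpace ℝ (Fin n)) (l : ℝ), 0 < l → IsOpen U → closedBall x l ⊆ U →
      ContDiffOn ℝ 2 w U → ∀ e : EuclideanSpace ℝ (Fin n),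
      |fderiv ℝ w x e| ≤ ‖e‖ * (C * (l ^ (n + 1))⁻¹ * (∫ y in closedBall x l, |w y|) +
        C * ∫ y in closedBall x l, (‖x - y‖ ^ (n - 1))⁻¹ * |Laplacian.laplacian w y|) := by
  obtain ⟨C, hC, h⟩ := grad_global (n := n) hn
  refine ⟨C, hC, ?_⟩
  intro w U x l hl hU hsub hw a
  obtain ⟨δ, hδ, hδU⟩ := (isCompact_closedBall x l).exists_cthickening_subset_open hU hsub
  rw [cthickening_closedBall hδ.le hl.le] at hδU
  let f : ContDiffBump x := ⟨l + δ / 3, l + δ / 2, by positivity, by linarith only [hδ]⟩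
  have hf : ContDiff ℝ 2 (fun y => f y * w y) := by
    rw [contDiff_iff_contDiffAt]
    intro y
    by_cases hy : y ∈ U
    · exact f.contDiffAt.mul (hw.contDiffAt (hU.mem_nhds hy))
    · have hy2 : l + δ / 2 < dist y x := by
        by_contra hcon
        push Not at hcon
        exact hy (hδU (by rw [mem_closedBall]; linarith only [hδ, hcon]))
      have hev : (fun z => f z * w z) =ᶠ[𝓝 y] fun _ => 0 := by
        have hop : {z : EuclideanSpace ℝ (Fin n) | l + δ / 2 < dist z x} ∈ 𝓝 y :=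
          (isOpen_lt continuous_const (by fun_prop)).mem_nhds hy2
        filter_upwards [hop] with z hz
        have hz' : l + δ / 2 < dist z x := hz
        have : f z = 0 := f.zero_of_le_dist (by show l + δ / 2 ≤ dist z x; exact hz'.le)
        rw [this, zero_mul]
      exact contDiffAt_const.congr_of_eventuallyEq hev
  have hev : ∀ y ∈ closedBall x l, (fun z => f z * w z) =ᶠ[𝓝 y] w := by
    intro y hy
    have h1 : f =ᶠ[𝓝 y] 1 := f.eventuallyEq_one_of_mem_ball (by
      rw [mem_ball]; rw [mem_closedBall] at hy; show dist y x < l + δ / 3; linarith only [hδ, hy])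
    filter_upwards [h1] with z hz
    rw [hz]; simp
  have key := h _ hf x l hl a
  rw [(hev x (mem_closedBall_self hl.le)).fderiv_eq] at key
  have e1 : ∫ y in closedBall x l, |f y * w y| = ∫ y in closedBall x l, |w y| := by
    refine setIntegral_congr_fun measurableSet_closedBall ?_
    intro y hy
    have := (hev y hy).self_of_nhds
    simp only at this ⊢
    rw [this]
  have e2 : ∫ y in closedBall x l, (‖x - y‖ ^ (n - 1))⁻¹ *
      |Laplacian.laplacian (fun z => f z * w z) y| =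
      ∫ y in closedBall x l, (‖x - y‖ ^ (n - 1))⁻¹ * |Laplacian.laplacian w y| := by
    refine setIntegral_congr_fun measurableSet_closedBall ?_
    intro y hy
    have := (laplacian_congr_nhds (hev y hy)).self_of_nhds
    simp only
    rw [this]
  rw [e1, e2] at key
  exact key

end Vale.Agent.P100.RM.Gr
end
end

section

section

open MeasureTheory Metric Set Filter Topology InnerProductSpace Module

namespace Vale.Agent.P100.RM.Gr

variable {n : ℕ}

/-- second cutoff, equal to one on the ball of radius two -/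
noncomputable def cut2 (n : ℕ) : ContDiffBump (0 : EuclideanSpace ℝ (Fin n)) :=
  ⟨2, 3, by norm_num, by norm_num⟩

lemma cut2_one {y : (Eu n)} (hy : ‖y‖ ≤ 2) : cut2 n y = 1 :=
  (cut2 n).one_of_mem_closedBall (by rw [mem_closedBall, dist_zero_right]; exact hy)

/-- constant -/
noncomputable def KK (n : ℕ) : ℝ :=
  ((n : ℝ) / 2 - 1) * n * (n + 2) * 4 ^ (-((n : ℝ) / 2 - 1) - 1 - 1)

lemma KK_pos (hn : 3 ≤ n) : 0 < KK n := by
  have hn' : (3 : ℝ) ≤ n := by exact_mod_cast hn
  unfold KK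
  have : 0 < (n : ℝ) / 2 - 1 := by linarith only [hn']
  positivity

lemma mv_pt (hn : 3 ≤ n) {w : (Eu n) → ℝ} (hw : ∀ y ∈ closedBall (0 : (Eu n)) 2, 0 ≤ w y) {s : ℝ}
    (hs : 0 < s) (hs1 : s ≤ 1) (y : (Eu n)) :
    (closedBall (0 : (Eu n)) 1).indicator (fun y => 2 * KK n * w y) y ≤
      LQ n ((n : ℝ) / 2 - 1) s y * w y + (n - 2) * ((|w y| * cut2 n y) * psi s y) := by
  have hn' : (3 : ℝ) ≤ n := by exact_mod_cast hn
  have hψ := psi_pos (n := n) (by omega) hs y
  have hK := KK_pos hn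
  by_cases hy : ‖y‖ ^ 2 + s ≤ 4
  · have hy2 : ‖y‖ ≤ 2 := by nlinarith only [hs, hy]
    have hwy := hw y (by rw [mem_closedBall, dist_zero_right]; exact hy2)
    have h1 := LQ_lower hn hs y hy
    rw [cut2_one hy2, abs_of_nonneg hwy]
    have h2 : (KK n * (4 - (‖y‖ ^ 2 + s)) - (n - 2) * psi s y) * w y ≤
        LQ n ((n : ℝ) / 2 - 1) s y * w y := mul_le_mul_of_nonneg_right h1 hwy
    have h3 : (closedBall (0 : (Eu n)) 1).indicator (fun y => 2 * KK n * w y) y ≤
        KK n * (4 - (‖y‖ ^ 2 + s)) * w y := by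
      simp only [indicator, mem_closedBall, dist_zero_right]
      split_ifs with h
      · apply mul_le_mul_of_nonneg_right _ hwy
        have : ‖y‖ ^ 2 ≤ 1 := by nlinarith only [h, norm_nonneg y]
        nlinarith only [hs1, hK, this]
      · have : 0 ≤ 4 - (‖y‖ ^ 2 + s) := by linarith only [hy]
        (clear * - hK hy hwy; positivity)
    linarith only [h2, h3]
  · have h1 : tm s y = 4 := min_eq_right (by linarith only [hy])
    have h2 : LQ n ((n : ℝ) / 2 - 1) s y = 0 := by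
      unfold LQ; rw [h1, pr1_four, pr2_four]; ring
    rw [h2]
    have h3 : (closedBall (0 : (Eu n)) 1).indicator (fun y => 2 * KK n * w y) y = 0 := by
      apply indicator_of_notMem
      rw [mem_closedBall, dist_zero_right]
      intro h
      apply hy
      nlinarith only [hs1, h, norm_nonneg y]
    rw [h3]
    have h4 : 0 ≤ cut2 n y := (cut2 n).nonneg
    have h5 : (0 : ℝ) ≤ n - 2 := by linarith only [hn']
    have h6 : 0 ≤ (n - 2 : ℝ) * ((|w y| * cut2 n y) * psi s y) :=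
      mul_nonneg h5 (mul_nonneg (mul_nonneg (abs_nonneg _) h4) hψ.le)
    linarith only [h6]

theorem mv_unit (hn : 3 ≤ n) : ∃ C : ℝ, 0 < C ∧ ∀ w : (Eu n) → ℝ, ContDiff ℝ 2 w →
    (∀ y ∈ closedBall (0 : (Eu n)) 2, 0 ≤ w y ∧ Laplacian.laplacian w y ≤ 0) →
    ∫ y in closedBall (0 : (Eu n)) 1, w y ≤ C * w 0 := by
  have hn' : (3 : ℝ) ≤ n := by exact_mod_cast hn
  have hK := KK_pos hn
  have hZ := Zm_pos (n := n) (by omega)
  have h2 : (0 : ℝ) < n - 2 := by linarith only [hn']
  refine ⟨(2 * KK n)⁻¹ * ((n - 2) * Zm n), by positivity, ?_⟩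
  intro w hw hpos
  have hw0 : 0 ≤ w 0 := (hpos 0 (mem_closedBall_self (by norm_num))).1
  have hgc : Continuous (fun y => |w y| * cut2 n y) := hw.continuous.abs.mul (cut2 n).continuous
  have hgs : HasCompactSupport (fun y => |w y| * cut2 n y) :=
    (cut2 n).hasCompactSupport.mul_left
  have hlim := (peak_tendsto (by omega) hgc hgs).const_mul ((n : ℝ) - 2)
  have h0 : |w 0| * cut2 n 0 = w 0 := by
    rw [cut2_one (by simp), abs_of_nonneg hw0, mul_one]
  rw [h0] at hlim
  have key : 2 * KK n * ∫ y in closedBall (0 : (Eu n)) 1, w y ≤ ((n : ℝ) - 2) * (Zm n * w 0) := by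
    refine ge_of_tendsto hlim ?_
    filter_upwards [eventually_ge_atTop 1] with c hc
    have hc0 : 0 < c := by linarith only [hc]
    obtain ⟨s, hsd⟩ : ∃ s, s = (c ^ 2)⁻¹ := ⟨_, rfl⟩
    have hs : 0 < s := by rw [hsd]; (clear * - hc; positivity)
    have hs1 : s ≤ 1 := by
      rw [hsd]; exact inv_le_one_of_one_le₀ (by nlinarith only [hc])
    rw [← hsd]
    have i1 : Integrable (fun y => LQ n ((n : ℝ) / 2 - 1) s y * w y) := by
      refine int_cs ((LQ_continuous _ hs).mul hw.continuous) ?_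
      refine HasCompactSupport.intro (isCompact_closedBall (0 : (Eu n)) 2) ?_
      intro y hy
      rw [mem_closedBall, dist_zero_right, not_le] at hy
      have h1 : tm s y = 4 := min_eq_right (by nlinarith only [hs, hy])
      unfold LQ; rw [h1, pr1_four, pr2_four]; ring
    have i2 : Integrable (fun y => (|w y| * cut2 n y) * psi s y) :=
      int_cs (hgc.mul (psi_continuous hs)) hgs.mul_right
    have e1 : ∫ y, LQ n ((n : ℝ) / 2 - 1) s y * w y ≤ 0 := by
      rw [← green hw _ hs]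
      apply integral_nonpos
      intro y
      simp only [Pi.zero_apply]
      by_cases hy : ‖y‖ ^ 2 + s ≤ 4
      · have hy2 : ‖y‖ ≤ 2 := by nlinarith only [hs, hy]
        have hwy := (hpos y (by rw [mem_closedBall, dist_zero_right]; exact hy2)).2
        have hq : 0 ≤ Qf ((n : ℝ) / 2 - 1) s y :=
          pr_nonneg (by linarith only [hn']) (tm_pos hs y) (tm_le s y)
        exact mul_nonpos_of_nonneg_of_nonpos hq hwy
      · have h1 : tm s y = 4 := min_eq_right (by linarith only [hy])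
        unfold Qf
        rw [h1, pr_four, zero_mul]
    calc 2 * KK n * ∫ y in closedBall (0 : (Eu n)) 1, w y
        = ∫ y, (closedBall (0 : (Eu n)) 1).indicator (fun y => 2 * KK n * w y) y := by
          rw [integral_indicator measurableSet_closedBall, integral_const_mul]
      _ ≤ ∫ y, (LQ n ((n : ℝ) / 2 - 1) s y * w y +
            (n - 2) * ((|w y| * cut2 n y) * psi s y)) := by
          refine integral_mono ?_ (i1.add (i2.const_mul _)) ?_
          · rw [integrable_indicator_iff measurableSet_closedBall]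
            exact (hw.continuous.continuousOn.integrableOn_compact
              (isCompact_closedBall 0 1)).const_mul _
          · exact fun y => mv_pt hn (fun y hy => (hpos y hy).1) hs hs1 y
      _ = (∫ y, LQ n ((n : ℝ) / 2 - 1) s y * w y) +
            (n - 2) * ∫ y, (|w y| * cut2 n y) * psi s y := by
          rw [integral_add i1 (i2.const_mul _), integral_const_mul]
      _ ≤ 0 + (n - 2) * ∫ y, (|w y| * cut2 n y) * psi s y := by linarith only [e1]
      _ = _ := by ring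
  rw [mul_assoc, inv_mul_eq_div, le_div_iff₀ (by positivity)]
  linarith only [key]

theorem mv_global (hn : 3 ≤ n) : ∃ C : ℝ, 0 < C ∧ ∀ w : (Eu n) → ℝ, ContDiff ℝ 2 w → ∀ (x : (Eu n)) (l : ℝ),
    0 < l → (∀ y ∈ closedBall x (2 * l), 0 ≤ w y ∧ Laplacian.laplacian w y ≤ 0) →
    ∫ y in closedBall x l, w y ≤ C * l ^ n * w x := by
  obtain ⟨C, hC, h⟩ := mv_unit hn
  refine ⟨C, hC, ?_⟩
  intro w hw x l hl hpos
  have h1 : ContDiff ℝ 2 (fun z : (Eu n) => w (x + l • z)) :=
    hw.comp (contDiff_const.add (contDiff_id.const_smul l))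
  have key := h _ h1 (by
    intro y hy
    rw [lap_comp hw]
    rw [mem_closedBall, dist_zero_right] at hy
    have hm : x + l • y ∈ closedBall x (2 * l) := by
      rw [mem_closedBall, dist_self_add_left, norm_smul, Real.norm_of_nonneg hl.le]
      nlinarith only [hl, hy]
    have := hpos _ hm
    exact ⟨this.1, mul_nonpos_of_nonneg_of_nonpos (by positivity) this.2⟩)
  rw [scale_int w x hl, smul_zero, add_zero, inv_mul_eq_div, div_le_iff₀ (by positivity)] at key
  linarith only [key]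

/-- **Mean value inequality** for nonnegative superharmonic functions -/
theorem _root_.Vale.Agent.P100.RM.mv_est (n : ℕ) (hn : 3 ≤ n) : ∃ C : ℝ, 0 < C ∧
    ∀ (w : EuclideanSpace ℝ (Fin n) → ℝ) (U : Set (EuclideanSpace ℝ (Fin n)))
      (x : EuclideanSpace ℝ (Fin n)) (l : ℝ), 0 < l → IsOpen U → closedBall x (2 * l) ⊆ U →
      ContDiffOn ℝ 2 w U →
      (∀ y ∈ closedBall x (2 * l), 0 ≤ w y ∧ Laplacian.laplacian w y ≤ 0) →
      ∫ y in closedBall x l, w y ≤ C * l ^ n * w x := by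
  obtain ⟨C, hC, h⟩ := mv_global (n := n) hn
  refine ⟨C, hC, ?_⟩
  intro w U x l hl hU hsub hw hpos
  obtain ⟨δ, hδ, hδU⟩ := (isCompact_closedBall x (2 * l)).exists_cthickening_subset_open hU hsub
  rw [cthickening_closedBall hδ.le (by positivity)] at hδU
  let f : ContDiffBump x := ⟨2 * l + δ / 3, 2 * l + δ / 2, by positivity, by linarith only [hδ]⟩
  have hf : ContDiff ℝ 2 (fun y => f y * w y) := by
    rw [contDiff_iff_contDiffAt]
    intro y
    by_cases hy : y ∈ U
    · exact f.contDiffAt.mul (hw.contDiffAt (hU.mem_nhds hy))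
    · have hy2 : 2 * l + δ / 2 < dist y x := by
        by_contra hcon
        push Not at hcon
        exact hy (hδU (by rw [mem_closedBall]; linarith only [hδ, hcon]))
      have hev : (fun z => f z * w z) =ᶠ[𝓝 y] fun _ => 0 := by
        have hop : {z : EuclideanSpace ℝ (Fin n) | 2 * l + δ / 2 < dist z x} ∈ 𝓝 y :=
          (isOpen_lt continuous_const (by fun_prop)).mem_nhds hy2
        filter_upwards [hop] with z hz
        have hz' : 2 * l + δ / 2 < dist z x := hz
        have : f z = 0 := f.zero_of_le_dist (by show 2 * l + δ / 2 ≤ dist z x; exact hz'.le)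
        rw [this, zero_mul]
      exact contDiffAt_const.congr_of_eventuallyEq hev
  have hev : ∀ y ∈ closedBall x (2 * l), (fun z => f z * w z) =ᶠ[𝓝 y] w := by
    intro y hy
    have h1 : f =ᶠ[𝓝 y] 1 := f.eventuallyEq_one_of_mem_ball (by
      rw [mem_ball]; rw [mem_closedBall] at hy; show dist y x < 2 * l + δ / 3; linarith only [hδ, hy])
    filter_upwards [h1] with z hz
    rw [hz]; simp
  have key := h _ hf x l hl (by
    intro y hy
    have h5 := (hev y hy).self_of_nhds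
    simp only at h5
    rw [(laplacian_congr_nhds (hev y hy)).self_of_nhds, h5]
    exact hpos y hy)
  have hx := (hev x (mem_closedBall_self (by positivity))).self_of_nhds
  simp only at hx
  rw [hx] at key
  have e1 : ∫ y in closedBall x l, f y * w y = ∫ y in closedBall x l, w y := by
    refine setIntegral_congr_fun measurableSet_closedBall ?_
    intro y hy
    exact (hev y (closedBall_subset_closedBall (by linarith only [hl]) hy)).self_of_nhds
  rw [e1] at key
  exact key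

end Vale.Agent.P100.RM.Gr
end
end

section

section

open MeasureTheory Metric Set Filter Topology InnerProductSpace Module

namespace Vale.Agent.P100.RM

variable {n : ℕ}

namespace Gr

lemma kernel_eq (hn : 3 ≤ n) (r : ℝ) (hr : 0 ≤ r) : (r ^ (n - 1))⁻¹ = r ^ (-((n : ℝ) - 1)) := by
  have h1 : ((n - 1 : ℕ) : ℝ) = (n : ℝ) - 1 := by
    rw [Nat.cast_sub (by omega)]; simp
  rw [Real.rpow_neg hr, ← h1, Real.rpow_natCast]

/-- positive superharmonic functions, real version -/
lemma grad_super (hn : 3 ≤ n) : ∃ C : ℝ, 0 < C ∧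
    ∀ (w : E n → ℝ) (U : Set (E n)) (x : E n) (h : ℝ), 0 < h → IsOpen U → closedBall x h ⊆ U →
      ContDiffOn ℝ 2 w U → (∀ y ∈ closedBall x h, 0 ≤ w y ∧ Laplacian.laplacian w y ≤ 0) →
      ‖fderiv ℝ w x‖ ≤ C / h * w x +
        C * ∫ y in closedBall x (h / 2), (‖x - y‖ ^ (n - 1))⁻¹ * |Laplacian.laplacian w y| := by
  obtain ⟨C1, hC1, h1⟩ := grad_est n (by omega)
  obtain ⟨C2, hC2, h2⟩ := mv_est n hn
  refine ⟨2 * C1 * C2 + C1, by positivity, ?_⟩
  intro w U x h hh hU hsub hw hpos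
  have hl : 0 < h / 2 := by positivity
  have hsub2 : closedBall x (h / 2) ⊆ closedBall x h := closedBall_subset_closedBall (by linarith only [hh])
  have hwx : 0 ≤ w x := (hpos x (mem_closedBall_self hh.le)).1
  have k2 := h2 w U x (h / 2) hl hU (by rw [mul_div_cancel₀ h two_ne_zero]; exact hsub) hw
    (by rw [mul_div_cancel₀ h two_ne_zero]; exact hpos)
  have e1 : ∫ y in closedBall x (h / 2), |w y| = ∫ y in closedBall x (h / 2), w y := by
    refine setIntegral_congr_fun measurableSet_closedBall ?_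
    intro y hy
    exact abs_of_nonneg (hpos y (hsub2 hy)).1
  obtain ⟨I2, hI2⟩ : ∃ I2, I2 = ∫ y in closedBall x (h / 2),
      (‖x - y‖ ^ (n - 1))⁻¹ * |Laplacian.laplacian w y| := ⟨_, rfl⟩
  have hI2n : 0 ≤ I2 := by rw [hI2]; exact integral_nonneg fun y => by (clear * -; positivity)
  have k1 := h1 w U x (h / 2) hl hU (hsub2.trans hsub) hw
  rw [← hI2] at k1 ⊢
  rw [e1] at k1
  refine ContinuousLinearMap.opNorm_le_bound _ (by (clear * - hC1 hC2 hh hwx hI2n; positivity)) ?_
  intro e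
  rw [Real.norm_eq_abs]
  refine (k1 e).trans ?_
  rw [mul_comm]
  apply mul_le_mul_of_nonneg_right _ (norm_nonneg e)
  have k3 : C1 * ((h / 2) ^ (n + 1))⁻¹ * ∫ y in closedBall x (h / 2), w y ≤
      2 * C1 * C2 / h * w x := by
    calc C1 * ((h / 2) ^ (n + 1))⁻¹ * ∫ y in closedBall x (h / 2), w y
        ≤ C1 * ((h / 2) ^ (n + 1))⁻¹ * (C2 * (h / 2) ^ n * w x) := by (clear * - k2 hC1 hh; gcongr)
      _ = 2 * C1 * C2 / h * w x := by rw [pow_succ]; field_simp
  have k4 : 2 * C1 * C2 / h * w x ≤ (2 * C1 * C2 + C1) / h * w x := by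
    gcongr; linarith only [hC1]
  have k5 : C1 * I2 ≤ (2 * C1 * C2 + C1) * I2 := by
    gcongr; linarith only [mul_pos hC1 hC2]
  linarith only [k3, k4, k5]

end Gr

theorem grad_bound (hn : 3 ≤ n) : ∃ C : ℝ, 0 < C ∧ ∀ (p q A B : ℝ), -2 < A → -2 < B → 0 < p →
    0 < q → ∀ u v : E n → ℝ, IsPositiveEntireSolution n p q A B u v → ∀ x : E n, x ≠ 0 →
    ∀ h : ℝ, 0 < h → h < ‖x‖ → ENNReal.ofReal ‖fderiv ℝ u x‖ ≤ ENNReal.ofReal (C / h * u x) +
      ENNReal.ofReal C * ∫⁻ y in Metric.ball x h,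
        ENNReal.ofReal (‖x - y‖ ^ (-((n : ℝ) - 1)) * (‖y‖ ^ A * v y ^ p)) := by
  obtain ⟨C, hC, hb⟩ := Gr.grad_super hn
  refine ⟨C, hC, ?_⟩
  intro p q A B _ _ _ _ u v hs x hx h hh hhx
  have hne : ∀ y ∈ closedBall x h, y ≠ 0 := by
    rintro y hy rfl
    rw [mem_closedBall, dist_eq_norm, zero_sub, norm_neg] at hy
    linarith only [hhx, hy]
  have hlap : ∀ y ∈ closedBall x h, Laplacian.laplacian u y = -(‖y‖ ^ A * v y ^ p) := by
    intro y hy
    have := hs.eq_u y (hne y hy)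
    linarith only [this]
  have hsrc : ∀ y, 0 ≤ ‖y‖ ^ A * v y ^ p := fun y =>
    mul_nonneg (Real.rpow_nonneg (norm_nonneg y) _) (Real.rpow_nonneg (hs.pos_v y).le _)
  have key := hb u {0}ᶜ x h hh isOpen_compl_singleton (fun y hy => hne y hy) hs.contDiffOn_u
    (fun y hy => ⟨(hs.pos_u y).le, by rw [hlap y hy]; linarith only [hsrc y]⟩)
  have k1 : ENNReal.ofReal (∫ y in closedBall x (h / 2),
      (‖x - y‖ ^ (n - 1))⁻¹ * |Laplacian.laplacian u y|) ≤
      ∫⁻ y in Metric.ball x h,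
        ENNReal.ofReal (‖x - y‖ ^ (-((n : ℝ) - 1)) * (‖y‖ ^ A * v y ^ p)) := by
    have h1 : ENNReal.ofReal (∫ y in closedBall x (h / 2),
        (‖x - y‖ ^ (n - 1))⁻¹ * |Laplacian.laplacian u y|) ≤
        ∫⁻ y in closedBall x (h / 2),
          ‖(‖x - y‖ ^ (n - 1))⁻¹ * |Laplacian.laplacian u y|‖ₑ := by
      refine le_trans ?_ (enorm_integral_le_lintegral_enorm _)
      rw [Real.enorm_eq_ofReal_abs]
      exact ENNReal.ofReal_le_ofReal (le_abs_self _)
    refine h1.trans ?_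
    have h2 : ∫⁻ y in closedBall x (h / 2),
          ‖(‖x - y‖ ^ (n - 1))⁻¹ * |Laplacian.laplacian u y|‖ₑ =
        ∫⁻ y in closedBall x (h / 2),
          ENNReal.ofReal (‖x - y‖ ^ (-((n : ℝ) - 1)) * (‖y‖ ^ A * v y ^ p)) := by
      refine setLIntegral_congr_fun measurableSet_closedBall ?_
      intro y hy
      have hy' : y ∈ closedBall x h := closedBall_subset_closedBall (by linarith only [hh]) hy
      simp only
      rw [hlap y hy', abs_neg, abs_of_nonneg (hsrc y), Gr.kernel_eq hn _ (norm_nonneg _),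
        Real.enorm_of_nonneg (mul_nonneg (Real.rpow_nonneg (norm_nonneg _) _) (hsrc y))]
    rw [h2]
    exact lintegral_mono_set (closedBall_subset_ball (by linarith only [hh]))
  calc ENNReal.ofReal ‖fderiv ℝ u x‖
      ≤ ENNReal.ofReal (C / h * u x + C * ∫ y in closedBall x (h / 2),
        (‖x - y‖ ^ (n - 1))⁻¹ * |Laplacian.laplacian u y|) := ENNReal.ofReal_le_ofReal key
    _ ≤ ENNReal.ofReal (C / h * u x) + ENNReal.ofReal (C * ∫ y in closedBall x (h / 2),
        (‖x - y‖ ^ (n - 1))⁻¹ * |Laplacian.laplacian u y|) := ENNReal.ofReal_add_le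
    _ ≤ _ := by
        rw [ENNReal.ofReal_mul hC.le]
        (clear * - k1; gcongr)

end Vale.Agent.P100.RM
end
end

section

section

/-!
# Rotations in a plane and the rotation invariance of the measure on the sphere
-/

set_option linter.all false

namespace Vale.Agent.P100.RM

open Set Filter Topology MeasureTheory Metric

noncomputable section

section rot

variable {E : Type*} [NormedAddCommGroup E] [InnerProductSpace ℝ E]

/-- the rotation by the angle `φ` in the plane spanned by the orthonormal vectors `p`, `q` -/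
def rotV (p q : E) (φ : ℝ) (x : E) : E :=
  x + ((Real.cos φ - 1) * inner ℝ p x - Real.sin φ * inner ℝ q x) • p +
    ((Real.cos φ - 1) * inner ℝ q x + Real.sin φ * inner ℝ p x) • q

/-- the generator of the rotation -/
def genV (p q x : E) : E := (-inner ℝ q x : ℝ) • p + (inner ℝ p x : ℝ) • q

variable {p q : E}

theorem inner_p_rot (hp : ‖p‖ = 1) (hpq : inner ℝ p q = (0:ℝ)) (φ : ℝ) (x : E) :
    inner ℝ p (rotV p q φ x) = Real.cos φ * inner ℝ p x - Real.sin φ * inner ℝ q x := by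
  unfold rotV
  rw [inner_add_right, inner_add_right, inner_smul_right, inner_smul_right, hpq,
    real_inner_self_eq_norm_sq, hp]
  ring

theorem inner_q_rot (hq : ‖q‖ = 1) (hpq : inner ℝ p q = (0:ℝ)) (φ : ℝ) (x : E) :
    inner ℝ q (rotV p q φ x) = Real.cos φ * inner ℝ q x + Real.sin φ * inner ℝ p x := by
  unfold rotV
  rw [inner_add_right, inner_add_right, inner_smul_right, inner_smul_right,
    real_inner_comm p q, hpq, real_inner_self_eq_norm_sq, hq]
  ring

theorem rotV_add (hp : ‖p‖ = 1) (hq : ‖q‖ = 1) (hpq : inner ℝ p q = (0:ℝ)) (φ ψ : ℝ) (x : E) :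
    rotV p q φ (rotV p q ψ x) = rotV p q (φ + ψ) x := by
  have h1 := inner_p_rot (q := q) hp hpq ψ x
  have h2 := inner_q_rot (p := p) hq hpq ψ x
  have e : rotV p q φ (rotV p q ψ x) = rotV p q ψ x +
      ((Real.cos φ - 1) * inner ℝ p (rotV p q ψ x) - Real.sin φ * inner ℝ q (rotV p q ψ x)) • p +
      ((Real.cos φ - 1) * inner ℝ q (rotV p q ψ x) + Real.sin φ * inner ℝ p (rotV p q ψ x)) • q :=
    rfl
  rw [e, h1, h2, rotV, rotV, Real.cos_add, Real.sin_add]
  module

theorem rotV_zero (x : E) : rotV p q 0 x = x := by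
  unfold rotV
  simp

theorem norm_rotV (hp : ‖p‖ = 1) (hq : ‖q‖ = 1) (hpq : inner ℝ p q = (0:ℝ)) (φ : ℝ) (x : E) :
    ‖rotV p q φ x‖ = ‖x‖ := by
  have h : ‖rotV p q φ x‖ ^ 2 = ‖x‖ ^ 2 := by
    unfold rotV
    generalize ha : (Real.cos φ - 1) * inner ℝ p x - Real.sin φ * inner ℝ q x = a
    generalize hb : (Real.cos φ - 1) * inner ℝ q x + Real.sin φ * inner ℝ p x = b
    rw [add_assoc, @norm_add_sq_real, @norm_add_sq_real, inner_add_right, inner_smul_right,
      inner_smul_right, inner_smul_left, inner_smul_right, hpq, norm_smul, norm_smul, hp, hq,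
      Real.norm_eq_abs, Real.norm_eq_abs, mul_one, mul_one, sq_abs, sq_abs,
      real_inner_comm p x, real_inner_comm q x, ← ha, ← hb]
    have := Real.sin_sq_add_cos_sq φ
    simp only [conj_trivial, mul_zero]
    linear_combination (inner ℝ p x ^ 2 + inner ℝ q x ^ 2) * this
  have h1 := norm_nonneg (rotV p q φ x)
  have h2 := norm_nonneg x
  nlinarith only [h, h1, h2]

/-- the rotation as a linear isometry equivalence -/
def rotE (hp : ‖p‖ = 1) (hq : ‖q‖ = 1) (hpq : inner ℝ p q = (0:ℝ)) (φ : ℝ) : E ≃ₗᵢ[ℝ] E where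
  toFun := rotV p q φ
  map_add' x y := by
    unfold rotV
    rw [inner_add_right, inner_add_right]
    module
  map_smul' c x := by
    unfold rotV
    rw [inner_smul_right, inner_smul_right]
    simp only [RingHom.id_apply]
    module
  invFun := rotV p q (-φ)
  left_inv x := by
    rw [rotV_add hp hq hpq, neg_add_cancel, rotV_zero]
  right_inv x := by
    rw [rotV_add hp hq hpq, add_neg_cancel, rotV_zero]
  norm_map' x := norm_rotV hp hq hpq φ x

theorem hasDerivAt_rotV (x : E) (φ : ℝ) :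
    HasDerivAt (fun φ => rotV p q φ x)
      ((-Real.sin φ * inner ℝ p x - Real.cos φ * inner ℝ q x) • p +
        (-Real.sin φ * inner ℝ q x + Real.cos φ * inner ℝ p x) • q) φ := by
  have h1 : HasDerivAt (fun φ => (Real.cos φ - 1) * inner ℝ p x - Real.sin φ * inner ℝ q x)
      (-Real.sin φ * inner ℝ p x - Real.cos φ * inner ℝ q x) φ :=
    (((Real.hasDerivAt_cos φ).sub_const 1).mul_const _).sub
      ((Real.hasDerivAt_sin φ).mul_const _)
  have h2 : HasDerivAt (fun φ => (Real.cos φ - 1) * inner ℝ q x + Real.sin φ * inner ℝ p x)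
      (-Real.sin φ * inner ℝ q x + Real.cos φ * inner ℝ p x) φ :=
    (((Real.hasDerivAt_cos φ).sub_const 1).mul_const _).add
      ((Real.hasDerivAt_sin φ).mul_const _)
  have h3 := ((h1.smul_const p).const_add x).add (h2.smul_const q)
  exact h3

theorem deriv_eq_gen (hp : ‖p‖ = 1) (hq : ‖q‖ = 1) (hpq : inner ℝ p q = (0:ℝ)) (x : E) (φ : ℝ) :
    (-Real.sin φ * inner ℝ p x - Real.cos φ * inner ℝ q x) • p +
        (-Real.sin φ * inner ℝ q x + Real.cos φ * inner ℝ p x) • q = genV p q (rotV p q φ x) := by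
  unfold genV
  rw [inner_p_rot (q := q) hp hpq, inner_q_rot (p := p) hq hpq]
  module

theorem hasDerivAt_rotV' (hp : ‖p‖ = 1) (hq : ‖q‖ = 1) (hpq : inner ℝ p q = (0:ℝ)) (x : E)
    (φ : ℝ) : HasDerivAt (fun φ => rotV p q φ x) (genV p q (rotV p q φ x)) φ := by
  rw [← deriv_eq_gen hp hq hpq]
  exact hasDerivAt_rotV x φ

theorem hasDerivAt_gen (hp : ‖p‖ = 1) (hq : ‖q‖ = 1) (hpq : inner ℝ p q = (0:ℝ)) (x : E)
    (φ : ℝ) : HasDerivAt (fun φ => genV p q (rotV p q φ x))
      (-((inner ℝ p (rotV p q φ x) : ℝ) • p + (inner ℝ q (rotV p q φ x) : ℝ) • q)) φ := by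
  have h1 : HasDerivAt (fun φ => -Real.sin φ * inner ℝ p x - Real.cos φ * inner ℝ q x)
      (-Real.cos φ * inner ℝ p x - -Real.sin φ * inner ℝ q x) φ :=
    (((Real.hasDerivAt_sin φ).fun_neg).mul_const _).sub ((Real.hasDerivAt_cos φ).mul_const _)
  have h2 : HasDerivAt (fun φ => -Real.sin φ * inner ℝ q x + Real.cos φ * inner ℝ p x)
      (-Real.cos φ * inner ℝ q x + -Real.sin φ * inner ℝ p x) φ :=
    (((Real.hasDerivAt_sin φ).fun_neg).mul_const _).add ((Real.hasDerivAt_cos φ).mul_const _)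
  have h3 := (h1.smul_const p).add (h2.smul_const q)
  have e : (fun φ => genV p q (rotV p q φ x)) = fun φ =>
      (-Real.sin φ * inner ℝ p x - Real.cos φ * inner ℝ q x) • p +
        (-Real.sin φ * inner ℝ q x + Real.cos φ * inner ℝ p x) • q := by
    funext φ
    exact (deriv_eq_gen hp hq hpq x φ).symm
  rw [e]
  refine h3.congr_deriv ?_
  rw [inner_p_rot (q := q) hp hpq, inner_q_rot (p := p) hq hpq]
  module

theorem norm_genV_le (hp : ‖p‖ = 1) (hq : ‖q‖ = 1) (hpq : inner ℝ p q = (0:ℝ)) (x : E) :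
    ‖genV p q x‖ ≤ ‖x‖ := by
  have h1 : ‖genV p q x‖ ^ 2 = (inner ℝ q x) ^ 2 + (inner ℝ p x) ^ 2 := by
    unfold genV
    rw [@norm_add_sq_real, inner_smul_right, inner_smul_left, hpq, norm_smul, norm_smul, hp, hq,
      Real.norm_eq_abs, Real.norm_eq_abs, mul_one, mul_one, sq_abs, sq_abs]
    ring
  have h2 : 0 ≤ ‖x - ((inner ℝ p x : ℝ) • p + (inner ℝ q x : ℝ) • q)‖ ^ 2 := by (clear * -; positivity)
  rw [@norm_sub_sq_real, inner_add_right, inner_smul_right, inner_smul_right, @norm_add_sq_real,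
    inner_smul_right, inner_smul_left, hpq, norm_smul, norm_smul, hp, hq,
    Real.norm_eq_abs, Real.norm_eq_abs, mul_one, mul_one, sq_abs, sq_abs,
    real_inner_comm p x, real_inner_comm q x] at h2
  have h3 : ‖genV p q x‖ ^ 2 ≤ ‖x‖ ^ 2 := by
    rw [h1]
    linarith
  exact (sq_le_sq₀ (norm_nonneg _) (norm_nonneg _)).1 h3

theorem continuous_rotV : Continuous (fun y : ℝ × E => rotV p q y.1 y.2) := by
  unfold rotV
  fun_prop

end rot

end

end Vale.Agent.P100.RM
end
end

section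

section

/-!
# The equations on the cylinder as limits of discrete equations (module POL)
-/

set_option linter.all false

namespace Vale.Agent.P100.RM

open Set Filter Topology MeasureTheory Metric Module
open scoped Pointwise

noncomputable section

/-! ### second differences of functions of one variable -/

theorem second_diff_le {g g1 g2 : ℝ → ℝ} {h M : ℝ} (hh : 0 < h)
    (h1 : ∀ s ∈ Icc (-h) h, HasDerivAt g (g1 s) s) (h2 : ∀ s ∈ Icc (-h) h, HasDerivAt g1 (g2 s) s)
    (hM : ∀ s ∈ Icc (-h) h, g2 s ≤ M) : g h - 2 * g 0 + g (-h) ≤ M * h ^ 2 := by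
  have hneg : ∀ s ∈ Icc (0:ℝ) h, -s ∈ Icc (-h) h := fun s hs => ⟨by linarith [hs.2], by
    linarith [hs.1, hs.2]⟩
  have hpos : ∀ s ∈ Icc (0:ℝ) h, s ∈ Icc (-h) h := fun s hs => ⟨by linarith [hs.1, hs.2], hs.2⟩
  -- first derivative
  have d1 : ∀ s ∈ Icc (0:ℝ) h, HasDerivAt (fun s => g1 s - g1 (-s) - 2 * M * s)
      (g2 s + g2 (-s) - 2 * M) s := by
    intro s hs
    have e1 := h2 s (hpos s hs)
    have e2 := (h2 (-s) (hneg s hs)).scomp s (hasDerivAt_neg s)
    have e3 : HasDerivAt (fun s : ℝ => 2 * M * s) (2 * M * 1) s :=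
      (hasDerivAt_id s).const_mul (2 * M)
    refine ((e1.sub e2).sub e3).congr_deriv ?_
    simp only [smul_eq_mul]
    ring
  have a1 : AntitoneOn (fun s => g1 s - g1 (-s) - 2 * M * s) (Icc 0 h) := by
    refine antitoneOn_of_deriv_nonpos (convex_Icc 0 h)
      (fun s hs => (d1 s hs).continuousAt.continuousWithinAt) ?_ ?_
    · intro s hs
      rw [interior_Icc] at hs
      exact (d1 s ⟨hs.1.le, hs.2.le⟩).differentiableAt.differentiableWithinAt
    · intro s hs
      rw [interior_Icc] at hs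
      rw [(d1 s ⟨hs.1.le, hs.2.le⟩).deriv]
      have := hM s (hpos s ⟨hs.1.le, hs.2.le⟩)
      have := hM (-s) (hneg s ⟨hs.1.le, hs.2.le⟩)
      linarith
  have d0 : ∀ s ∈ Icc (0:ℝ) h, HasDerivAt (fun s => g s + g (-s) - M * s ^ 2)
      (g1 s - g1 (-s) - 2 * M * s) s := by
    intro s hs
    have e1 := h1 s (hpos s hs)
    have e2 := (h1 (-s) (hneg s hs)).scomp s (hasDerivAt_neg s)
    have e3 : HasDerivAt (fun s : ℝ => M * s ^ 2) (M * (2 * s)) s := by
      have := (hasDerivAt_pow 2 s).const_mul M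
      refine this.congr_deriv ?_
      norm_num
    refine ((e1.add e2).sub e3).congr_deriv ?_
    simp only [smul_eq_mul]
    ring
  have a0 : AntitoneOn (fun s => g s + g (-s) - M * s ^ 2) (Icc 0 h) := by
    refine antitoneOn_of_deriv_nonpos (convex_Icc 0 h)
      (fun s hs => (d0 s hs).continuousAt.continuousWithinAt) ?_ ?_
    · intro s hs
      rw [interior_Icc] at hs
      exact (d0 s ⟨hs.1.le, hs.2.le⟩).differentiableAt.differentiableWithinAt
    · intro s hs
      rw [interior_Icc] at hs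
      rw [(d0 s ⟨hs.1.le, hs.2.le⟩).deriv]
      have := a1 (left_mem_Icc.2 hh.le) ⟨hs.1.le, hs.2.le⟩ hs.1.le
      simpa only [tsub_le_iff_right, zero_add, ge_iff_le, neg_zero, sub_self, mul_zero] using this
  have := a0 (left_mem_Icc.2 hh.le) (right_mem_Icc.2 hh.le) hh.le
  simp only [neg_zero] at this
  linarith only [this]

theorem second_diff {g g1 g2 : ℝ → ℝ} {h ω G : ℝ} (hh : 0 < h)
    (h1 : ∀ s ∈ Icc (-h) h, HasDerivAt g (g1 s) s) (h2 : ∀ s ∈ Icc (-h) h, HasDerivAt g1 (g2 s) s)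
    (hω : ∀ s ∈ Icc (-h) h, |g2 s - G| ≤ ω) :
    |(g h - 2 * g 0 + g (-h)) / h ^ 2 - G| ≤ ω := by
  have e1 := second_diff_le hh h1 h2 (M := G + ω) fun s hs => by
    linarith only [(abs_le.1 (hω s hs)).2]
  have e2 := second_diff_le (g := fun s => -g s) (g1 := fun s => -g1 s) (g2 := fun s => -g2 s)
    hh (fun s hs => (h1 s hs).fun_neg) (fun s hs => (h2 s hs).fun_neg) (M := -(G - ω))
    fun s hs => by linarith [(abs_le.1 (hω s hs)).1]
  have hh2 : 0 < h ^ 2 := by positivity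
  rw [abs_le]
  constructor
  · rw [neg_le_sub_iff_le_add, ← sub_nonneg]
    have : (g h - 2 * g 0 + g (-h)) / h ^ 2 + ω - G =
      ((g h - 2 * g 0 + g (-h)) - (G - ω) * h ^ 2) / h ^ 2 := by
      field_simp
      ring
    rw [this]
    apply div_nonneg _ hh2.le
    linarith only [e2]
  · rw [sub_le_iff_le_add, div_le_iff₀ hh2]
    linarith only [e1]

/-! ### the spherical part of the Laplacian as a sum over rotations -/

section sph

variable {E : Type*} [NormedAddCommGroup E] [InnerProductSpace ℝ E] [FiniteDimensional ℝ E]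
variable {ι : Type*} [Fintype ι] [DecidableEq ι]

/-- the second derivative of `u` along the rotations of the plane `p, q` -/
def rot2 (u : E → ℝ) (p q x : E) : ℝ :=
  fderiv ℝ (fderiv ℝ u) x (genV p q x) (genV p q x) +
    fderiv ℝ u x (-((inner ℝ p x : ℝ) • p + (inner ℝ q x : ℝ) • q))

theorem sum_rot2_eq (u : E → ℝ) (b : OrthonormalBasis ι ℝ E) (x : E) :
    ∑ z ∈ (Finset.univ : Finset ι).offDiag, rot2 u (b z.1) (b z.2) x = 2 * sph u x := by
  set D := fderiv ℝ (fderiv ℝ u) x with hD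
  set D1 := fderiv ℝ u x with hD1
  set a : ι → ℝ := fun i => inner ℝ (b i) x with ha
  have hx : x = ∑ i, a i • b i := (b.sum_repr' x).symm
  have hlap : Laplacian.laplacian u x = ∑ i, D (b i) (b i) := by
    have h := congrFun (InnerProductSpace.laplacian_eq_iteratedFDeriv_orthonormalBasis u b) x
    rw [h]
    simp only [iteratedFDeriv_two_apply, Fin.isValue, Matrix.cons_val_zero, Matrix.cons_val_one, Matrix.cons_val_fin_one, hD]
  have hnorm : ‖x‖ ^ 2 = ∑ i, a i ^ 2 := by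
    rw [← real_inner_self_eq_norm_sq, ← b.sum_inner_mul_inner x x]
    refine Finset.sum_congr rfl fun i _ => ?_
    rw [real_inner_comm (b i) x, sq]
  have hDxx : D x x = ∑ i, ∑ j, a i * a j * D (b i) (b j) := by
    conv_lhs => rw [hx]
    simp only [map_sum, map_smul, ContinuousLinearMap.sum_apply, smul_apply, smul_eq_mul,
      Finset.mul_sum, Finset.sum_mul]
    rw [Finset.sum_comm]
    refine Finset.sum_congr rfl fun i _ => Finset.sum_congr rfl fun j _ => ?_
    ring
  have hD1x : D1 x = ∑ i, a i * D1 (b i) := by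
    conv_lhs => rw [hx]
    simp only [map_sum, map_smul, smul_eq_mul]
  have hterm : ∀ z : ι × ι, rot2 u (b z.1) (b z.2) x =
      (a z.2 ^ 2 * D (b z.1) (b z.1) + a z.1 ^ 2 * D (b z.2) (b z.2)
        - a z.1 * a z.2 * D (b z.1) (b z.2) - a z.2 * a z.1 * D (b z.2) (b z.1))
      - (a z.1 * D1 (b z.1) + a z.2 * D1 (b z.2)) := by
    intro z
    unfold rot2 genV
    simp only [map_add, map_smul, map_neg, add_apply, smul_apply, neg_apply, smul_eq_mul,
      ← hD, ← hD1]
    ring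
  set f : ι × ι → ℝ := fun z =>
      (a z.2 ^ 2 * D (b z.1) (b z.1) + a z.1 ^ 2 * D (b z.2) (b z.2)
        - a z.1 * a z.2 * D (b z.1) (b z.2) - a z.2 * a z.1 * D (b z.2) (b z.1))
      - (a z.1 * D1 (b z.1) + a z.2 * D1 (b z.2)) with hf
  have e0 : ∑ z ∈ (Finset.univ : Finset ι).offDiag, rot2 u (b z.1) (b z.2) x =
      ∑ z ∈ (Finset.univ : Finset ι).offDiag, f z := Finset.sum_congr rfl fun z _ => hterm z
  have e1 : ∑ z ∈ (Finset.univ : Finset ι) ×ˢ (Finset.univ : Finset ι), f z =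
      ∑ z ∈ (Finset.univ : Finset ι).diag, f z + ∑ z ∈ (Finset.univ : Finset ι).offDiag, f z := by
    rw [← Finset.diag_union_offDiag, Finset.sum_union (Finset.disjoint_diag_offDiag _)]
  have e2 : ∑ z ∈ (Finset.univ : Finset ι).diag, f z = -(2 * D1 x) := by
    rw [Finset.sum_diag, hD1x, Finset.mul_sum, ← Finset.sum_neg_distrib]
    refine Finset.sum_congr rfl fun i _ => ?_
    rw [hf]
    ring
  have hcard : (finrank ℝ E : ℝ) = (Fintype.card ι : ℝ) := by
    rw [finrank_eq_card_basis b.toBasis]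
  have e3 : ∑ z ∈ (Finset.univ : Finset ι) ×ˢ (Finset.univ : Finset ι), f z =
      2 * (‖x‖ ^ 2 * Laplacian.laplacian u x) - 2 * D x x - 2 * (finrank ℝ E : ℝ) * D1 x := by
    rw [Finset.sum_product, hlap, hnorm, hDxx, hcard]
    have s1 : ∑ i, ∑ j, a j ^ 2 * D (b i) (b i) = (∑ i, a i ^ 2) * ∑ i, D (b i) (b i) := by
      rw [Finset.sum_mul_sum, Finset.sum_comm]
    have s2 : ∑ i, ∑ j, a i ^ 2 * D (b j) (b j) = (∑ i, a i ^ 2) * ∑ i, D (b i) (b i) := by
      rw [Finset.sum_mul_sum]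
    have s3 : ∑ i, ∑ j, a j * a i * D (b j) (b i) = ∑ i, ∑ j, a i * a j * D (b i) (b j) := by
      rw [Finset.sum_comm]
    have s4 : ∑ i, ∑ j : ι, a i * D1 (b i) = (Fintype.card ι : ℝ) * D1 x := by
      rw [hD1x, Finset.mul_sum]
      refine Finset.sum_congr rfl fun i _ => ?_
      rw [Finset.sum_const, Finset.card_univ, nsmul_eq_mul]
    have s5 : ∑ i : ι, ∑ j, a j * D1 (b j) = (Fintype.card ι : ℝ) * D1 x := by
      rw [Finset.sum_comm, s4]
    have s6 : ∑ i, ∑ j, f (i, j) = (∑ i, ∑ j, a j ^ 2 * D (b i) (b i)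
        + ∑ i, ∑ j, a i ^ 2 * D (b j) (b j) - ∑ i, ∑ j, a i * a j * D (b i) (b j)
        - ∑ i, ∑ j, a j * a i * D (b j) (b i))
        - (∑ i, ∑ j : ι, a i * D1 (b i) + ∑ i : ι, ∑ j, a j * D1 (b j)) := by
      simp only [hf, Finset.sum_sub_distrib, Finset.sum_add_distrib]
    rw [s6, s1, s2, s3, s4, s5]
    ring
  rw [e0]
  have e4 : ∑ z ∈ (Finset.univ : Finset ι).offDiag, f z =
      2 * (‖x‖ ^ 2 * Laplacian.laplacian u x) - 2 * D x x - 2 * (finrank ℝ E : ℝ) * D1 x
        + 2 * D1 x := by (clear hD1 ha hterm e0; linarith)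
  rw [e4]
  unfold sph
  rw [← hD, ← hD1]
  ring

theorem continuousOn_fderiv2 {u : E → ℝ} (hu : ContDiffOn ℝ 2 u {0}ᶜ) :
    ContinuousOn (fderiv ℝ (fderiv ℝ u)) {0}ᶜ := by
  intro x hx
  have h1 : ContDiffAt ℝ 1 (fderiv ℝ u) x :=
    (contDiffAt_of_ne hu hx).fderiv_right (by norm_num)
  have h2 : ContDiffAt ℝ 0 (fderiv ℝ (fderiv ℝ u)) x := h1.fderiv_right (by norm_num)
  exact h2.continuousAt.continuousWithinAt

theorem continuousOn_rot2 {u : E → ℝ} (hu : ContDiffOn ℝ 2 u {0}ᶜ) (p q : E) :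
    ContinuousOn (rot2 u p q) {0}ᶜ := by
  unfold rot2 genV
  have h2 := continuousOn_fderiv2 hu
  have h1 := continuousOn_fderiv hu
  have h3 : ContinuousOn (fun x : E => (-inner ℝ q x : ℝ) • p + (inner ℝ p x : ℝ) • q) {0}ᶜ := by
    fun_prop
  have h4 : ContinuousOn (fun x : E => -((inner ℝ p x : ℝ) • p + (inner ℝ q x : ℝ) • q)) {0}ᶜ := by
    fun_prop
  exact ((h2.clm_apply h3).clm_apply h3).add (h1.clm_apply h4)

theorem rot_ne_zero {p q : E} (hp : ‖p‖ = 1) (hq : ‖q‖ = 1) (hpq : inner ℝ p q = (0:ℝ)) {φ : ℝ}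
    {x : E} (hx : x ≠ 0) : rotV p q φ x ≠ 0 := by
  rw [← norm_pos_iff, norm_rotV hp hq hpq, norm_pos_iff]
  exact hx

/-- derivatives of `u` along the rotations -/
theorem hasDerivAt_rot {u : E → ℝ} (hu : ContDiffOn ℝ 2 u {0}ᶜ) {p q : E} (hp : ‖p‖ = 1)
    (hq : ‖q‖ = 1) (hpq : inner ℝ p q = (0:ℝ)) {x : E} (hx : x ≠ 0) (φ : ℝ) :
    HasDerivAt (fun φ => u (rotV p q φ x))
      (fderiv ℝ u (rotV p q φ x) (genV p q (rotV p q φ x))) φ ∧
    HasDerivAt (fun φ => fderiv ℝ u (rotV p q φ x) (genV p q (rotV p q φ x)))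
      (rot2 u p q (rotV p q φ x)) φ :=
  hasDerivAt_along (u := u) (c := fun φ => rotV p q φ x)
    (c1 := fun φ => genV p q (rotV p q φ x))
    (c2 := -((inner ℝ p (rotV p q φ x) : ℝ) • p + (inner ℝ q (rotV p q φ x) : ℝ) • q)) (s := φ)
    (eventually_differentiableAt hu (rot_ne_zero hp hq hpq hx))
    (differentiableAt_fderiv_of_ne hu (rot_ne_zero hp hq hpq hx))
    (hasDerivAt_rotV' hp hq hpq x φ) (hasDerivAt_gen hp hq hpq x φ)

/-- the shell `exp (-L) ≤ |x| ≤ exp L` -/
def shell (E : Type*) [NormedAddCommGroup E] (L : ℝ) : Set E :=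
  {x | Real.exp (-L) ≤ ‖x‖ ∧ ‖x‖ ≤ Real.exp L}

theorem isCompact_shell (L : ℝ) : IsCompact (shell E L) := by
  have h1 : IsCompact (closedBall (0:E) (Real.exp L)) := isCompact_closedBall _ _
  refine h1.of_isClosed_subset ?_ ?_
  · have e : shell E L = {x | Real.exp (-L) ≤ ‖x‖} ∩ {x | ‖x‖ ≤ Real.exp L} := rfl
    rw [e]
    exact (isClosed_le continuous_const continuous_norm).inter
      (isClosed_le continuous_norm continuous_const)
  · intro x hx
    rw [mem_closedBall_zero_iff]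
    exact hx.2

theorem shell_ne {L : ℝ} {x : E} (hx : x ∈ shell E L) : x ≠ 0 := by
  rw [← norm_pos_iff]
  exact (Real.exp_pos _).trans_le hx.1

/-- uniform second differences along rotations -/
theorem rot_second {u : E → ℝ} (hu : ContDiffOn ℝ 2 u {0}ᶜ) {p q : E} (hp : ‖p‖ = 1)
    (hq : ‖q‖ = 1) (hpq : inner ℝ p q = (0:ℝ)) (L : ℝ) {ω : ℝ} (hω : 0 < ω) :
    ∃ ε0 > 0, ∀ ε, 0 < ε → ε ≤ ε0 → ∀ x ∈ shell E L,
      |(u (rotV p q ε x) - 2 * u x + u (rotV p q (-ε) x)) / ε ^ 2 - rot2 u p q x| ≤ ω := by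
  have h1 := (isCompact_shell (E := E) L).eventually_forall_of_forall_eventually
    (P := fun φ x => |rot2 u p q (rotV p q φ x) - rot2 u p q x| < ω) (x₀ := (0:ℝ)) (by
      intro x hx
      have hx0 := shell_ne hx
      have c1 : ContinuousAt (rot2 u p q) x :=
        (continuousOn_rot2 hu p q).continuousAt (isOpen_compl_singleton.mem_nhds hx0)
      have c2 : ContinuousAt (fun y : ℝ × E => rotV p q y.1 y.2) (0, x) :=
        continuous_rotV.continuousAt
      have c1' : ContinuousAt (rot2 u p q) ((fun y : ℝ × E => rotV p q y.1 y.2) (0, x)) := by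
        simpa only [rotV_zero] using c1
      have c3 : ContinuousAt (fun y : ℝ × E => rot2 u p q (rotV p q y.1 y.2)) (0, x) :=
        ContinuousAt.comp (g := rot2 u p q) (f := fun y : ℝ × E => rotV p q y.1 y.2) c1' c2
      have c4 : ContinuousAt (fun y : ℝ × E => rot2 u p q y.2) (0, x) :=
        ContinuousAt.comp (x := ((0:ℝ), x)) (g := rot2 u p q) (f := fun y : ℝ × E => y.2) c1
          continuousAt_snd
      have c5 : ContinuousAt (fun y : ℝ × E =>
          |rot2 u p q (rotV p q y.1 y.2) - rot2 u p q y.2|) (0, x) := (c3.sub c4).abs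
      exact c5.eventually_lt_const (by simp only [rotV_zero, sub_self, abs_zero]; exact hω))
  rw [Metric.eventually_nhds_iff] at h1
  obtain ⟨ε0, hε0, h2⟩ := h1
  refine ⟨ε0 / 2, by positivity, fun ε hε hε2 x hx => ?_⟩
  have hx0 := shell_ne hx
  have h3 := second_diff (g := fun φ => u (rotV p q φ x))
    (g1 := fun φ => fderiv ℝ u (rotV p q φ x) (genV p q (rotV p q φ x)))
    (g2 := fun φ => rot2 u p q (rotV p q φ x)) (G := rot2 u p q x) (ω := ω) hε
    (fun s _ => (hasDerivAt_rot hu hp hq hpq hx0 s).1)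
    (fun s _ => (hasDerivAt_rot hu hp hq hpq hx0 s).2)
    (fun s hs => (h2 (by
      rw [Real.dist_eq, sub_zero, abs_lt]
      constructor <;> linarith only [hε, hε2, hs.1, hs.2]) x hx).le)
  simpa only [rotV_zero] using h3

end sph

/-! ### the sphere and the discrete spherical Laplacian -/

theorem sum_rot2 {F : Type*} [NormedAddCommGroup F] [InnerProductSpace ℝ F]
    [FiniteDimensional ℝ F] {ι : Type*} [Fintype ι] [DecidableEq ι] (u : F → ℝ)
    (b : OrthonormalBasis ι ℝ F) (x : F) :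
    ∑ k : {z : ι × ι // z.1 ≠ z.2}, rot2 u (b k.1.1) (b k.1.2) x = 2 * sph u x := by
  rw [← sum_rot2_eq u b x]
  exact (Finset.sum_subtype (Finset.univ : Finset ι).offDiag (fun z => by simp only [Finset.mem_offDiag, Finset.mem_univ, ne_eq, true_and])
    (fun z : ι × ι => rot2 u (b z.1) (b z.2) x)).symm

section sphere

variable {n : ℕ}

/-- ordered pairs of distinct indices -/
abbrev Kp (n : ℕ) := {z : Fin n × Fin n // z.1 ≠ z.2}

/-- the reversed pair -/
def swapK : Kp n ≃ Kp n where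
  toFun k := ⟨k.1.swap, fun h => k.2 h.symm⟩
  invFun k := ⟨k.1.swap, fun h => k.2 h.symm⟩
  left_inv k := rfl
  right_inv k := rfl

/-- standard basis vectors -/
def ev (n : ℕ) : OrthonormalBasis (Fin n) ℝ (E n) := EuclideanSpace.basisFun (Fin n) ℝ

theorem ev_norm (i : Fin n) : ‖ev n i‖ = 1 := OrthonormalBasis.norm_eq_one _ _

theorem ev_inner (k : Kp n) : inner ℝ (ev n k.1.1) (ev n k.1.2) = (0:ℝ) :=
  OrthonormalBasis.inner_eq_zero _ k.2

/-- the rotation of the coordinate plane `k = (i, j)` -/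
def rotK (ε : ℝ) (k : Kp n) : E n ≃ₗᵢ[ℝ] E n :=
  rotE (ev_norm k.1.1) (ev_norm k.1.2) (ev_inner k) ε

theorem rotK_apply (ε : ℝ) (k : Kp n) (x : E n) :
    rotK ε k x = rotV (ev n k.1.1) (ev n k.1.2) ε x := rfl

theorem rotV_swap {F : Type*} [NormedAddCommGroup F] [InnerProductSpace ℝ F] (p q : F) (ε : ℝ)
    (x : F) : rotV q p ε x = rotV p q (-ε) x := by
  unfold rotV
  rw [Real.cos_neg, Real.sin_neg]
  module

theorem rotK_swap (ε : ℝ) (k : Kp n) (x : E n) : rotK ε (swapK k) x = rotK (-ε) k x :=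
  rotV_swap (ev n k.1.1) (ev n k.1.2) ε x

theorem rotK_swap_self (ε : ℝ) (k : Kp n) (x : E n) : rotK ε (swapK k) (rotK ε k x) = x := by
  rw [rotK_swap, rotK_apply, rotK_apply, rotV_add (ev_norm _) (ev_norm _) (ev_inner k),
    neg_add_cancel, rotV_zero]

/-- the action of a linear isometry on the sphere -/
def actS (R : E n ≃ₗᵢ[ℝ] E n) : Sph n ≃ₜ Sph n where
  toFun θ := ⟨R θ, by simp⟩
  invFun θ := ⟨R.symm θ, by simp⟩
  left_inv θ := by ext1; simp
  right_inv θ := by ext1; simp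
  continuous_toFun := by fun_prop
  continuous_invFun := by fun_prop

theorem actS_coe (R : E n ≃ₗᵢ[ℝ] E n) (θ : Sph n) : ((actS R θ : Sph n) : E n) = R θ := rfl

theorem measurePreserving_actS (R : E n ≃ₗᵢ[ℝ] E n) :
    MeasurePreserving (actS R) (sg n) (sg n) := by
  refine ⟨(actS R).continuous.measurable, ?_⟩
  ext s hs
  rw [Measure.map_apply (actS R).continuous.measurable hs]
  unfold sg
  rw [Measure.toSphere_apply' _ hs, Measure.toSphere_apply' _
    ((actS R).continuous.measurable hs)]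
  congr 1
  have hR : MeasurePreserving R.toMeasurableEquiv volume volume := R.measurePreserving
  have hm := hR.measure_preimage_equiv (Ioo (0 : ℝ) 1 • ((Subtype.val : Sph n → _) '' s))
  rw [← hm]
  congr 1
  ext y
  simp only [mem_preimage]
  constructor
  · rintro ⟨r, hr, _, ⟨θ, hθ, rfl⟩, rfl⟩
    refine ⟨r, hr, _, ⟨actS R θ, hθ, rfl⟩, ?_⟩
    simp [actS_coe]
  · rintro ⟨r, hr, _, ⟨θ, hθ, rfl⟩, h⟩
    refine ⟨r, hr, _, ⟨(actS R).symm θ, by simpa using hθ, rfl⟩, ?_⟩
    apply R.injective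
    have h2 : R (((actS R).symm θ : Sph n) : E n) = θ := by
      rw [← actS_coe, Homeomorph.apply_symm_apply]
    simp only [map_smul, h2]
    exact h

/-- the jumps of the discrete Laplacian on the sphere -/
def act (ε : ℝ) (k : Kp n) (θ : Sph n) : Sph n := actS (rotK ε k) θ

theorem act_coe (ε : ℝ) (k : Kp n) (θ : Sph n) : ((act ε k θ : Sph n) : E n) = rotK ε k θ := rfl

theorem act_zero (k : Kp n) (θ : Sph n) : act 0 k θ = θ := by
  ext1
  rw [act_coe, rotK_apply, rotV_zero]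

theorem hasDerivAt_act (k : Kp n) (θ : Sph n) (t : ℝ) :
    HasDerivAt (fun t => ((act t k θ : Sph n) : E n))
      (genV (ev n k.1.1) (ev n k.1.2) ((act t k θ : Sph n) : E n)) t :=
  hasDerivAt_rotV' (ev_norm k.1.1) (ev_norm k.1.2) (ev_inner k) (θ : E n) t

theorem norm_gen_act_le (k : Kp n) (θ : Sph n) (t : ℝ) :
    ‖genV (ev n k.1.1) (ev n k.1.2) ((act t k θ : Sph n) : E n)‖ ≤ 1 := by
  refine (norm_genV_le (ev_norm k.1.1) (ev_norm k.1.2) (ev_inner k) _).trans ?_
  rw [norm_eq_of_mem_sphere]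

theorem continuous_act (ε : ℝ) (k : Kp n) : Continuous (act ε k) := (actS (rotK ε k)).continuous

theorem mp_act (ε : ℝ) (k : Kp n) : MeasurePreserving (act ε k) (sg n) (sg n) :=
  measurePreserving_actS _

theorem act_swap (ε : ℝ) (k : Kp n) (θ : Sph n) : act ε (swapK k) (act ε k θ) = θ := by
  ext1
  rw [act_coe, act_coe, rotK_swap_self]

theorem integral_act (ε : ℝ) (k : Kp n) (F : Sph n → ℝ) :
    ∫ θ, F (act ε k θ) ∂(sg n) = ∫ θ, F θ ∂(sg n) :=
  (mp_act ε k).integral_comp (actS (rotK ε k)).measurableEmbedding F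

theorem integrable_of_cont {F : Sph n → ℝ} (hF : Continuous F) : Integrable F (sg n) := by
  have h1 : IntegrableOn F univ (sg n) := hF.continuousOn.integrableOn_compact isCompact_univ
  rwa [integrableOn_univ] at h1

theorem integral_act_mul (ε : ℝ) (k : Kp n) (F G : Sph n → ℝ) :
    ∫ θ, F (act ε k θ) * G θ ∂(sg n) = ∫ θ, F θ * G (act ε (swapK k) θ) ∂(sg n) := by
  rw [← integral_act ε k (fun θ => F θ * G (act ε (swapK k) θ))]
  simp only [act_swap]

/-- symmetry of the discrete Laplacian -/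
theorem integral_Lop_symm (c ε : ℝ) {F G : Sph n → ℝ} (hF : Continuous F) (hG : Continuous G) :
    ∫ θ, Lop c (act ε) F θ * G θ ∂(sg n) = ∫ θ, F θ * Lop c (act ε) G θ ∂(sg n) := by
  have i1 : ∀ k : Kp n, Integrable (fun θ => F (act ε k θ) * G θ) (sg n) := fun k =>
    integrable_of_cont ((hF.comp (continuous_act ε k)).mul hG)
  have i2 : ∀ k : Kp n, Integrable (fun θ => F θ * G (act ε k θ)) (sg n) := fun k =>
    integrable_of_cont (hF.mul (hG.comp (continuous_act ε k)))
  have i3 : Integrable (fun θ => F θ * G θ) (sg n) := integrable_of_cont (hF.mul hG)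
  have e1 : ∀ θ, Lop c (act ε) F θ * G θ =
      c * ∑ k : Kp n, (F (act ε k θ) * G θ - F θ * G θ) := by
    intro θ
    unfold Lop
    rw [mul_assoc, Finset.sum_mul]
    simp only [sub_mul]
  have e2 : ∀ θ, F θ * Lop c (act ε) G θ =
      c * ∑ k : Kp n, (F θ * G (act ε k θ) - F θ * G θ) := by
    intro θ
    unfold Lop
    rw [mul_left_comm, Finset.mul_sum]
    simp only [mul_sub]
  simp only [e1, e2]
  have i1' : ∀ k : Kp n, Integrable (fun θ => F (act ε k θ) * G θ - F θ * G θ) (sg n) :=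
    fun k => (i1 k).sub i3
  have i2' : ∀ k : Kp n, Integrable (fun θ => F θ * G (act ε k θ) - F θ * G θ) (sg n) :=
    fun k => (i2 k).sub i3
  rw [integral_const_mul, integral_const_mul, integral_finset_sum _ fun k _ => i1' k,
    integral_finset_sum _ fun k _ => i2' k]
  congr 1
  rw [← Equiv.sum_comp swapK (fun k : Kp n => ∫ θ, (F θ * G (act ε k θ) - F θ * G θ) ∂(sg n))]
  refine Finset.sum_congr rfl fun k _ => ?_
  rw [integral_sub (i1 k) i3, integral_sub (i2 _) i3, integral_act_mul]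

theorem expsmul_mem_shell {L s : ℝ} (hs : |s| ≤ L) (θ : Sph n) :
    Real.exp s • (θ : E n) ∈ shell (E n) L := by
  unfold shell
  rw [mem_setOf_eq, norm_expsmul]
  exact ⟨Real.exp_le_exp.2 (abs_le.1 hs).1, Real.exp_le_exp.2 (abs_le.1 hs).2⟩

/-- **uniform convergence of the discrete spherical Laplacian** -/
theorem Lop_conv {u : E n → ℝ} (hu : ContDiffOn ℝ 2 u {0}ᶜ) (L : ℝ) {ω : ℝ} (hω : 0 < ω) :
    ∃ ε0 > 0, ∀ ε, 0 < ε → ε ≤ ε0 → ∀ s, |s| ≤ L → ∀ θ : Sph n,
      |Lop (ε ^ 2)⁻¹ (act ε) (fun θ => u (Real.exp s • (θ : E n))) θ -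
        sph u (Real.exp s • (θ : E n))| ≤ ω := by
  obtain ⟨M, hM⟩ : ∃ M : ℝ, M = Fintype.card (Kp n) + 1 := ⟨_, rfl⟩
  have hM0 : 0 < M := by rw [hM]; positivity
  have hω2 : 0 < ω / M := by positivity
  choose e0 he0 h1 using fun k : Kp n =>
    rot_second hu (ev_norm k.1.1) (ev_norm k.1.2) (ev_inner k) L hω2
  obtain ⟨ε0, hε0, h2⟩ : ∃ ε0 > 0, ∀ k, ε0 ≤ e0 k := by
    rcases isEmpty_or_nonempty (Kp n) with h | h
    · exact ⟨1, one_pos, fun k => (h.false k).elim⟩
    · refine ⟨Finset.univ.inf' Finset.univ_nonempty e0, ?_, fun k =>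
        Finset.inf'_le _ (Finset.mem_univ k)⟩
      rw [gt_iff_lt, Finset.lt_inf'_iff]
      exact fun k _ => he0 k
  refine ⟨ε0, hε0, fun ε hε hε2 s hs θ => ?_⟩
  set x : E n := Real.exp s • (θ : E n) with hx
  have hxs : x ∈ shell (E n) L := expsmul_mem_shell hs θ
  have h3 : ∀ k : Kp n, |(u (rotK ε k x) - 2 * u x + u (rotK (-ε) k x)) / ε ^ 2 -
      rot2 u (ev n k.1.1) (ev n k.1.2) x| ≤ ω / M := fun k =>
    h1 k ε hε (hε2.trans (h2 k)) x hxs
  have e1 : ∀ k : Kp n, Real.exp s • ((act ε k θ : Sph n) : E n) = rotK ε k x := by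
    intro k
    rw [act_coe, hx, map_smul]
  have e2 : 2 * Lop (ε ^ 2)⁻¹ (act ε) (fun θ => u (Real.exp s • (θ : E n))) θ =
      ∑ k : Kp n, (u (rotK ε k x) - 2 * u x + u (rotK (-ε) k x)) / ε ^ 2 := by
    unfold Lop
    simp only [e1, ← hx]
    have e3 : ∑ k : Kp n, u (rotK (-ε) k x) = ∑ k : Kp n, u (rotK ε k x) := by
      rw [← Equiv.sum_comp swapK (fun k : Kp n => u (rotK ε k x))]
      simp only [rotK_swap]
    rw [← Finset.sum_div, Finset.sum_add_distrib, Finset.sum_sub_distrib, e3,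
      Finset.sum_sub_distrib, ← Finset.mul_sum]
    field_simp
    ring
  have e4 := sum_rot2 u (ev n) x
  have e5 : |2 * Lop (ε ^ 2)⁻¹ (act ε) (fun θ => u (Real.exp s • (θ : E n))) θ - 2 * sph u x| ≤
      (Fintype.card (Kp n) : ℝ) * (ω / M) := by
    rw [e2, ← e4, ← Finset.sum_sub_distrib]
    refine (Finset.abs_sum_le_sum_abs _ _).trans ?_
    refine (Finset.sum_le_sum fun k _ => h3 k).trans ?_
    rw [Finset.sum_const, Finset.card_univ, nsmul_eq_mul]
  have e6 : (Fintype.card (Kp n) : ℝ) * (ω / M) ≤ ω := by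
    rw [← mul_div_assoc, div_le_iff₀ hM0, hM]
    nlinarith only [hω]
  rw [← mul_sub, abs_mul, abs_two] at e5
  linarith only [hω, e5, e6]

end sphere

end

end Vale.Agent.P100.RM
end
end

section

section

/-! # P100-RM: module LINE -/

open MeasureTheory Set Metric
open scoped ENNReal Pointwise

namespace Vale.Agent.P100.RM

variable {n : ℕ}

/-- `a b^p ≤ a^{p+1} + b^{p+1}`. -/
theorem mul_rpow_le_add {a b p : ℝ} (ha : 0 ≤ a) (hb : 0 ≤ b) (hp : 0 < p) :
    a * b ^ p ≤ a ^ (p + 1) + b ^ (p + 1) := by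
  have h1 : (0:ℝ) ≤ a ^ (p + 1) := by positivity
  have h2 : (0:ℝ) ≤ b ^ (p + 1) := by positivity
  rcases le_total a b with h | h
  · have : a * b ^ p ≤ b * b ^ p := by (clear * - h hb; gcongr)
    rcases hb.eq_or_lt with hb0 | hb0
    · rw [← hb0] at this ⊢
      have h3 : a = 0 := le_antisymm (by rw [hb0]; exact h) ha
      rw [h3]
      simp [Real.zero_rpow hp.ne', Real.zero_rpow (by positivity : p + 1 ≠ 0)]
    · rw [Real.rpow_add hb0, Real.rpow_one]
      linarith only [h1, this]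
  · rcases ha.eq_or_lt with ha0 | ha0
    · rw [← ha0, zero_mul]
      (clear * - hb; positivity)
    · have : a * b ^ p ≤ a * a ^ p := by gcongr
      rw [Real.rpow_add ha0, Real.rpow_one]
      linarith only [h2, this]

/-- `∫_{|r| ≤ 1} |r|^{-1/2} = 4`. -/
theorem lintegral_sqrt_kernel :
    ∫⁻ r in Icc (-1 : ℝ) 1, ENNReal.ofReal (|r| ^ (-(1/2) : ℝ)) ≤ ENNReal.ofReal 4 := by
  have h1 : ∫⁻ r in Ioc (0 : ℝ) 1, ENNReal.ofReal (|r| ^ (-(1/2) : ℝ)) = ENNReal.ofReal 2 := by
    have e1 : ∫⁻ r in Ioc (0 : ℝ) 1, ENNReal.ofReal (|r| ^ (-(1/2) : ℝ)) =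
        ∫⁻ r in Ioc (0 : ℝ) 1, ENNReal.ofReal (r ^ (-(1/2) : ℝ)) := by
      refine setLIntegral_congr_fun measurableSet_Ioc fun r hr => ?_
      rw [abs_of_pos hr.1]
    rw [e1, ← ofReal_integral_eq_lintegral_ofReal]
    · rw [← intervalIntegral.integral_of_le zero_le_one, integral_rpow (Or.inl (by norm_num))]
      norm_num
    · have := intervalIntegral.intervalIntegrable_rpow' (a := 0) (b := 1)
        (by norm_num : (-1:ℝ) < -(1/2))
      exact this.1
    · filter_upwards [ae_restrict_mem measurableSet_Ioc] with r hr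
      exact Real.rpow_nonneg hr.1.le _
  have h2 : ∫⁻ r in Ico (-1 : ℝ) 0, ENNReal.ofReal (|r| ^ (-(1/2) : ℝ)) = ENNReal.ofReal 2 := by
    rw [← h1]
    have hmp := Measure.measurePreserving_neg (volume : Measure ℝ)
    have := hmp.setLIntegral_comp_preimage (s := Ioc (0:ℝ) 1) measurableSet_Ioc
      (f := fun r => ENNReal.ofReal (|r| ^ (-(1/2) : ℝ))) (by fun_prop)
    rw [← this]
    have hset : (Neg.neg ⁻¹' Ioc (0:ℝ) 1) = Ico (-1 : ℝ) 0 := by
      ext x
      simp only [mem_preimage, mem_Ioc, mem_Ico]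
      constructor
      · rintro ⟨h1, h2⟩; constructor <;> linarith
      · rintro ⟨h1, h2⟩; constructor <;> linarith
    rw [hset]
    refine setLIntegral_congr_fun measurableSet_Ico fun r hr => ?_
    simp
  have h3 : Icc (-1 : ℝ) 1 ⊆ Ico (-1 : ℝ) 0 ∪ ({0} ∪ Ioc (0 : ℝ) 1) := by
    intro x hx
    rcases lt_trichotomy x 0 with h | h | h
    · exact Or.inl ⟨hx.1, h⟩
    · exact Or.inr (Or.inl h)
    · exact Or.inr (Or.inr ⟨h, hx.2⟩)
  calc ∫⁻ r in Icc (-1 : ℝ) 1, ENNReal.ofReal (|r| ^ (-(1/2) : ℝ))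
      ≤ ∫⁻ r in Ico (-1 : ℝ) 0 ∪ ({0} ∪ Ioc (0 : ℝ) 1), ENNReal.ofReal (|r| ^ (-(1/2) : ℝ)) :=
        lintegral_mono_set h3
    _ ≤ (∫⁻ r in Ico (-1 : ℝ) 0, ENNReal.ofReal (|r| ^ (-(1/2) : ℝ))) +
        (∫⁻ r in {0} ∪ Ioc (0 : ℝ) 1, ENNReal.ofReal (|r| ^ (-(1/2) : ℝ))) :=
        lintegral_union_le _ _ _
    _ ≤ (∫⁻ r in Ico (-1 : ℝ) 0, ENNReal.ofReal (|r| ^ (-(1/2) : ℝ))) +
        ((∫⁻ r in {0}, ENNReal.ofReal (|r| ^ (-(1/2) : ℝ))) +
        (∫⁻ r in Ioc (0 : ℝ) 1, ENNReal.ofReal (|r| ^ (-(1/2) : ℝ)))) :=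
        add_le_add le_rfl (lintegral_union_le _ _ _)
    _ = ENNReal.ofReal 4 := by
        rw [h1, h2, setLIntegral_measure_zero _ _ (by simp), zero_add,
          ← ENNReal.ofReal_add (by norm_num) (by norm_num)]
        norm_num

/-- Translated version. -/
theorem lintegral_sqrt_kernel' {t T : ℝ} (ht : |t| ≤ T) (hT : T ≤ 1 / 3) :
    ∫⁻ r in Icc (-(2 * T)) (2 * T), ENNReal.ofReal (|t - r| ^ (-(1/2) : ℝ)) ≤
      ENNReal.ofReal 4 := by
  have h := abs_le.1 ht
  calc ∫⁻ r in Icc (-(2 * T)) (2 * T), ENNReal.ofReal (|t - r| ^ (-(1/2) : ℝ))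
      = ∫⁻ r, (Icc (-(2 * T)) (2 * T)).indicator
          (fun r => ENNReal.ofReal (|t - r| ^ (-(1/2) : ℝ))) r := by
        rw [lintegral_indicator measurableSet_Icc]
    _ ≤ ∫⁻ r, (fun r => (Icc (-1 : ℝ) 1).indicator
          (fun r => ENNReal.ofReal (|r| ^ (-(1/2) : ℝ))) r) (t - r) := by
        refine lintegral_mono fun r => ?_
        by_cases hr : r ∈ Icc (-(2 * T)) (2 * T)
        · have hr' : t - r ∈ Icc (-1 : ℝ) 1 := by
            constructor <;> linarith only [hT, h, hr.1, hr.2]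
          rw [indicator_of_mem hr]
          simp only
          rw [indicator_of_mem hr']
        · rw [indicator_of_notMem hr]
          exact zero_le
    _ = ∫⁻ r in Icc (-1 : ℝ) 1, ENNReal.ofReal (|r| ^ (-(1/2) : ℝ)) := by
        rw [lintegral_sub_left_eq_self (μ := (volume : Measure ℝ))
          (fun r => (Icc (-1 : ℝ) 1).indicator
          (fun r => ENNReal.ofReal (|r| ^ (-(1/2) : ℝ))) r) t, lintegral_indicator measurableSet_Icc]
    _ ≤ _ := lintegral_sqrt_kernel

/-- Geometry of logarithmic polar coordinates. -/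
theorem geo {θ ω : Sph n} {t r T h : ℝ} (ht : |t| ≤ T) (hT : T ≤ 1 / 8)
    (h2 : 2 * h ≤ T)
    (hd : ‖Real.exp t • (θ : E n) - Real.exp r • (ω : E n)‖ < h) :
    |t - r| / 2 ≤ ‖Real.exp t • (θ : E n) - Real.exp r • (ω : E n)‖ ∧
    ‖(θ : E n) - ω‖ / 2 ≤ ‖Real.exp t • (θ : E n) - Real.exp r • (ω : E n)‖ := by
  have hN := norm_exp_sub_sq θ ω r t
  set N := ‖Real.exp t • (θ : E n) - Real.exp r • (ω : E n)‖ with hNdef
  set δ := ‖(θ : E n) - ω‖ with hδ
  have hN0 : 0 ≤ N := norm_nonneg _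
  have hδ0 : 0 ≤ δ := norm_nonneg _
  have ht' := abs_le.1 ht
  have het : 7 / 8 ≤ Real.exp t := by
    have := Real.add_one_le_exp t
    linarith only [hT, ht', this]
  have her0 := Real.exp_pos r
  have h3 : |Real.exp t - Real.exp r| ≤ N := by
    refine abs_le_of_sq_le_sq ?_ hN0 |> fun h => h
    rw [hN]
    have : 0 ≤ Real.exp t * Real.exp r * δ ^ 2 := by (clear * -; positivity)
    linarith only [this]
  have h3' := abs_le.1 h3
  have her : 13 / 16 ≤ Real.exp r := by linarith only [hT, h2, hd, het, h3']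
  constructor
  · rcases le_total t r with htr | htr
    · have e1 : Real.exp r = Real.exp t * Real.exp (r - t) := by
        rw [← Real.exp_add]; ring_nf
      have e2 := Real.add_one_le_exp (r - t)
      have e3 : Real.exp t * (r - t) ≤ Real.exp r - Real.exp t := by
        rw [e1]; nlinarith only [e2, het]
      rw [abs_of_nonpos (by linarith only [htr])]
      nlinarith only [h3', e3, hN0, het]
    · have e1 : Real.exp t = Real.exp r * Real.exp (t - r) := by
        rw [← Real.exp_add]; ring_nf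
      have e2 := Real.add_one_le_exp (t - r)
      have e3 : Real.exp r * (t - r) ≤ Real.exp t - Real.exp r := by
        have : Real.exp r * (t - r + 1) ≤ Real.exp r * Real.exp (t - r) := by (clear * - e2; gcongr)
        linarith only [e1, this]
      rw [abs_of_nonneg (by linarith only [htr])]
      nlinarith only [h3', e3, hT, h2, hd, het, her0]
  · have e1 : (δ / 2) ^ 2 ≤ N ^ 2 := by
      rw [hN]
      have : (1 : ℝ) / 4 ≤ Real.exp t * Real.exp r := by (clear * - hT h2 hd het h3' hN0 her0; nlinarith)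
      nlinarith only [this]
    exact le_of_sq_le_sq e1 hN0 |> fun h => h

/-- The kernel bound. -/
theorem ker_bound (hn : 2 ≤ n) {ε N δ a : ℝ} (hε : 0 < ε) (hε1 : ε < 1) (hδ : 0 < δ) (ha : 0 < a)
    (h1 : a / 2 ≤ N) (h2 : δ / 2 ≤ N) :
    N ^ (-((n : ℝ) - 1)) ≤ 2 ^ (n - 1) * δ ^ (1 - (n : ℝ) + ε) * a ^ (-ε) := by
  have hn' : (2 : ℝ) ≤ n := by exact_mod_cast hn
  have hN : 0 < N := by linarith only [ha, h1]
  have e1 : N ^ (-((n : ℝ) - 1)) = N ^ (1 - (n : ℝ) + ε) * N ^ (-ε) := by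
    rw [← Real.rpow_add hN]; congr 1; ring
  have e2 : N ^ (1 - (n : ℝ) + ε) ≤ (δ / 2) ^ (1 - (n : ℝ) + ε) :=
    Real.rpow_le_rpow_of_nonpos (by positivity) h2 (by linarith only [hε1, hn'])
  have e3 : N ^ (-ε) ≤ (a / 2) ^ (-ε) :=
    Real.rpow_le_rpow_of_nonpos (by positivity) h1 (by linarith only [hε])
  have e4 : (δ / 2) ^ (1 - (n : ℝ) + ε) * (a / 2) ^ (-ε) =
      2 ^ (n - 1) * δ ^ (1 - (n : ℝ) + ε) * a ^ (-ε) := by
    rw [Real.div_rpow hδ.le (by norm_num), Real.div_rpow ha.le (by norm_num)]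
    have e5 : (2 : ℝ) ^ (1 - (n : ℝ) + ε) * 2 ^ (-ε) * 2 ^ (n - 1) = 1 := by
      rw [← Real.rpow_natCast 2 (n - 1), ← Real.rpow_add (by norm_num),
        ← Real.rpow_add (by norm_num), Nat.cast_sub (by omega)]
      rw [show (1 - (n : ℝ) + ε + -ε + ((n : ℝ) - (1 : ℕ))) = 0 by push_cast; ring, Real.rpow_zero]
    have e6 : (2 : ℝ) ^ (1 - (n : ℝ) + ε) ≠ 0 := by positivity
    have e7 : (2 : ℝ) ^ (-ε) ≠ 0 := by positivity
    rw [div_mul_div_comm, div_eq_iff (by positivity)]
    linear_combination (-(δ ^ (1 - (n : ℝ) + ε) * a ^ (-ε))) * e5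
  calc N ^ (-((n : ℝ) - 1)) = N ^ (1 - (n : ℝ) + ε) * N ^ (-ε) := e1
    _ ≤ (δ / 2) ^ (1 - (n : ℝ) + ε) * (a / 2) ^ (-ε) := by (clear * - e2 e3 hN hδ; gcongr)
    _ = _ := e4

/-- The potential bound. -/
theorem pot_bound (hn : 2 ≤ n) {p ε : ℝ} (hp : 0 < p) (hε : ε = 1 / (2 * (p + 1)))
    {g : E n → ℝ} (hgm : Measurable g) (hg0 : ∀ y, 0 ≤ g y)
    {Y : ℝ → Sph n → ℝ} (hY0 : ∀ r ω, 0 ≤ Y r ω)
    (hYm : Measurable (fun x : ℝ × Sph n => Y x.1 x.2))
    {Cg T h a t : ℝ} (hCg : 0 ≤ Cg) (hT : T ≤ 1 / 8) (hh : 0 < h) (h2 : 2 * h ≤ T) (ht : |t| ≤ T)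
    (hg : ∀ r, |r| ≤ 2 * T → ∀ ω : Sph n, g (Real.exp r • (ω : E n)) ≤ Cg * (Y r ω) ^ p)
    (ha : 0 ≤ a) (θ : Sph n) :
    ENNReal.ofReal a * ∫⁻ y in ball (Real.exp t • (θ : E n)) h,
      ENNReal.ofReal (‖Real.exp t • (θ : E n) - y‖ ^ (-((n : ℝ) - 1)) * g y) ≤
    ENNReal.ofReal (Real.exp n * 2 ^ (n - 1) * Cg) * ∫⁻ ω, ENNReal.ofReal (kap n ε (2 * h) θ ω) *
      (ENNReal.ofReal (4 * a ^ (p + 1)) +
        ∫⁻ r in Icc (-(2 * T)) (2 * T), ENNReal.ofReal ((Y r ω) ^ (p + 1))) ∂(sg n) := by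
  have hn' : (2 : ℝ) ≤ n := by exact_mod_cast hn
  have hε0 : 0 < ε := by rw [hε]; positivity
  have hε1 : ε < 1 := by
    rw [hε, div_lt_one (by positivity)]; linarith only [hp]
  set x : E n := Real.exp t • (θ : E n) with hx
  set F : E n → ℝ≥0∞ := fun y => (ball x h).indicator
    (fun y => ENNReal.ofReal (‖x - y‖ ^ (-((n : ℝ) - 1)) * g y)) y with hF
  have hFm : Measurable F := by
    refine Measurable.indicator ?_ measurableSet_ball
    fun_prop
  have hstep : ∀ ω : Sph n, ω ≠ θ → ∀ r : ℝ, r ≠ t →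
      ENNReal.ofReal a * (ENNReal.ofReal (Real.exp (n * r)) * F (Real.exp r • (ω : E n))) ≤
      ENNReal.ofReal (Real.exp n * 2 ^ (n - 1) * Cg) * (ENNReal.ofReal (kap n ε (2 * h) θ ω) *
        (Icc (-(2 * T)) (2 * T)).indicator (fun r =>
          ENNReal.ofReal (a ^ (p + 1)) * ENNReal.ofReal (|t - r| ^ (-(1/2) : ℝ)) +
          ENNReal.ofReal ((Y r ω) ^ (p + 1))) r) := by
    intro ω hω r hr
    by_cases hmem : Real.exp r • (ω : E n) ∈ ball x h
    swap
    · rw [hF]
      simp only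
      rw [indicator_of_notMem hmem]
      simp only [mul_zero, one_div, zero_le]
    have hd : ‖Real.exp t • (θ : E n) - Real.exp r • (ω : E n)‖ < h := by
      rw [← dist_eq_norm, dist_comm]; exact hmem
    obtain ⟨hg1, hg2⟩ := geo ht hT h2 hd
    have hδ : 0 < ‖(θ : E n) - ω‖ := by
      rw [norm_pos_iff, sub_ne_zero]
      intro h; exact hω (Subtype.ext h.symm)
    have htr : 0 < |t - r| := by
      rw [abs_pos, sub_ne_zero]; exact hr.symm
    have hk := ker_bound hn hε0 hε1 hδ htr hg1 hg2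
    have hr2 : |r| ≤ 2 * T := by
      have e1 : |r| ≤ |t| + |t - r| := by
        have := abs_sub_abs_le_abs_sub r t
        rw [abs_sub_comm] at this
        linarith only [this]
      linarith only [h2, ht, hd, hg1, e1]
    have hrI : r ∈ Icc (-(2 * T)) (2 * T) := by
      have := abs_le.1 hr2
      exact ⟨this.1, this.2⟩
    have hkap : kap n ε (2 * h) θ ω = ‖(θ : E n) - ω‖ ^ (1 - (n : ℝ) + ε) := by
      unfold kap
      rw [if_pos (by linarith only [hd, hg2])]
    rw [indicator_of_mem hrI, hF]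
    simp only
    rw [indicator_of_mem hmem, hkap]
    have hY := hY0 r ω
    have hR : ENNReal.ofReal (Real.exp n * 2 ^ (n - 1) * Cg) *
        (ENNReal.ofReal (‖(θ : E n) - ω‖ ^ (1 - (n : ℝ) + ε)) *
          (ENNReal.ofReal (a ^ (p + 1)) * ENNReal.ofReal (|t - r| ^ (-(1/2) : ℝ)) +
          ENNReal.ofReal ((Y r ω) ^ (p + 1)))) =
        ENNReal.ofReal ((Real.exp n * 2 ^ (n - 1) * Cg) * (‖(θ : E n) - ω‖ ^ (1 - (n : ℝ) + ε) *
          (a ^ (p + 1) * |t - r| ^ (-(1/2) : ℝ) + (Y r ω) ^ (p + 1)))) := by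
      rw [← ENNReal.ofReal_mul (by (clear * - ha; positivity) : 0 ≤ a ^ (p + 1)),
        ← ENNReal.ofReal_add (by (clear * - ha hr; positivity)) (by (clear * - hY; positivity)),
        ← ENNReal.ofReal_mul (by (clear * - hδ; positivity)), ← ENNReal.ofReal_mul (by (clear * - hCg; positivity))]
    rw [hR, ← ENNReal.ofReal_mul (Real.exp_pos _).le, ← ENNReal.ofReal_mul ha]
    refine ENNReal.ofReal_le_ofReal ?_
    have e2 : Real.exp (n * r) ≤ Real.exp n := by
      refine Real.exp_le_exp.2 ?_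
      have := (abs_le.1 hr2).2
      nlinarith only [hT, this]
    have e3 : a * |t - r| ^ (-ε) * (Y r ω) ^ p ≤
        a ^ (p + 1) * |t - r| ^ (-(1/2) : ℝ) + (Y r ω) ^ (p + 1) := by
      have e4 := mul_rpow_le_add (a := a * |t - r| ^ (-ε)) (b := Y r ω) (by (clear * - ha hr; positivity)) hY hp
      rw [Real.mul_rpow ha (by (clear * - hr; positivity)), ← Real.rpow_mul (abs_nonneg _)] at e4
      have e5 : -ε * (p + 1) = -(1/2) := by
        rw [hε]; (clear * - hp; field_simp)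
      rw [e5] at e4
      exact e4
    have e6 := hg r hr2 ω
    have e7 : 0 ≤ ‖x - Real.exp r • (ω : E n)‖ ^ (-((n : ℝ) - 1)) := by (clear * -; positivity)
    calc a * (Real.exp (n * r) * (‖x - Real.exp r • (ω : E n)‖ ^ (-((n : ℝ) - 1)) *
          g (Real.exp r • (ω : E n))))
        ≤ a * (Real.exp n * ((2 ^ (n - 1) * ‖(θ : E n) - ω‖ ^ (1 - (n : ℝ) + ε) *
            |t - r| ^ (-ε)) * (Cg * (Y r ω) ^ p))) := by
          have e8 : ‖x - Real.exp r • (ω : E n)‖ ^ (-((n : ℝ) - 1)) *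
              g (Real.exp r • (ω : E n)) ≤ (2 ^ (n - 1) * ‖(θ : E n) - ω‖ ^ (1 - (n : ℝ) + ε) *
            |t - r| ^ (-ε)) * (Cg * (Y r ω) ^ p) :=
            mul_le_mul hk e6 (hg0 _) (by (clear * - hδ hr; positivity))
          have e9 : 0 ≤ ‖x - Real.exp r • (ω : E n)‖ ^ (-((n : ℝ) - 1)) *
              g (Real.exp r • (ω : E n)) := mul_nonneg e7 (hg0 _)
          exact mul_le_mul_of_nonneg_left (mul_le_mul e2 e8 e9 (Real.exp_pos _).le) ha
      _ = (Real.exp n * 2 ^ (n - 1) * Cg) * (‖(θ : E n) - ω‖ ^ (1 - (n : ℝ) + ε) *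
            (a * |t - r| ^ (-ε) * (Y r ω) ^ p)) := by ring
      _ ≤ _ := by (clear * - e3 hδ hCg; gcongr)
  have hae : ∀ᵐ ω ∂(sg n), ω ≠ θ := by
    have h0 := toSphere_singleton hn θ
    rw [← compl_mem_ae_iff] at h0
    filter_upwards [h0] with ω hω h
    exact hω (by rw [h]; rfl)
  have haer : ∀ᵐ r : ℝ, r ≠ t := by
    have h0 : (volume : Measure ℝ) {t} = 0 := by simp
    rw [← compl_mem_ae_iff] at h0
    filter_upwards [h0] with r hr h
    exact hr (by rw [h]; rfl)
  have hFm2 : Measurable (fun q : Sph n × ℝ =>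
      ENNReal.ofReal (Real.exp (n * q.2)) * F (Real.exp q.2 • (q.1 : E n))) :=
    Measurable.mul (by fun_prop) (hFm.comp (by fun_prop))
  have hLHS : ENNReal.ofReal a * ∫⁻ y in ball x h,
      ENNReal.ofReal (‖x - y‖ ^ (-((n : ℝ) - 1)) * g y) =
      ∫⁻ ω, ∫⁻ r, ENNReal.ofReal a * (ENNReal.ofReal (Real.exp (n * r)) *
        F (Real.exp r • (ω : E n))) ∂volume ∂(sg n) := by
    rw [← lintegral_indicator measurableSet_ball, polar_exp (by omega) hFm,
      ← lintegral_const_mul' _ _ ENNReal.ofReal_ne_top]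
    refine lintegral_congr fun ω => ?_
    rw [lintegral_const_mul' _ _ ENNReal.ofReal_ne_top]
  have hJm : Measurable (fun ω : Sph n =>
      ∫⁻ r in Icc (-(2 * T)) (2 * T), ENNReal.ofReal ((Y r ω) ^ (p + 1))) := by
    refine Measurable.lintegral_prod_right' (f := fun q : Sph n × ℝ =>
      ENNReal.ofReal ((Y q.2 q.1) ^ (p + 1))) ?_
    have : Measurable (fun q : Sph n × ℝ => Y q.2 q.1) := hYm.comp measurable_swap
    fun_prop
  have hkm : Measurable (fun ω : Sph n => ENNReal.ofReal (kap n ε (2 * h) θ ω)) := by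
    have := (measurable_kap (n := n) ε (2 * h)).comp (measurable_prodMk_left (x := θ))
    exact this.ennreal_ofReal
  rw [hLHS, ← lintegral_const_mul' _ _ ENNReal.ofReal_ne_top]
  refine lintegral_mono_ae ?_
  filter_upwards [hae] with ω hω
  have hYω : Measurable (fun r => ENNReal.ofReal ((Y r ω) ^ (p + 1))) := by
    have : Measurable (fun r => Y r ω) := hYm.comp (measurable_prodMk_right)
    fun_prop
  calc ∫⁻ r, ENNReal.ofReal a * (ENNReal.ofReal (Real.exp (n * r)) *
        F (Real.exp r • (ω : E n)))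
      ≤ ∫⁻ r, ENNReal.ofReal (Real.exp n * 2 ^ (n - 1) * Cg) *
        (ENNReal.ofReal (kap n ε (2 * h) θ ω) *
        (Icc (-(2 * T)) (2 * T)).indicator (fun r =>
          ENNReal.ofReal (a ^ (p + 1)) * ENNReal.ofReal (|t - r| ^ (-(1/2) : ℝ)) +
          ENNReal.ofReal ((Y r ω) ^ (p + 1))) r) := by
        refine lintegral_mono_ae ?_
        filter_upwards [haer] with r hr
        exact hstep ω hω r hr
    _ = ENNReal.ofReal (Real.exp n * 2 ^ (n - 1) * Cg) *
        (ENNReal.ofReal (kap n ε (2 * h) θ ω) *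
        (ENNReal.ofReal (a ^ (p + 1)) *
          (∫⁻ r in Icc (-(2 * T)) (2 * T), ENNReal.ofReal (|t - r| ^ (-(1/2) : ℝ))) +
          ∫⁻ r in Icc (-(2 * T)) (2 * T), ENNReal.ofReal ((Y r ω) ^ (p + 1)))) := by
        rw [lintegral_const_mul', lintegral_const_mul', lintegral_indicator measurableSet_Icc,
          lintegral_add_right _ hYω, lintegral_const_mul']
        · exact ENNReal.ofReal_ne_top
        · exact ENNReal.ofReal_ne_top
        · exact ENNReal.ofReal_ne_top
    _ ≤ _ := by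
        refine mul_le_mul' le_rfl (mul_le_mul' le_rfl (add_le_add ?_ le_rfl))
        calc ENNReal.ofReal (a ^ (p + 1)) *
            (∫⁻ r in Icc (-(2 * T)) (2 * T), ENNReal.ofReal (|t - r| ^ (-(1/2) : ℝ)))
            ≤ ENNReal.ofReal (a ^ (p + 1)) * ENNReal.ofReal 4 :=
              mul_le_mul' le_rfl (lintegral_sqrt_kernel' ht (by linarith only [hT]))
          _ = ENNReal.ofReal (4 * a ^ (p + 1)) := by
              rw [← ENNReal.ofReal_mul (by (clear * - ha; positivity)), mul_comm]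

/-- Schur test with a symmetric kernel. -/
theorem schur {k : Sph n → Sph n → ℝ≥0∞} (hk : Measurable (fun x : Sph n × Sph n => k x.1 x.2))
    (hs : ∀ x y, k x y = k y x) {M : ℝ≥0∞} (hM : ∀ x, ∫⁻ y, k x y ∂(sg n) ≤ M)
    {a J : Sph n → ℝ≥0∞} (ha : Measurable a) (hJ : Measurable J) :
    ∫⁻ x, ∫⁻ y, k x y * (a x + J y) ∂(sg n) ∂(sg n) ≤
      M * ((∫⁻ x, a x ∂(sg n)) + ∫⁻ x, J x ∂(sg n)) := by
  have hk1 : ∀ x, Measurable (fun y => k x y) := fun x => hk.comp measurable_prodMk_left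
  have e1 : ∀ x, ∫⁻ y, k x y * (a x + J y) ∂(sg n) =
      (∫⁻ y, k x y ∂(sg n)) * a x + ∫⁻ y, k x y * J y ∂(sg n) := by
    intro x
    have hkJ : Measurable (fun y => k x y * J y) := (hk1 x).mul hJ
    rw [← lintegral_mul_const _ (hk1 x), ← lintegral_add_right _ hkJ]
    refine lintegral_congr fun y => ?_
    rw [mul_add]
  have hm2 : Measurable (fun x => ∫⁻ y, k x y * J y ∂(sg n)) :=
    Measurable.lintegral_prod_right' (f := fun q : Sph n × Sph n => k q.1 q.2 * J q.2)
      (hk.mul (hJ.comp measurable_snd))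
  rw [lintegral_congr e1, lintegral_add_right _ hm2, mul_add]
  refine add_le_add ?_ ?_
  · rw [← lintegral_const_mul _ ha]
    exact lintegral_mono fun x => mul_le_mul' (hM x) le_rfl
  · rw [lintegral_lintegral_swap (hk.mul (hJ.comp measurable_snd)).aemeasurable,
      ← lintegral_const_mul _ hJ]
    refine lintegral_mono fun y => ?_
    have hk2 : Measurable (fun x => k x y) := hk.comp measurable_prodMk_right
    rw [lintegral_mul_const _ hk2]
    refine mul_le_mul' ?_ le_rfl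
    calc ∫⁻ x, k x y ∂(sg n) = ∫⁻ x, k y x ∂(sg n) := lintegral_congr fun x => hs x y
      _ ≤ M := hM y

/-- Integrability of continuous functions on the sphere. -/
theorem integrable_sph {F : Sph n → ℝ} (hF : Continuous F) : Integrable F (sg n) := by
  rw [← integrableOn_univ]
  exact hF.continuousOn.integrableOn_compact isCompact_univ

theorem continuous_en {p q : ℝ} (hp : 0 < p) (hq : 0 < q) {u v : E n → ℝ} (hu : Continuous u)
    (hv : Continuous v) :
    Continuous (fun θ : Sph n => (v (θ : E n)) ^ (p + 1) + (u (θ : E n)) ^ (q + 1)) :=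
  ((hv.comp continuous_subtype_val).rpow_const fun _ => Or.inr (by linarith only [hp])).add
    ((hu.comp continuous_subtype_val).rpow_const fun _ => Or.inr (by linarith))

theorem lintegral_le_En {p q : ℝ} (hp : 0 < p) (hq : 0 < q) {u v : E n → ℝ} (hu : Continuous u)
    (hv : Continuous v) (pu : ∀ x, 0 < u x) (pv : ∀ x, 0 < v x) :
    ∫⁻ θ : Sph n, ENNReal.ofReal ((v (θ : E n)) ^ (p + 1)) ∂(sg n) ≤
      ENNReal.ofReal (En n p q u v) := by
  unfold En
  rw [ofReal_integral_eq_lintegral_ofReal (integrable_sph (continuous_en hp hq hu hv))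
    (Filter.Eventually.of_forall fun θ => by
      have h1 := (pu (θ : E n)).le
      have h2 := (pv (θ : E n)).le
      show (0:ℝ) ≤ _
      (clear * - h2 h1; positivity))]
  refine lintegral_mono fun θ => ENNReal.ofReal_le_ofReal ?_
  have h1 := (pu (θ : E n)).le
  have : 0 ≤ (u (θ : E n)) ^ (q + 1) := by positivity
  linarith only [this]

theorem En_nonneg {p q : ℝ} {u v : E n → ℝ} (pu : ∀ x, 0 < u x) (pv : ∀ x, 0 < v x) :
    0 ≤ En n p q u v := by
  unfold En
  refine integral_nonneg fun θ => ?_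
  have h1 := (pu (θ : E n)).le
  have h2 := (pv (θ : E n)).le
  show (0:ℝ) ≤ _
  positivity

theorem scl_pos {α t : ℝ} {u : E n → ℝ} (pu : ∀ x, 0 < u x) (x : E n) : 0 < scl α t u x := by
  unfold scl
  exact mul_pos (Real.exp_pos _) (pu _)

theorem continuous_scl {α t : ℝ} {u : E n → ℝ} (hu : Continuous u) : Continuous (scl α t u) := by
  unfold scl
  fun_prop

/-- The double integral bound. -/
theorem lintegral_window_le {p q : ℝ} (hp : 0 < p) (hq : 0 < q) (α β : ℝ) {u v : E n → ℝ}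
    (hu : Continuous u) (hv : Continuous v) (pu : ∀ x, 0 < u x) (pv : ∀ x, 0 < v x) {T : ℝ}
    (hT : 0 ≤ T) :
    ∫⁻ ω : Sph n, (∫⁻ r in Icc (-(2 * T)) (2 * T),
      ENNReal.ofReal ((scl β r v (ω : E n)) ^ (p + 1))) ∂(sg n) ≤
      ENNReal.ofReal (∫ s in (-(2 * T))..(2 * T), En n p q (scl α s u) (scl β s v)) := by
  have hm : Measurable (fun x : Sph n × ℝ =>
      ENNReal.ofReal ((scl β x.2 v (x.1 : E n)) ^ (p + 1))) := by
    have hc : Continuous (fun x : Sph n × ℝ => scl β x.2 v (x.1 : E n)) := by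
      unfold scl
      fun_prop
    have := hc.measurable
    fun_prop
  rw [lintegral_lintegral_swap (f := fun (ω : Sph n) (r : ℝ) =>
    ENNReal.ofReal ((scl β r v (ω : E n)) ^ (p + 1))) hm.aemeasurable]
  have hcE : Continuous (fun s => En n p q (scl α s u) (scl β s v)) :=
    continuous_En hp hq hu hv pu pv
  rw [intervalIntegral.integral_of_le (by linarith only [hT]), ← integral_Icc_eq_integral_Ioc,
    ofReal_integral_eq_lintegral_ofReal (hcE.continuousOn.integrableOn_Icc)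
    (Filter.Eventually.of_forall fun s => En_nonneg (scl_pos pu) (scl_pos pv))]
  refine lintegral_mono fun r => ?_
  exact lintegral_le_En hp hq (continuous_scl hu) (continuous_scl hv) (scl_pos pu) (scl_pos pv)

/-- Pure real arithmetic of the pointwise bound. -/
theorem point_real {c C0 C1 l D ux uθ vθ Ψ X es ec : ℝ} (hc : 0 < c) (hC0 : 0 < C0) (hC1 : 0 < C1)
    (hl : 0 < l) (hl1 : l ≤ 1) (hux : 0 < ux) (huθ : 0 < uθ) (hvθ : 0 < vθ) (hΨ : 0 ≤ Ψ)
    (hes : 0 < es) (hec : es ≤ ec)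
    (h1 : vθ * D ≤ vθ * (C0 / (l / 2) * ux) + C0 * C1 * Ψ)
    (h2 : X ≤ es * (c * ux + 2 * D)) (h3 : es * ux ≤ uθ) :
    X ≤ (c + 4 * C0) / l * uθ + 2 * ec * (C0 * C1) * (Ψ / vθ) := by
  have hΨv : 0 ≤ Ψ / vθ := div_nonneg hΨ hvθ.le
  have hD : D ≤ C0 / (l / 2) * ux + C0 * C1 * (Ψ / vθ) := by
    have e1 : vθ * D ≤ vθ * (C0 / (l / 2) * ux + C0 * C1 * (Ψ / vθ)) := by
      refine h1.trans (le_of_eq ?_)
      (clear * - hl hvθ hux hC1 hΨ hC0; field_simp)
    exact le_of_mul_le_mul_left e1 hvθ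
  have e2 : X ≤ es * (c * ux + 2 * (C0 / (l / 2) * ux + C0 * C1 * (Ψ / vθ))) := by
    refine h2.trans ?_
    refine mul_le_mul_of_nonneg_left ?_ hes.le
    linarith only [hD]
  have e3 : es * (c * ux + 2 * (C0 / (l / 2) * ux + C0 * C1 * (Ψ / vθ))) =
      (c + 4 * C0 / l) * (es * ux) + 2 * es * (C0 * C1) * (Ψ / vθ) := by
    field_simp
    ring
  have h4 : c + 4 * C0 / l ≤ (c + 4 * C0) / l := by
    rw [add_div]
    have : c ≤ c / l := by
      rw [le_div_iff₀ hl]; nlinarith only [hc, hl1]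
    linarith only [this]
  have h5 : 0 < c + 4 * C0 / l := by positivity
  have h6 : (c + 4 * C0 / l) * (es * ux) ≤ (c + 4 * C0) / l * uθ := by
    calc (c + 4 * C0 / l) * (es * ux) ≤ (c + 4 * C0 / l) * uθ := by (clear * - h3 hc hC0 hl; gcongr)
      _ ≤ _ := by (clear * - h4 huθ; gcongr)
  have h7 : 2 * es * (C0 * C1) * (Ψ / vθ) ≤ 2 * ec * (C0 * C1) * (Ψ / vθ) := by (clear * - hec hC0 hC1 hΨ hvθ; gcongr)
  linarith only [e2, e3, h6, h7]

/-- The first axial derivative in terms of the gradient. -/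
theorem abs_cy1_le {c s : ℝ} (hc : 0 < c) {u : E n → ℝ} (pu : ∀ x, 0 < u x) (θ : Sph n)
    (hs : |s| ≤ 1 / 8) :
    |cy1 c u s θ| ≤ Real.exp (c * s) * (c * u (Real.exp s • (θ : E n)) +
      2 * ‖fderiv ℝ u (Real.exp s • (θ : E n))‖) := by
  have hw : ‖(θ : E n)‖ = 1 := by simp
  have hxn : ‖Real.exp s • (θ : E n)‖ = Real.exp s := by
    rw [norm_smul, hw, Real.norm_eq_abs, abs_of_pos (Real.exp_pos _), mul_one]
  set x : E n := Real.exp s • (θ : E n) with hx
  have hes : Real.exp s ≤ 2 := by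
    have h1 := Real.abs_exp_sub_one_le (x := s) (by linarith only [hs])
    have h2 := (abs_le.1 h1).2
    linarith
  unfold cy1
  rw [abs_mul, abs_of_pos (Real.exp_pos _)]
  refine mul_le_mul_of_nonneg_left ?_ (Real.exp_pos _).le
  rw [← hx]
  refine (abs_add_le _ _).trans ?_
  rw [abs_of_pos (mul_pos hc (pu x))]
  have h1 : |fderiv ℝ u x x| ≤ ‖fderiv ℝ u x‖ * ‖x‖ := by
    rw [← Real.norm_eq_abs]
    exact (fderiv ℝ u x).le_opNorm x
  have h2 : ‖fderiv ℝ u x‖ * ‖x‖ ≤ ‖fderiv ℝ u x‖ * 2 := by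
    rw [hxn]
    exact mul_le_mul_of_nonneg_left hes (norm_nonneg _)
  linarith only [h1, h2]

/-- Combination of the gradient bound and the potential bound. -/
theorem combine_ennreal {C0 C1 v D b : ℝ} {I P : ℝ≥0∞} (hv : 0 ≤ v) (hC0 : 0 ≤ C0) (hC1 : 0 ≤ C1)
    (hb : 0 ≤ b) (hP : P < ∞)
    (h1 : ENNReal.ofReal D ≤ ENNReal.ofReal b + ENNReal.ofReal C0 * I)
    (h2 : ENNReal.ofReal v * I ≤ ENNReal.ofReal C1 * P) :
    v * D ≤ v * b + C0 * C1 * P.toReal := by
  have hP0 : 0 ≤ P.toReal := ENNReal.toReal_nonneg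
  have e0 : ENNReal.ofReal (v * b + C0 * C1 * P.toReal) =
      ENNReal.ofReal v * ENNReal.ofReal b + ENNReal.ofReal C0 * (ENNReal.ofReal C1 * P) := by
    rw [ENNReal.ofReal_add (by positivity) (by positivity), ENNReal.ofReal_mul hv,
      ENNReal.ofReal_mul (by positivity), ENNReal.ofReal_mul hC0, ENNReal.ofReal_toReal hP.ne,
      mul_assoc (ENNReal.ofReal C0)]
  have e1 : ENNReal.ofReal (v * D) ≤ ENNReal.ofReal (v * b + C0 * C1 * P.toReal) := by
    rw [ENNReal.ofReal_mul hv, e0]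
    calc ENNReal.ofReal v * ENNReal.ofReal D
        ≤ ENNReal.ofReal v * (ENNReal.ofReal b + ENNReal.ofReal C0 * I) := mul_le_mul' le_rfl h1
      _ = ENNReal.ofReal v * ENNReal.ofReal b + ENNReal.ofReal C0 * (ENNReal.ofReal v * I) := by
          ring
      _ ≤ _ := add_le_add le_rfl (mul_le_mul' le_rfl h2)
  exact (ENNReal.ofReal_le_ofReal_iff (by (clear * - hv hb hC0 hC1; positivity))).1 e1

/-- Pure real arithmetic of the integral bound. -/
theorem int_real {c C0 C2 K l lε I J Ee : ℝ} (hc : 0 < c) (hC0 : 0 < C0) (hC2 : 0 < C2)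
    (hK : 0 ≤ K) (hl : 0 < l) (hlε : 0 < lε) (hI : 0 ≤ I) (hEe : 0 ≤ Ee)
    (hJ : J ≤ K * lε * (4 * Ee)) :
    (c + 4 * C0) / l * I + C2 * J ≤
      (c + 4 * C0 + C2 * K * 4) / l * I + (c + 4 * C0 + C2 * K * 4) * lε * Ee := by
  have e1 : (c + 4 * C0) / l * I ≤ (c + 4 * C0 + C2 * K * 4) / l * I := by
    refine mul_le_mul_of_nonneg_right ?_ hI
    refine div_le_div_of_nonneg_right ?_ hl.le
    have : 0 ≤ C2 * K * 4 := by (clear * - hC2 hK; positivity)
    linarith only [this]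
  have e2 : C2 * J ≤ (c + 4 * C0 + C2 * K * 4) * lε * Ee := by
    calc C2 * J ≤ C2 * (K * lε * (4 * Ee)) := by (clear * - hJ hC2; gcongr)
      _ = (C2 * K * 4) * lε * Ee := by ring
      _ ≤ _ := by
          have : C2 * K * 4 ≤ c + 4 * C0 + C2 * K * 4 := by
            have : 0 < c + 4 * C0 := by positivity
            linarith only [hc, hC0]
          (clear * - this hlε hEe; gcongr)
  linarith

/-- LINE, with the gradient bound as a hypothesis. -/
theorem line_bound_of_grad (hn : 3 ≤ n)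
    (hgrad : ∃ C : ℝ, 0 < C ∧ ∀ (p q A B : ℝ), -2 < A → -2 < B → 0 < p →
    0 < q → ∀ u v : E n → ℝ, IsPositiveEntireSolution n p q A B u v → ∀ x : E n, x ≠ 0 →
    ∀ h : ℝ, 0 < h → h < ‖x‖ → ENNReal.ofReal ‖fderiv ℝ u x‖ ≤ ENNReal.ofReal (C / h * u x) +
      ENNReal.ofReal C * ∫⁻ y in Metric.ball x h,
        ENNReal.ofReal (‖x - y‖ ^ (-((n : ℝ) - 1)) * (‖y‖ ^ A * v y ^ p)))
    {p q A B : ℝ} (hp : 0 < p) (hq : 0 < q) (hA : -2 < A)
    (hB : -2 < B) (α β : ℝ) : ∃ C κ T0 : ℝ, 0 < C ∧ 0 < κ ∧ 0 < T0 ∧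
    ∀ u v : E n → ℝ, IsPositiveEntireSolution n p q A B u v → ∀ T l : ℝ, 0 < l → l ≤ T → T ≤ T0 →
    ∃ G : Sph n → ℝ, (∀ θ, 0 ≤ G θ) ∧ Integrable (fun θ => G θ * v (θ : E n)) (sg n) ∧
      (∀ᵐ θ ∂(sg n), ∀ s, |s| ≤ T → cy0 (((n : ℝ) - 2) / 2) u s θ ≤ cy0 (((n : ℝ) - 2) / 2) u 0 θ →
        |cy1 (((n : ℝ) - 2) / 2) u s θ| ≤ G θ) ∧
      ∫ θ, G θ * v (θ : E n) ∂(sg n) ≤ C / l * ∫ θ : Sph n, u (θ : E n) * v (θ : E n) ∂(sg n) +
        C * l ^ κ * (En n p q u v +
          ∫ s in (-(2 * T))..(2 * T), En n p q (scl α s u) (scl β s v)) := by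
  obtain ⟨C0, hC0, hgr⟩ := hgrad
  have hn' : (3 : ℝ) ≤ n := by exact_mod_cast hn
  set c : ℝ := ((n : ℝ) - 2) / 2 with hc
  have hc0 : 0 < c := by rw [hc]; linarith only [hn']
  set ε : ℝ := 1 / (2 * (p + 1)) with hε
  have hε0 : 0 < ε := by rw [hε]; positivity
  have hε1 : ε < 1 := by
    rw [hε, div_lt_one (by positivity)]; linarith only [hp]
  set Cg : ℝ := Real.exp |A - β * p| with hCg
  have hCg0 : 0 < Cg := Real.exp_pos _
  set C1 : ℝ := Real.exp n * 2 ^ (n - 1) * Cg with hC1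
  have hC10 : 0 < C1 := by positivity
  set K : ℝ := 2⁻¹ * Real.exp n * 3 ^ n * (2 ^ ε / ε) * (sg n).real univ with hK
  have hK0 : 0 ≤ K := by (clear * - hp; positivity)
  set C2 : ℝ := 2 * Real.exp c * (C0 * C1) with hC2
  have hC20 : 0 < C2 := by positivity
  refine ⟨(c + 4 * C0) + C2 * K * 4, ε, 1 / 8, by (clear * - hc0 hC0 hp; positivity), hε0, by norm_num, ?_⟩
  intro u v hs T l hl hlT hT
  have pu := hs.pos_u
  have pv := hs.pos_v
  have hu := hs.continuous_u
  have hv := hs.continuous_v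
  have hT0 : 0 < T := lt_of_lt_of_le hl hlT
  set g : E n → ℝ := fun y => ‖y‖ ^ A * v y ^ p with hg
  have hg0 : ∀ y, 0 ≤ g y := fun y => by
    have := (pv y).le
    rw [hg]; (clear * - this; positivity)
  have hgm : Measurable g := by
    have := hv.measurable
    rw [hg]; fun_prop
  set Y : ℝ → Sph n → ℝ := fun r ω => scl β r v (ω : E n) with hY
  have hYc : Continuous (fun x : ℝ × Sph n => Y x.1 x.2) := by
    rw [hY]; unfold scl; fun_prop
  have hY0 : ∀ r ω, 0 ≤ Y r ω := fun r ω => (scl_pos pv _).le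
  have hgY : ∀ r, |r| ≤ 2 * T → ∀ ω : Sph n, g (Real.exp r • (ω : E n)) ≤ Cg * (Y r ω) ^ p := by
    intro r hr ω
    have hw : ‖Real.exp r • (ω : E n)‖ = Real.exp r := by
      have : ‖(ω : E n)‖ = 1 := by simp
      rw [norm_smul, this, Real.norm_eq_abs, abs_of_pos (Real.exp_pos _), mul_one]
    have e1 : g (Real.exp r • (ω : E n)) = Real.exp ((A - β * p) * r) * (Y r ω) ^ p := by
      rw [hg, hY]
      simp only
      unfold scl
      rw [hw, Real.mul_rpow (Real.exp_pos _).le (pv _).le, ← Real.exp_mul, ← Real.exp_mul,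
        ← mul_assoc, ← Real.exp_add]
      congr 2
      ring
    rw [e1]
    refine mul_le_mul_of_nonneg_right ?_ (Real.rpow_nonneg (hY0 r ω) _)
    rw [hCg]
    refine Real.exp_le_exp.2 ?_
    calc (A - β * p) * r ≤ |(A - β * p) * r| := le_abs_self _
      _ = |A - β * p| * |r| := abs_mul _ _
      _ ≤ |A - β * p| * 1 := by
          refine mul_le_mul_of_nonneg_left ?_ (abs_nonneg _)
          linarith only [hT, hr]
      _ = _ := mul_one _
  set J : Sph n → ℝ≥0∞ := fun ω => ∫⁻ r in Icc (-(2 * T)) (2 * T),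
    ENNReal.ofReal ((Y r ω) ^ (p + 1)) with hJ
  have hJm : Measurable J := by
    rw [hJ]
    refine Measurable.lintegral_prod_right' (f := fun q : Sph n × ℝ =>
      ENNReal.ofReal ((Y q.2 q.1) ^ (p + 1))) ?_
    have : Measurable (fun q : Sph n × ℝ => Y q.2 q.1) := hYc.measurable.comp measurable_swap
    (clear * - hYc; fun_prop)
  set a : Sph n → ℝ≥0∞ := fun θ => ENNReal.ofReal (4 * (v (θ : E n)) ^ (p + 1)) with ha
  have ham : Measurable a := by
    have := (hv.comp (continuous_subtype_val (p := fun x => x ∈ sphere (0 : E n) 1))).measurable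
    have h2 : Measurable (fun θ : Sph n => v (θ : E n)) := this
    rw [ha]; (clear * - hv; fun_prop)
  have hkm : Measurable (fun x : Sph n × Sph n => ENNReal.ofReal (kap n ε l x.1 x.2)) :=
    (measurable_kap ε l).ennreal_ofReal
  set P : Sph n → ℝ≥0∞ := fun θ => ∫⁻ ω, ENNReal.ofReal (kap n ε l θ ω) * (a θ + J ω) ∂(sg n)
    with hP
  have hPm : Measurable P := by
    rw [hP]
    exact Measurable.lintegral_prod_right' (f := fun q : Sph n × Sph n =>
      ENNReal.ofReal (kap n ε l q.1 q.2) * (a q.1 + J q.2))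
      (hkm.mul ((ham.comp measurable_fst).add (hJm.comp measurable_snd)))
  -- integral of P
  have hM : ∀ x : Sph n, ∫⁻ y, ENNReal.ofReal (kap n ε l x y) ∂(sg n) ≤
      ENNReal.ofReal (K * l ^ ε) := by
    intro x
    refine (lintegral_kap_le (by omega) hε0 (by linarith only [hn', hε1]) x hl (by linarith only [hlT, hT])).trans ?_
    rw [← ENNReal.ofReal_toReal (measure_ne_top (sg n) univ), ← ENNReal.ofReal_mul (by positivity)]
    refine ENNReal.ofReal_le_ofReal (le_of_eq ?_)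
    rw [hK]
    have : (sg n).real univ = (sg n univ).toReal := rfl
    rw [this]
    ring
  set EE : ℝ := ∫ s in (-(2 * T))..(2 * T), En n p q (scl α s u) (scl β s v) with hEE
  have hEE0 : 0 ≤ EE := by
    rw [hEE]
    refine intervalIntegral.integral_nonneg (by linarith only [hl, hlT]) fun s _ =>
      En_nonneg (scl_pos pu) (scl_pos pv)
  have hEn0 : 0 ≤ En n p q u v := En_nonneg pu pv
  have hPint : ∫⁻ θ, P θ ∂(sg n) ≤ ENNReal.ofReal (K * l ^ ε * (4 * (En n p q u v + EE))) := by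
    have e1 := schur (n := n) (k := fun x y => ENNReal.ofReal (kap n ε l x y)) hkm
      (fun x y => by rw [kap_symm]) hM ham hJm
    refine e1.trans ?_
    have e2 : ∫⁻ θ, a θ ∂(sg n) ≤ ENNReal.ofReal (4 * En n p q u v) := by
      have e3 : ∀ θ, a θ = ENNReal.ofReal 4 * ENNReal.ofReal ((v (θ : E n)) ^ (p + 1)) := fun θ => by
        rw [ha]; simp only; rw [ENNReal.ofReal_mul (by norm_num)]
      rw [lintegral_congr e3, lintegral_const_mul' _ _ ENNReal.ofReal_ne_top,
        ENNReal.ofReal_mul (by norm_num)]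
      exact mul_le_mul' le_rfl (lintegral_le_En hp hq hu hv pu pv)
    have e4 : ∫⁻ θ, J θ ∂(sg n) ≤ ENNReal.ofReal EE :=
      lintegral_window_le hp hq α β hu hv pu pv hT0.le
    calc ENNReal.ofReal (K * l ^ ε) * ((∫⁻ x, a x ∂(sg n)) + ∫⁻ x, J x ∂(sg n))
        ≤ ENNReal.ofReal (K * l ^ ε) * (ENNReal.ofReal (4 * En n p q u v) + ENNReal.ofReal EE) :=
          mul_le_mul' le_rfl (add_le_add e2 e4)
      _ = ENNReal.ofReal (K * l ^ ε * (4 * En n p q u v + EE)) := by
          rw [← ENNReal.ofReal_add (by (clear * - hEn0; positivity)) hEE0, ← ENNReal.ofReal_mul (by (clear * - hp hl; positivity))]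
      _ ≤ _ := by
          refine ENNReal.ofReal_le_ofReal (mul_le_mul_of_nonneg_left (by linarith only [hEE0]) (by (clear * - hp hl; positivity)))
  have hPfin : ∀ᵐ θ ∂(sg n), P θ < ∞ :=
    ae_lt_top hPm (ne_of_lt (lt_of_le_of_lt hPint ENNReal.ofReal_lt_top))
  set Ψ : Sph n → ℝ := fun θ => (P θ).toReal with hΨ
  have hΨ0 : ∀ θ, 0 ≤ Ψ θ := fun θ => ENNReal.toReal_nonneg
  have hΨi : Integrable Ψ (sg n) :=
    integrable_toReal_of_lintegral_ne_top hPm.aemeasurable
      (ne_of_lt (lt_of_le_of_lt hPint ENNReal.ofReal_lt_top))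
  have hΨint : ∫ θ, Ψ θ ∂(sg n) ≤ K * l ^ ε * (4 * (En n p q u v + EE)) := by
    rw [hΨ, integral_toReal hPm.aemeasurable hPfin]
    exact ENNReal.toReal_le_of_le_ofReal (by (clear * - hp hl hEn0 hEE0; positivity)) hPint
  have hGv : ∀ θ : Sph n, ((c + 4 * C0) / l * u (θ : E n) + C2 * (Ψ θ / v (θ : E n))) * v (θ : E n)
      = (c + 4 * C0) / l * (u (θ : E n) * v (θ : E n)) + C2 * Ψ θ := by
    intro θ
    have h2 := (pv (θ : E n)).ne'
    (clear * - h2 hl; field_simp)
  have huv : Integrable (fun θ : Sph n => u (θ : E n) * v (θ : E n)) (sg n) :=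
    integrable_sph ((hu.comp continuous_subtype_val).mul (hv.comp continuous_subtype_val))
  have huv0 : 0 ≤ ∫ θ : Sph n, u (θ : E n) * v (θ : E n) ∂(sg n) :=
    integral_nonneg fun θ => mul_nonneg (pu _).le (pv _).le
  refine ⟨fun θ => (c + 4 * C0) / l * u (θ : E n) + C2 * (Ψ θ / v (θ : E n)), ?_, ?_, ?_, ?_⟩
  · intro θ
    have h1 := pu (θ : E n)
    have h2 := pv (θ : E n)
    have h3 := hΨ0 θ
    (clear * - hc0 hC0 hl h1 h2; positivity)
  · simp only [hGv]
    exact (huv.const_mul _).add (hΨi.const_mul _)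
  · filter_upwards [hPfin] with θ hθ s hsT hrec
    have hpot := pot_bound (n := n) (by omega) (a := v (θ : E n)) hp hε hgm hg0 hY0 hYc.measurable
      hCg0.le hT (h := l / 2) (by positivity) (by linarith only [hlT]) hsT hgY (pv _).le θ
    rw [show 2 * (l / 2) = l by ring] at hpot
    change _ ≤ ENNReal.ofReal C1 * P θ at hpot
    have hw : ‖(θ : E n)‖ = 1 := by simp
    have hxn : ‖Real.exp s • (θ : E n)‖ = Real.exp s := by
      rw [norm_smul, hw, Real.norm_eq_abs, abs_of_pos (Real.exp_pos _), mul_one]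
    have hx0 : Real.exp s • (θ : E n) ≠ 0 := by
      rw [← norm_pos_iff, hxn]; exact Real.exp_pos _
    have hlx : l / 2 < ‖Real.exp s • (θ : E n)‖ := by
      rw [hxn]
      have h1 := Real.add_one_le_exp s
      have h2 := (abs_le.1 hsT).1
      linarith only [hlT, hT, h1, h2]
    have hg1 := hgr p q A B hA hB hp hq u v hs (Real.exp s • (θ : E n)) hx0 (l / 2) (by positivity)
      hlx
    have hux := pu (Real.exp s • (θ : E n))
    have hreal := combine_ennreal (pv (θ : E n)).le hC0.le hC10.le (by (clear * - hC0 hl hux; positivity)) hθ hg1 hpot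
    have hs1 : |s| ≤ 1 := by linarith only [hT, hsT]
    have hecs : Real.exp (c * s) ≤ Real.exp c := by
      refine Real.exp_le_exp.2 ?_
      have := (abs_le.1 hs1).2
      nlinarith only [this, hn', hc]
    have hcy0 : Real.exp (c * s) * u (Real.exp s • (θ : E n)) ≤ u (θ : E n) := by
      have h1 := hrec
      unfold cy0 at h1
      simpa only [ge_iff_le, mul_zero, Real.exp_zero, one_smul, one_mul] using h1
    exact point_real hc0 hC0 hC10 hl (by linarith only [hlT, hT]) hux (pu _) (pv _) (hΨ0 θ) (Real.exp_pos _) hecs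
      hreal (abs_cy1_le hc0 pu θ (by linarith only [hT, hsT])) hcy0
  · simp only [hGv]
    rw [integral_add (huv.const_mul _) (hΨi.const_mul _), integral_const_mul, integral_const_mul]
    exact int_real hc0 hC0 hC20 hK0 hl (by positivity) huv0 (by (clear * - hEn0 hEE0; positivity)) hΨint

end Vale.Agent.P100.RM
end
end

section

section

open MeasureTheory Set Filter Topology Real

namespace Vale.Agent.P100.RM

variable {n : ℕ}

theorem line_bound (hn : 3 ≤ n) {p q A B : ℝ} (hp : 0 < p) (hq : 0 < q) (hA : -2 < A)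
    (hB : -2 < B) (α β : ℝ) : ∃ C κ T0 : ℝ, 0 < C ∧ 0 < κ ∧ 0 < T0 ∧
    ∀ u v : E n → ℝ, IsPositiveEntireSolution n p q A B u v → ∀ T l : ℝ, 0 < l → l ≤ T → T ≤ T0 →
    ∃ G : Sph n → ℝ, (∀ θ, 0 ≤ G θ) ∧ Integrable (fun θ => G θ * v (θ : E n)) (sg n) ∧
      (∀ᵐ θ ∂(sg n), ∀ s, |s| ≤ T → cy0 (((n : ℝ) - 2) / 2) u s θ ≤ cy0 (((n : ℝ) - 2) / 2) u 0 θ →
        |cy1 (((n : ℝ) - 2) / 2) u s θ| ≤ G θ) ∧
      ∫ θ, G θ * v (θ : E n) ∂(sg n) ≤ C / l * ∫ θ : Sph n, u (θ : E n) * v (θ : E n) ∂(sg n) +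
        C * l ^ κ * (En n p q u v +
          ∫ s in (-(2 * T))..(2 * T), En n p q (scl α s u) (scl β s v)) :=
  line_bound_of_grad hn (grad_bound hn) hp hq hA hB α β

end Vale.Agent.P100.RM
end
end
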