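import Mathlib
attribute [-instance] ProperSMul.toContinuousSMul IsTopologicalTorsor.toContinuousSMul IdemSemiring.toCanonicallyOrderedAdd IdemSemiring.toMulLeftMono IdemSemiring.toMulRightMono AddQuantale.instAddLeftMono AddQuantale.instAddRightMono Quantale.instMulLeftMono Quantale.instMulRightMono FiniteDimensional.rclike_to_real IsScalarTower.complexToReal FiniteDimensional.complexToReal

set_option linter.all false

section

section

/-! Explicit radial test functions on `Fin n → ℝ` with the Euclidean square norm. -/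

open Set Filter
open scoped ContDiff Topology

namespace Vale.Agent.P100.TS

noncomputable section

/-- Squared Euclidean norm. -/
def nsq {n : ℕ} (x : Fin n → ℝ) : ℝ := ∑ i, x i ^ 2

/-- Partial derivative. -/
def pd {n : ℕ} (i : Fin n) (f : (Fin n → ℝ) → ℝ) (x : Fin n → ℝ) : ℝ :=
  fderiv ℝ f x (Pi.single i 1)

/-- Laplacian. -/
def lap {n : ℕ} (f : (Fin n → ℝ) → ℝ) (x : Fin n → ℝ) : ℝ := ∑ i, pd i (pd i f) x

lemma nsq_nonneg {n : ℕ} (x : Fin n → ℝ) : 0 ≤ nsq x := Finset.sum_nonneg fun _ _ => sq_nonneg _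

lemma contDiff_nsq {n : ℕ} {k : WithTop ℕ∞} : ContDiff ℝ k (nsq (n := n)) := by
  unfold nsq
  exact ContDiff.sum fun i _ => (contDiff_apply ℝ ℝ i).pow 2

lemma continuous_nsq {n : ℕ} : Continuous (nsq (n := n)) := (contDiff_nsq (k := 0)).continuous

lemma nsq_smul {n : ℕ} (c : ℝ) (x : Fin n → ℝ) : nsq (c • x) = c ^ 2 * nsq x := by
  simp only [nsq, Pi.smul_apply, smul_eq_mul, mul_pow, Finset.mul_sum]

lemma sq_le_nsq {n : ℕ} (x : Fin n → ℝ) (i : Fin n) : x i ^ 2 ≤ nsq x :=
  Finset.single_le_sum (f := fun i => x i ^ 2) (fun _ _ => sq_nonneg _) (Finset.mem_univ i)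

lemma norm_sq_le_nsq {n : ℕ} (x : Fin n → ℝ) : ‖x‖ ^ 2 ≤ nsq x := by
  rcases isEmpty_or_nonempty (Fin n) with h | h
  · have : x = 0 := Subsingleton.elim _ _
    rw [this, norm_zero]; simpa only [ne_eq, OfNat.ofNat_ne_zero, not_false_eq_true, zero_pow, ge_iff_le] using     nsq_nonneg (0 : Fin n → ℝ)
  · have h1 : ‖x‖ ≤ Real.sqrt (nsq x) := by
      rw [pi_norm_le_iff_of_nonneg (Real.sqrt_nonneg _)]
      intro i
      rw [Real.norm_eq_abs, ← Real.sqrt_sq_eq_abs]
      exact Real.sqrt_le_sqrt (sq_le_nsq x i)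
    calc ‖x‖ ^ 2 ≤ Real.sqrt (nsq x) ^ 2 := by gcongr
      _ = nsq x := Real.sq_sqrt (nsq_nonneg x)

lemma nsq_le {n : ℕ} (x : Fin n → ℝ) : nsq x ≤ n * ‖x‖ ^ 2 := by
  unfold nsq
  calc ∑ i, x i ^ 2 ≤ ∑ _i : Fin n, ‖x‖ ^ 2 := by
        apply Finset.sum_le_sum
        intro i _
        rw [← sq_abs, ← Real.norm_eq_abs]
        gcongr
        exact norm_le_pi_norm x i
    _ = n * ‖x‖ ^ 2 := by simp only [Finset.sum_const, Finset.card_univ, Fintype.card_fin, nsmul_eq_mul]

/-- Truncated power. -/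
def tp (k : ℕ) (t : ℝ) : ℝ := (max t 0) ^ k

lemma tp_nonneg (k : ℕ) (t : ℝ) : 0 ≤ tp k t := pow_nonneg (le_max_right _ _) _

lemma continuous_tp (k : ℕ) : Continuous (tp k) := by unfold tp; fun_prop

lemma hasDerivAt_tp (k : ℕ) (t : ℝ) :
    HasDerivAt (tp (k + 2)) (((k : ℝ) + 2) * tp (k + 1) t) t := by
  rcases lt_trichotomy t 0 with h | h | h
  · have h1 : tp (k + 2) =ᶠ[𝓝 t] fun _ => 0 := by
      filter_upwards [gt_mem_nhds h] with s hs
      simp only [tp, max_eq_right hs.le, ne_eq, Nat.add_eq_zero_iff, OfNat.ofNat_ne_zero, and_false, not_false_eq_true, zero_pow]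
    have h2 : tp (k + 1) t = 0 := by simp only [tp, max_eq_right h.le, ne_eq, Nat.add_eq_zero_iff, one_ne_zero, and_false, not_false_eq_true, zero_pow]
    rw [h2, mul_zero]
    exact (hasDerivAt_const t 0).congr_of_eventuallyEq h1
  · subst h
    have h2 : tp (k + 1) 0 = 0 := by simp only [tp, max_self, ne_eq, Nat.add_eq_zero_iff, one_ne_zero, and_false, not_false_eq_true, zero_pow]
    rw [h2, mul_zero, hasDerivAt_iff_isLittleO]
    have h3 : tp (k + 2) 0 = 0 := by simp [tp]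
    simp only [h3, sub_zero, smul_zero]
    have hO : (fun x' : ℝ => tp (k + 2) x') =O[𝓝 0] fun x' => x' ^ (k + 2) := by
      apply Asymptotics.IsBigO.of_bound 1
      filter_upwards with x'
      rw [Real.norm_eq_abs, Real.norm_eq_abs, one_mul, abs_pow, tp, abs_pow]
      apply pow_le_pow_left₀ (abs_nonneg _)
      rw [abs_of_nonneg (le_max_right x' 0)]
      exact max_le (le_abs_self _) (abs_nonneg _)
    refine hO.trans_isLittleO ?_
    have := Asymptotics.isLittleO_pow_pow (𝕜 := ℝ) (m := 1) (n := k + 2) (by omega)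
    simpa only [pow_one] using this
  · have h1 : tp (k + 2) =ᶠ[𝓝 t] fun s => s ^ (k + 2) := by
      filter_upwards [lt_mem_nhds h] with s hs
      simp only [tp, max_eq_left hs.le]
    have h2 : tp (k + 1) t = t ^ (k + 1) := by simp only [tp, max_eq_left h.le]
    rw [h2]
    have h3 := (hasDerivAt_pow (k + 2) t).congr_of_eventuallyEq h1
    refine h3.congr_deriv ?_
    push_cast
    simp

lemma contDiff_tp (k : ℕ) : ContDiff ℝ k (tp (k + 1)) := by
  induction k with
  | zero => exact contDiff_zero.2 (continuous_tp 1)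
  | succ k ih =>
    have h := contDiff_succ_iff_deriv (𝕜 := ℝ) (f := tp (k + 2)) (n := (k : WithTop ℕ∞))
    push_cast
    rw [h]
    refine ⟨fun t => (hasDerivAt_tp k t).differentiableAt, fun h => ?_, ?_⟩
    · simp at h
    · have : deriv (tp (k + 2)) = fun t => ((k : ℝ) + 2) * tp (k + 1) t := by
        ext t; exact (hasDerivAt_tp k t).deriv
      rw [this]
      exact contDiff_const.mul ih

/-- Radial truncated power. -/
def Rk {n : ℕ} (k : ℕ) (z : Fin n → ℝ) : ℝ := tp k (1 - nsq z)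

lemma Rk_nonneg {n : ℕ} (k : ℕ) (z : Fin n → ℝ) : 0 ≤ Rk k z := tp_nonneg _ _

lemma Rk_le_one {n : ℕ} (k : ℕ) (z : Fin n → ℝ) : Rk k z ≤ 1 := by
  unfold Rk tp
  apply pow_le_one₀ (le_max_right _ _)
  apply max_le _ zero_le_one
  linarith only [nsq_nonneg z]

lemma Rk_eq_zero {n : ℕ} (k : ℕ) (z : Fin n → ℝ) (h : 1 ≤ nsq z) : Rk (k + 1) z = 0 := by
  unfold Rk tp
  rw [max_eq_right (by linarith only [h])]
  simp

lemma continuous_Rk {n : ℕ} (k : ℕ) : Continuous (Rk (n := n) k) :=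
  (continuous_tp k).comp (continuous_const.sub continuous_nsq)

lemma contDiff_Rk {n : ℕ} (k : ℕ) : ContDiff ℝ k (Rk (n := n) (k + 1)) :=
  (contDiff_tp k).comp (contDiff_const.sub contDiff_nsq)

lemma hasCompactSupport_Rk {n : ℕ} (k : ℕ) : HasCompactSupport (Rk (n := n) (k + 1)) := by
  apply HasCompactSupport.intro (K := Metric.closedBall (0 : Fin n → ℝ) 1)
    (isCompact_closedBall _ _)
  intro x hx
  apply Rk_eq_zero
  rw [mem_closedBall_zero_iff, not_le] at hx
  have h1 := norm_sq_le_nsq x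
  nlinarith

lemma hasFDerivAt_coord {n : ℕ} (i : Fin n) (x : Fin n → ℝ) :
    HasFDerivAt (fun z : Fin n → ℝ => z i) (ContinuousLinearMap.proj (R := ℝ) (φ := fun _ => ℝ) i) x :=
  (ContinuousLinearMap.proj (R := ℝ) (φ := fun _ => ℝ) i).hasFDerivAt

lemma hasFDerivAt_nsq {n : ℕ} (x : Fin n → ℝ) :
    HasFDerivAt (nsq (n := n)) (∑ i, (2 * x i) •
      (ContinuousLinearMap.proj (R := ℝ) (φ := fun _ => ℝ) i)) x := by
  unfold nsq
  apply HasFDerivAt.fun_sum
  intro i _
  have := (hasFDerivAt_coord i x).pow 2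
  refine this.congr_fderiv ?_
  ext v
  simp

lemma hasFDerivAt_Rk {n : ℕ} (k : ℕ) (x : Fin n → ℝ) :
    HasFDerivAt (Rk (n := n) (k + 2)) ((-2 * ((k : ℝ) + 2) * Rk (k + 1) x) • ∑ i, (x i) •
      (ContinuousLinearMap.proj (R := ℝ) (φ := fun _ => ℝ) i)) x := by
  have h1 := (hasDerivAt_tp k (1 - nsq x)).comp_hasFDerivAt x ((hasFDerivAt_nsq x).const_sub 1)
  refine h1.congr_fderiv ?_
  ext v
  simp only [smul_apply, neg_apply,
    sum_apply, ContinuousLinearMap.proj_apply, smul_eq_mul]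
  rw [Finset.mul_sum, mul_neg, Finset.mul_sum, ← Finset.sum_neg_distrib]
  apply Finset.sum_congr rfl
  intro i _
  unfold Rk
  ring

lemma pd_Rk {n : ℕ} (k : ℕ) (i : Fin n) (x : Fin n → ℝ) :
    pd i (Rk (k + 2)) x = -2 * ((k : ℝ) + 2) * (x i * Rk (k + 1) x) := by
  unfold pd
  rw [(hasFDerivAt_Rk k x).fderiv]
  simp only [smul_apply, sum_apply,
    ContinuousLinearMap.proj_apply, smul_eq_mul]
  rw [Finset.sum_eq_single i]
  · simp only [neg_mul, Pi.single_eq_same, mul_one, neg_inj]; ring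
  · intro j _ hj
    simp [Pi.single_apply, hj]
  · simp only [Finset.mem_univ, not_true_eq_false, Pi.single_eq_same, mul_one, IsEmpty.forall_iff]

lemma pd_coord {n : ℕ} (i j : Fin n) (x : Fin n → ℝ) :
    pd i (fun z => z j) x = if i = j then 1 else 0 := by
  unfold pd
  rw [(hasFDerivAt_coord j x).fderiv]
  simp only [ContinuousLinearMap.proj_apply, Pi.single_apply]
  by_cases h : i = j
  · simp [h]
  · simp [h, Ne.symm h]

lemma pd_mul {n : ℕ} {f g : (Fin n → ℝ) → ℝ} {x : Fin n → ℝ} (i : Fin n)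
    (hf : DifferentiableAt ℝ f x) (hg : DifferentiableAt ℝ g x) :
    pd i (fun z => f z * g z) x = f x * pd i g x + g x * pd i f x := by
  unfold pd
  rw [fderiv_fun_mul hf hg]
  simp only [add_apply, smul_apply, smul_eq_mul]

lemma pd_add {n : ℕ} {f g : (Fin n → ℝ) → ℝ} {x : Fin n → ℝ} (i : Fin n)
    (hf : DifferentiableAt ℝ f x) (hg : DifferentiableAt ℝ g x) :
    pd i (fun z => f z + g z) x = pd i f x + pd i g x := by
  unfold pd
  rw [fderiv_fun_add hf hg]
  simp only [add_apply]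

lemma pd_const_mul {n : ℕ} {f : (Fin n → ℝ) → ℝ} {x : Fin n → ℝ} (i : Fin n) (c : ℝ)
    (hf : DifferentiableAt ℝ f x) :
    pd i (fun z => c * f z) x = c * pd i f x := by
  unfold pd
  rw [fderiv_const_mul hf]
  simp

lemma differentiable_Rk {n : ℕ} (k : ℕ) : Differentiable ℝ (Rk (n := n) (k + 2)) :=
  fun x => (hasFDerivAt_Rk k x).differentiableAt

lemma differentiable_coord {n : ℕ} (i : Fin n) : Differentiable ℝ (fun z : Fin n → ℝ => z i) :=
  fun x => (hasFDerivAt_coord i x).differentiableAt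

/-! ### The two families of kernels -/

/-- `Θ_j = - z_j R₃`. -/
def Tj {n : ℕ} (j : Fin n) (z : Fin n → ℝ) : ℝ := -1 * (z j * Rk 3 z)

/-- `P_j = ∂_j R₃`. -/
def Pj {n : ℕ} (j : Fin n) (z : Fin n → ℝ) : ℝ := -6 * (z j * Rk 2 z)

lemma pd_Tj {n : ℕ} (i j : Fin n) : pd i (Tj (n := n) j) = fun x =>
    (-if i = j then 1 else 0) * Rk 3 x + 6 * (x i * (x j * Rk 2 x)) := by
  ext x
  unfold Tj
  rw [pd_const_mul i _ ((differentiable_coord j x).fun_mul (differentiable_Rk 1 x)),
    pd_mul i (differentiable_coord j x) (differentiable_Rk 1 x), pd_Rk, pd_coord]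
  push_cast
  ring

lemma lap_Tj {n : ℕ} (j : Fin n) (x : Fin n → ℝ) :
    lap (Tj j) x = -((n : ℝ) + 1) * Pj j x - fderiv ℝ (Pj j) x x := by
  have hP : fderiv ℝ (Pj j) x x = -6 * (x j * Rk 2 x) + 24 * (nsq x * (x j * Rk 1 x)) := by
    have h1 := (((hasFDerivAt_coord j x).mul (hasFDerivAt_Rk 0 x)).const_mul (-6 : ℝ)).fderiv
    have h2 : (fun z : Fin n → ℝ => -6 * (z j * Rk (0 + 2) z)) = Pj j := rfl
    have h3 : fderiv ℝ (Pj j) x = _ := h1
    rw [h3]
    simp only [smul_apply, add_apply,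
      sum_apply, ContinuousLinearMap.proj_apply, smul_eq_mul]
    have : ∑ i, x i * x i = nsq x := by
      unfold nsq; apply Finset.sum_congr rfl; intro i _; ring
    rw [this]
    push_cast
    simp only [zero_add]
    ring
  rw [hP]
  unfold lap
  have hterm : ∀ i : Fin n, pd i (pd i (Tj j)) x =
      (6 * x j * Rk 2 x) - 24 * (x i ^ 2) * (x j * Rk 1 x) +
        (if i = j then 1 else 0) * (12 * (x j * Rk 2 x)) := by
    intro i
    rw [pd_Tj]
    have d3 : DifferentiableAt ℝ (fun x : Fin n → ℝ => (-if i = j then (1:ℝ) else 0) * Rk 3 x) x :=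
      (differentiable_Rk 1 x).const_mul _
    have d2 : DifferentiableAt ℝ (fun x : Fin n → ℝ => x j * Rk 2 x) x :=
      (differentiable_coord j x).fun_mul (differentiable_Rk 0 x)
    have d2' : DifferentiableAt ℝ (fun x : Fin n → ℝ => x i * (x j * Rk 2 x)) x :=
      (differentiable_coord i x).fun_mul d2
    rw [pd_add i d3 (d2'.const_mul 6), pd_const_mul i _ (differentiable_Rk 1 x),
      pd_const_mul i _ d2', pd_mul i (differentiable_coord i x) d2,
      pd_mul i (differentiable_coord j x) (differentiable_Rk 0 x), pd_Rk, pd_Rk, pd_coord, pd_coord]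
    by_cases h : i = j
    · subst h
      simp only [if_true]
      push_cast
      simp only [zero_add]
      ring
    · simp only [h, if_false, if_true]
      push_cast
      simp only [zero_add]
      ring
  simp only [hterm]
  rw [Finset.sum_add_distrib, Finset.sum_sub_distrib]
  simp only [← Finset.sum_mul, Finset.sum_const, Finset.card_univ, Fintype.card_fin, nsmul_eq_mul,
    ← Finset.mul_sum, Finset.sum_ite_eq', Finset.mem_univ, if_true]
  have : ∑ i, x i ^ 2 = nsq x := rfl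
  rw [this]
  unfold Pj
  ring

end

end Vale.Agent.P100.TS
end
end

section

section

/-! Green's identity and the weak formulation through an isolated point. -/

open Set Filter MeasureTheory
open scoped ContDiff Topology

namespace Vale.Agent.P100.TS

noncomputable section

variable {n : ℕ}

lemma cont_mul {a g : (Fin n → ℝ) → ℝ} {U : Set (Fin n → ℝ)} (ha : Continuous a) (hU : IsOpen U)
    (hg : ContinuousOn g U) (hs : tsupport a ⊆ U) : Continuous (fun x => a x * g x) := by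
  rw [continuous_iff_continuousAt]
  intro x
  by_cases hx : x ∈ tsupport a
  · exact ha.continuousAt.mul (hg.continuousAt (hU.mem_nhds (hs hx)))
  · have h0 : a =ᶠ[𝓝 x] 0 := notMem_tsupport_iff_eventuallyEq.1 hx
    have h1 : (fun x => a x * g x) =ᶠ[𝓝 x] fun _ => 0 := by
      filter_upwards [h0] with y hy
      rw [hy]; simp
    exact (continuousAt_const).congr h1.symm

lemma tsupport_pd_subset (i : Fin n) (H : (Fin n → ℝ) → ℝ) : tsupport (pd i H) ⊆ tsupport H := by
  refine Subset.trans ?_ (tsupport_fderiv_subset ℝ)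
  apply closure_mono
  intro x hx
  rw [Function.mem_support] at hx ⊢
  intro h
  apply hx
  unfold pd
  rw [h]; rfl

lemma hasCompactSupport_pd {i : Fin n} {H : (Fin n → ℝ) → ℝ} (h : HasCompactSupport H) :
    HasCompactSupport (pd i H) :=
  h.of_isClosed_subset (isClosed_tsupport _) (tsupport_pd_subset i H)

lemma contDiff_pd {H : (Fin n → ℝ) → ℝ} (i : Fin n) (h : ContDiff ℝ 2 H) :
    ContDiff ℝ 1 (pd i H) := by
  unfold pd
  exact (h.fderiv_right (by (clear * -; norm_num))).clm_apply contDiff_const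

lemma continuous_pd {H : (Fin n → ℝ) → ℝ} (i : Fin n) (h : ContDiff ℝ 1 H) :
    Continuous (pd i H) := by
  unfold pd
  exact ((h.fderiv_right (m := 0) (by norm_num)).clm_apply contDiff_const).continuous

lemma contDiffAt_pd {u : (Fin n → ℝ) → ℝ} {x : Fin n → ℝ} (i : Fin n)
    (h : ContDiffAt ℝ 2 u x) : ContDiffAt ℝ 1 (pd i u) x := by
  unfold pd
  exact (h.fderiv_right (by norm_num)).clm_apply contDiffAt_const

lemma continuousAt_pd {u : (Fin n → ℝ) → ℝ} {x : Fin n → ℝ} (i : Fin n)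
    (h : ContDiffAt ℝ 1 u x) : ContinuousAt (pd i u) x := by
  unfold pd
  exact ((h.fderiv_right (m := 0) (by norm_num)).clm_apply contDiffAt_const).continuousAt

lemma contDiffOn_pd {u : (Fin n → ℝ) → ℝ} (i : Fin n)
    (h : ContDiffOn ℝ 2 u {0}ᶜ) : ContDiffOn ℝ 1 (pd i u) {0}ᶜ := fun _ hx =>
  (contDiffAt_pd i (h.contDiffAt (isOpen_compl_singleton.mem_nhds hx))).contDiffWithinAt

lemma continuousOn_pd {u : (Fin n → ℝ) → ℝ} (i : Fin n)
    (h : ContDiffOn ℝ 1 u {0}ᶜ) : ContinuousOn (pd i u) {0}ᶜ := fun _ hx =>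
  (continuousAt_pd i (h.contDiffAt (isOpen_compl_singleton.mem_nhds hx))).continuousWithinAt

lemma green {u H : (Fin n → ℝ) → ℝ} (huc : Continuous u) (hu : ContDiffOn ℝ 2 u {0}ᶜ)
    (hH : ContDiff ℝ 2 H) (hc : HasCompactSupport H) (h0 : tsupport H ⊆ {0}ᶜ) :
    ∫ y, u y * lap H y = ∫ y, H y * lap u y := by
  have hO : IsOpen ({0}ᶜ : Set (Fin n → ℝ)) := isOpen_compl_singleton
  have hu1 : ∀ i, ContDiffOn ℝ 1 (pd i u) {0}ᶜ := fun i => contDiffOn_pd i hu
  have hu2 : ∀ i, ContinuousOn (pd i (pd i u)) {0}ᶜ := fun i => continuousOn_pd i (hu1 i)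
  have hH1 : ∀ i, ContDiff ℝ 1 (pd i H) := fun i => contDiff_pd i hH
  have hH2 : ∀ i, Continuous (pd i (pd i H)) := fun i => continuous_pd i (hH1 i)
  have hcH1 : ∀ i, HasCompactSupport (pd i H) := fun i => hasCompactSupport_pd hc
  have hcH2 : ∀ i, HasCompactSupport (pd i (pd i H)) := fun i => hasCompactSupport_pd (hcH1 i)
  have hI1 : ∀ i, Integrable (fun x => pd i (pd i H) x * u x) := fun i =>
    ((hH2 i).mul huc).integrable_of_hasCompactSupport ((hcH2 i).mul_right)
  have hI2 : ∀ i, Integrable (fun x => pd i H x * pd i u x) := fun i =>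
    (cont_mul (hH1 i).continuous hO (hu1 i).continuousOn
      ((tsupport_pd_subset i H).trans h0)).integrable_of_hasCompactSupport ((hcH1 i).mul_right)
  have hI3 : ∀ i, Integrable (fun x => pd i H x * u x) := fun i =>
    ((hH1 i).continuous.mul huc).integrable_of_hasCompactSupport ((hcH1 i).mul_right)
  have hI4 : ∀ i, Integrable (fun x => H x * pd i (pd i u) x) := fun i =>
    (cont_mul hH.continuous hO (hu2 i) h0).integrable_of_hasCompactSupport
      (hc.mul_right)
  have hI5 : ∀ i, Integrable (fun x => H x * pd i u x) := fun i =>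
    (cont_mul hH.continuous hO (hu1 i).continuousOn h0).integrable_of_hasCompactSupport
      (hc.mul_right)
  have hA : ∀ i, ∫ x, pd i H x * pd i u x = - ∫ x, pd i (pd i H) x * u x := fun i =>
    integral_mul_fderiv_eq_neg_fderiv_mul_of_integrable (f := pd i H) (g := u) (hI1 i) (hI2 i)
      (hI3 i) (fun x _ => ((hH1 i).differentiable (by simp)) x)
      (fun x hx => ((hu.contDiffAt (hO.mem_nhds (h0 (tsupport_pd_subset i H hx)))).differentiableAt
        (by simp)))
  have hB : ∀ i, ∫ x, H x * pd i (pd i u) x = - ∫ x, pd i H x * pd i u x := fun i =>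
    integral_mul_fderiv_eq_neg_fderiv_mul_of_integrable (f := H) (g := pd i u) (hI2 i) (hI4 i)
      (hI5 i) (fun x _ => (hH.differentiable (by simp)) x)
      (fun x hx => (((hu1 i).contDiffAt (hO.mem_nhds (h0 hx))).differentiableAt (by simp)))
  have hL : ∫ y, u y * lap H y = ∑ i, ∫ x, pd i (pd i H) x * u x := by
    rw [← integral_finsetSum _ (fun i _ => hI1 i)]
    congr 1; ext y
    unfold lap
    rw [Finset.mul_sum]
    exact Finset.sum_congr rfl fun i _ => mul_comm _ _
  have hR : ∫ y, H y * lap u y = ∑ i, ∫ x, H x * pd i (pd i u) x := by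
    rw [← integral_finsetSum _ (fun i _ => hI4 i)]
    congr 1; ext y
    unfold lap
    rw [Finset.mul_sum]
  rw [hL, hR]
  refine Finset.sum_congr rfl fun i _ => ?_
  rw [hB, hA, neg_neg]

/-! ### Scaling and products -/

lemma pd_comp_smul {G : (Fin n → ℝ) → ℝ} (hG : Differentiable ℝ G) (i : Fin n) (c : ℝ)
    (a y : Fin n → ℝ) : pd i (fun y => G (c • (y - a))) y = c * pd i G (c • (y - a)) := by
  unfold pd
  have h1 : HasFDerivAt (fun y : Fin n → ℝ => c • (y - a)) (c • ContinuousLinearMap.id ℝ _) y :=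
    ((hasFDerivAt_id y).sub_const a).const_smul c
  have h2 := (hG (c • (y - a))).hasFDerivAt.comp y h1
  have h3 : fderiv ℝ (fun y => G (c • (y - a))) y = _ := h2.fderiv
  rw [h3]
  simp only [ContinuousLinearMap.comp_smulₛₗ, Real.ringHom_apply, ContinuousLinearMap.comp_id, smul_apply, smul_eq_mul]

lemma lap_comp_smul {G : (Fin n → ℝ) → ℝ} (hG : ContDiff ℝ 2 G) (c : ℝ)
    (a y : Fin n → ℝ) : lap (fun y => G (c • (y - a))) y = c ^ 2 * lap G (c • (y - a)) := by
  unfold lap
  rw [Finset.mul_sum]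
  refine Finset.sum_congr rfl fun i _ => ?_
  have h1 : pd i (fun y => G (c • (y - a))) = fun y => c * pd i G (c • (y - a)) := by
    ext y
    exact pd_comp_smul (hG.differentiable (by simp)) i c a y
  have hG1 : ContDiff ℝ 1 (pd i G) := contDiff_pd i hG
  rw [h1, pd_const_mul, pd_comp_smul (hG1.differentiable (by simp))]
  · ring
  · have : Differentiable ℝ (fun y => pd i G (c • (y - a))) :=
      (hG1.differentiable (by simp)).comp ((differentiable_id.sub_const a).const_smul c)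
    exact this y

lemma lap_mul {a b : (Fin n → ℝ) → ℝ} (ha : ContDiff ℝ 2 a) (hb : ContDiff ℝ 2 b)
    (y : Fin n → ℝ) : lap (fun y => a y * b y) y =
      a y * lap b y + 2 * ∑ i, pd i a y * pd i b y + b y * lap a y := by
  have ha1 : ∀ i, ContDiff ℝ 1 (pd i a) := fun i => contDiff_pd i ha
  have hb1 : ∀ i, ContDiff ℝ 1 (pd i b) := fun i => contDiff_pd i hb
  have hda : Differentiable ℝ a := ha.differentiable (by simp)
  have hdb : Differentiable ℝ b := hb.differentiable (by simp)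
  unfold lap
  rw [Finset.mul_sum, Finset.mul_sum, Finset.mul_sum, ← Finset.sum_add_distrib,
    ← Finset.sum_add_distrib]
  refine Finset.sum_congr rfl fun i _ => ?_
  have h1 : pd i (fun y => a y * b y) = fun y => a y * pd i b y + b y * pd i a y := by
    ext y
    exact pd_mul i (hda y) (hdb y)
  have hdpa : Differentiable ℝ (pd i a) := (ha1 i).differentiable (by simp)
  have hdpb : Differentiable ℝ (pd i b) := (hb1 i).differentiable (by simp)
  rw [h1, pd_add i ((hda y).fun_mul (hdpb y)) ((hdb y).fun_mul (hdpa y)),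
    pd_mul i (hda y) (hdpb y), pd_mul i (hdb y) (hdpa y)]
  ring

lemma continuous_lap {G : (Fin n → ℝ) → ℝ} (hG : ContDiff ℝ 2 G) : Continuous (lap G) := by
  unfold lap
  refine continuous_finsetSum _ fun i _ => ?_
  have h1 : ContDiff ℝ 1 (pd i G) := contDiff_pd i hG
  exact continuous_pd i h1

lemma tsupport_lap_subset (H : (Fin n → ℝ) → ℝ) : tsupport (lap H) ⊆ tsupport H := by
  apply closure_minimal _ (isClosed_tsupport _)
  intro x hx
  by_contra hx'
  apply hx
  unfold lap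
  apply Finset.sum_eq_zero
  intro i _
  have h2 : x ∉ tsupport (pd i (pd i H)) := fun h =>
    hx' (tsupport_pd_subset i H (tsupport_pd_subset i _ h))
  exact image_eq_zero_of_notMem_tsupport h2

lemma hasCompactSupport_lap {H : (Fin n → ℝ) → ℝ} (h : HasCompactSupport H) :
    HasCompactSupport (lap H) :=
  h.of_isClosed_subset (isClosed_tsupport _) (tsupport_lap_subset H)

end

end Vale.Agent.P100.TS
end
end

section

section

/-! Cutoffs near the origin and the weak formulation through the origin. -/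

open Set Filter MeasureTheory
open scoped ContDiff Topology

namespace Vale.Agent.P100.TS

noncomputable section

variable {n : ℕ}

lemma integrableOn_norm_rpow [NeZero n] {g : ℝ} (hg : g < n) (R : ℝ) :
    IntegrableOn (fun y : Fin n → ℝ => ‖y‖ ^ (-g)) (Metric.ball 0 R) := by
  rcases le_or_gt R 0 with hR | hR
  · rw [Metric.ball_eq_empty.2 hR]; exact integrableOn_empty
  have : Nonempty (Fin n) := ⟨0⟩
  rw [integrableOn_fun_norm_addHaar (volume : Measure (Fin n → ℝ)) (f := fun t : ℝ => t ^ (-g))]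
  have hn : 1 ≤ n := Nat.one_le_iff_ne_zero.2 (NeZero.ne n)
  have hfin : Module.finrank ℝ (Fin n → ℝ) = n := by simp only [Module.finrank_fintype_fun_eq_card, Fintype.card_fin]
  rw [hfin]
  have h1 : IntegrableOn (fun y : ℝ => y ^ ((n : ℝ) - 1 - g)) (Ioo 0 R) := by
    rw [intervalIntegral.integrableOn_Ioo_rpow_iff hR]
    linarith only [hg]
  refine h1.congr_fun ?_ measurableSet_Ioo
  intro y hy
  simp only [smul_eq_mul]
  rw [← Real.rpow_natCast, Nat.cast_sub hn, ← Real.rpow_add hy.1]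
  congr 1
  push_cast
  ring

/-- A fixed bump function. -/
def bmp (n : ℕ) : ContDiffBump (0 : Fin n → ℝ) := ⟨1, 2, one_pos, one_lt_two⟩

/-- Cutoff vanishing near the origin. -/
def chi (n : ℕ) (k : ℕ) (y : Fin n → ℝ) : ℝ := 1 - bmp n (((k : ℝ) + 1) • (y - 0))

lemma contDiff_chi (k : ℕ) {m : ℕ∞} : ContDiff ℝ m (chi n k) := by
  unfold chi
  refine contDiff_const.sub ((bmp n).contDiff.comp ?_)
  exact (contDiff_id.sub contDiff_const).const_smul _

lemma chi_nonneg (k : ℕ) (y : Fin n → ℝ) : 0 ≤ chi n k y := by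
  unfold chi; linarith only [(bmp n).le_one (x := ((k : ℝ) + 1) • (y - 0))]

lemma chi_le_one (k : ℕ) (y : Fin n → ℝ) : chi n k y ≤ 1 := by
  unfold chi; linarith [(bmp n).nonneg (x := ((k : ℝ) + 1) • (y - 0))]

lemma chi_eq_zero {k : ℕ} {y : Fin n → ℝ} (h : ((k : ℝ) + 1) * ‖y‖ ≤ 1) : chi n k y = 0 := by
  unfold chi
  rw [(bmp n).one_of_mem_closedBall, sub_self]
  rw [mem_closedBall_zero_iff, norm_smul, sub_zero, Real.norm_eq_abs,
    abs_of_pos (by positivity : (0 : ℝ) < (k : ℝ) + 1)]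
  exact h

lemma chi_eq_one {k : ℕ} {y : Fin n → ℝ} (h : 2 ≤ ((k : ℝ) + 1) * ‖y‖) : chi n k y = 1 := by
  unfold chi
  rw [(bmp n).zero_of_le_dist, sub_zero]
  rw [dist_zero_right, norm_smul, sub_zero, Real.norm_eq_abs,
    abs_of_pos (by positivity : (0 : ℝ) < (k : ℝ) + 1)]
  exact h

lemma tsupport_chi_mul (k : ℕ) (G : (Fin n → ℝ) → ℝ) :
    tsupport (fun y => chi n k y * G y) ⊆ {0}ᶜ := by
  intro y hy h0
  rw [mem_singleton_iff] at h0
  subst h0
  have : (fun y => chi n k y * G y) =ᶠ[𝓝 0] 0 := by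
    filter_upwards [Metric.ball_mem_nhds (0 : Fin n → ℝ) (by positivity : 0 < 1 / ((k : ℝ) + 1))]
      with y hy
    rw [mem_ball_zero_iff, lt_div_iff₀ (by (clear * -; positivity))] at hy
    rw [chi_eq_zero (by linarith only [hy])]
    simp
  exact notMem_tsupport_iff_eventuallyEq.2 this hy

lemma eventually_big {y : Fin n → ℝ} (hy : y ≠ 0) :
    ∀ᶠ k : ℕ in atTop, 2 < ((k : ℝ) + 1) * ‖y‖ := by
  have h0 : 0 < ‖y‖ := norm_pos_iff.2 hy
  obtain ⟨K, hK⟩ := exists_nat_gt (2 / ‖y‖)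
  filter_upwards [eventually_ge_atTop K] with k hk
  have h1 : (K : ℝ) ≤ k := by exact_mod_cast hk
  rw [div_lt_iff₀ h0] at hK
  nlinarith only [hK, h1]

lemma chi_local_one {k : ℕ} {y : Fin n → ℝ} (h : 2 < ((k : ℝ) + 1) * ‖y‖) :
    chi n k =ᶠ[𝓝 y] fun _ => 1 := by
  have : ∀ᶠ z in 𝓝 y, 2 < ((k : ℝ) + 1) * ‖z‖ :=
    (continuousAt_const.mul continuous_norm.continuousAt).eventually_const_lt h
  filter_upwards [this] with z hz
  exact chi_eq_one hz.le

lemma pd_chi_zero {k : ℕ} {y : Fin n → ℝ} (h : 2 < ((k : ℝ) + 1) * ‖y‖) (i : Fin n) :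
    pd i (chi n k) y = 0 := by
  unfold pd
  rw [(chi_local_one h).fderiv_eq]
  simp only [fderiv_fun_const, Pi.zero_apply, zero_apply]

lemma lap_chi_zero {k : ℕ} {y : Fin n → ℝ} (h : 2 < ((k : ℝ) + 1) * ‖y‖) :
    lap (chi n k) y = 0 := by
  unfold lap
  apply Finset.sum_eq_zero
  intro i _
  have h1 : pd i (chi n k) =ᶠ[𝓝 y] fun _ => 0 := by
    have : ∀ᶠ z in 𝓝 y, 2 < ((k : ℝ) + 1) * ‖z‖ :=
      (continuousAt_const.mul continuous_norm.continuousAt).eventually_const_lt h
    filter_upwards [this] with z hz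
    exact pd_chi_zero hz i
  rw [pd, h1.fderiv_eq]
  simp only [fderiv_fun_const, Pi.zero_apply, zero_apply]

lemma bmp_smooth : ContDiff ℝ 2 (bmp n : (Fin n → ℝ) → ℝ) := (bmp n).contDiff

lemma pd_chi (k : ℕ) (i : Fin n) (y : Fin n → ℝ) :
    pd i (chi n k) y = -(((k : ℝ) + 1) * pd i (bmp n) (((k : ℝ) + 1) • (y - 0))) := by
  have h2 := pd_comp_smul (bmp_smooth (n := n).differentiable (by simp)) i ((k : ℝ) + 1) 0 y
  rw [← h2]
  unfold pd chi
  rw [fderiv_const_sub]
  simp only [sub_zero, neg_apply]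

lemma lap_chi (k : ℕ) (y : Fin n → ℝ) :
    lap (chi n k) y = -(((k : ℝ) + 1) ^ 2 * lap (bmp n) (((k : ℝ) + 1) • (y - 0))) := by
  have h2 := lap_comp_smul (bmp_smooth (n := n)) ((k : ℝ) + 1) 0 y
  rw [← h2]
  unfold lap
  rw [← Finset.sum_neg_distrib]
  refine Finset.sum_congr rfl fun i _ => ?_
  have h3 : pd i (chi n k) = fun y => -(pd i (fun y => bmp n (((k : ℝ) + 1) • (y - 0))) y) := by
    ext z
    unfold pd chi
    rw [fderiv_const_sub]
    simp only [sub_zero, neg_apply]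
  rw [h3]
  unfold pd
  rw [fderiv_fun_neg]
  simp only [sub_zero, neg_apply]

/-- Bound for the derivatives of the cutoffs. -/
lemma exists_chi_bound (n : ℕ) : ∃ C : ℝ, 0 ≤ C ∧ ∀ (k : ℕ) (y : Fin n → ℝ),
    (∀ i, |pd i (chi n k) y| ≤ C * ((k : ℝ) + 1)) ∧ |lap (chi n k) y| ≤ C * ((k : ℝ) + 1) ^ 2 := by
  have hA : ∀ i : Fin n, ∃ C : ℝ, ∀ y, ‖pd i (bmp n) y‖ ≤ C := fun i =>
    (contDiff_pd i (bmp_smooth (n := n))).continuous.bounded_above_of_compact_support
      (hasCompactSupport_pd (bmp n).hasCompactSupport)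
  choose C1 hC1 using hA
  obtain ⟨C2, hC2⟩ := (continuous_lap (bmp_smooth (n := n))).bounded_above_of_compact_support
    (hasCompactSupport_lap (bmp n).hasCompactSupport)
  refine ⟨∑ i, |C1 i| + |C2|, by (clear * -; (clear * -; positivity)), fun k y => ⟨fun i => ?_, ?_⟩⟩
  · rw [pd_chi, abs_neg, abs_mul, abs_of_pos (by (clear * -; positivity) : (0 : ℝ) < (k : ℝ) + 1), mul_comm]
    apply mul_le_mul_of_nonneg_right _ (by positivity)
    have h1 := hC1 i (((k : ℝ) + 1) • (y - 0))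
    rw [Real.norm_eq_abs] at h1
    have h2 : |C1 i| ≤ ∑ i, |C1 i| :=
      Finset.single_le_sum (f := fun i => |C1 i|) (fun _ _ => abs_nonneg _) (Finset.mem_univ i)
    linarith [le_abs_self (C1 i), abs_nonneg C2]
  · rw [lap_chi, abs_neg, abs_mul, abs_of_nonneg (by (clear * -; positivity) : (0 : ℝ) ≤ ((k : ℝ) + 1) ^ 2),
      mul_comm]
    apply mul_le_mul_of_nonneg_right _ (by (clear * -; positivity))
    have h1 := hC2 (((k : ℝ) + 1) • (y - 0))
    rw [Real.norm_eq_abs] at h1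
    have h2 : 0 ≤ ∑ i, |C1 i| := Finset.sum_nonneg fun _ _ => abs_nonneg _
    linarith only [h1, h2, le_abs_self C2]

/-- A function supported in `(k+1)‖y‖ ≤ 2` and bounded by `C (k+1)^2` there is dominated by an
integrable function, uniformly in `k`. -/
lemma tendsto_integral_cut [NeZero n] (hn : 3 ≤ n) {r : ℕ → (Fin n → ℝ) → ℝ} {C : ℝ}
    (hm : ∀ k, AEStronglyMeasurable (r k) volume)
    (h0 : ∀ (k : ℕ) y, 2 < ((k : ℝ) + 1) * ‖y‖ → r k y = 0)
    (hb : ∀ (k : ℕ) y, |r k y| ≤ C * ((k : ℝ) + 1) ^ 2) :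
    Tendsto (fun k => ∫ y, r k y) atTop (𝓝 0) := by
  have hC : 0 ≤ C := by
    have := (abs_nonneg _).trans (hb 0 0)
    simpa only [ge_iff_le, CharP.cast_eq_zero, zero_add, one_pow, mul_one] using this
  have hn' : (2 : ℝ) < n := by exact_mod_cast hn
  have hint : Integrable (fun y : Fin n → ℝ => (Metric.ball (0 : Fin n → ℝ) 3).indicator
      (fun y => 4 * C * ‖y‖ ^ (-(2 : ℝ))) y) := by
    rw [integrable_indicator_iff measurableSet_ball]
    exact (integrableOn_norm_rpow hn' 3).const_mul _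
  have := tendsto_integral_of_dominated_convergence (μ := volume) (F := r) (f := fun _ => (0 : ℝ))
    _ hm hint (by
      intro k
      have hne : ∀ᵐ y : Fin n → ℝ, y ≠ 0 := by
        rw [ae_iff]; simp
      filter_upwards [hne] with y hy
      rw [Real.norm_eq_abs]
      have hy0 : 0 < ‖y‖ := norm_pos_iff.2 hy
      by_cases hk : 2 < ((k : ℝ) + 1) * ‖y‖
      · rw [h0 k y hk, abs_zero]
        apply indicator_nonneg
        intro z _
        (clear * - hC; (clear * - hC; positivity))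
      · rw [not_lt] at hk
        have hball : y ∈ Metric.ball (0 : Fin n → ℝ) 3 := by
          rw [mem_ball_zero_iff]
          have : (1 : ℝ) ≤ (k : ℝ) + 1 := by linarith only []
          nlinarith only [hk]
        rw [indicator_of_mem hball]
        refine (hb k y).trans ?_
        have h1 : ((k : ℝ) + 1) ^ 2 ≤ 4 * ‖y‖ ^ (-(2 : ℝ)) := by
          rw [Real.rpow_neg hy0.le, ← div_eq_mul_inv, le_div_iff₀ (by positivity)]
          have h2 : (((k : ℝ) + 1) * ‖y‖) ^ 2 ≤ 2 ^ 2 := by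
            apply pow_le_pow_left₀ (by (clear * - hy; positivity)) hk
          calc ((k : ℝ) + 1) ^ 2 * ‖y‖ ^ (2 : ℝ) = (((k : ℝ) + 1) * ‖y‖) ^ 2 := by
                rw [mul_pow]; norm_num
            _ ≤ 2 ^ 2 := h2
            _ = 4 := by norm_num
        calc C * ((k : ℝ) + 1) ^ 2 ≤ C * (4 * ‖y‖ ^ (-(2 : ℝ))) := by (clear * - h1 hC; gcongr)
          _ = 4 * C * ‖y‖ ^ (-(2 : ℝ)) := by ring)
    (by
      have hne : ∀ᵐ y : Fin n → ℝ, y ≠ 0 := by
        rw [ae_iff]; simp
      filter_upwards [hne] with y hy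
      apply tendsto_const_nhds.congr'
      filter_upwards [eventually_big hy] with k hk
      exact (h0 k y hk).symm)
  simpa only [integral_zero] using this

/-- Weak formulation through the origin. -/
lemma weak [NeZero n] (hn : 3 ≤ n) {u f : (Fin n → ℝ) → ℝ} (huc : Continuous u)
    (hu : ContDiffOn ℝ 2 u {0}ᶜ) (hf : ∀ y, y ≠ 0 → lap u y = - f y) (hfi : LocallyIntegrable f)
    {G : (Fin n → ℝ) → ℝ} (hG : ContDiff ℝ 2 G) (hGc : HasCompactSupport G) :
    ∫ y, u y * lap G y = - ∫ y, f y * G y := by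
  have hne : ∀ᵐ y : Fin n → ℝ, y ≠ 0 := by
    rw [ae_iff]; simp
  -- Green for the cut off function
  have hgreen : ∀ k : ℕ, ∫ y, u y * lap (fun y => chi n k y * G y) y =
      - ∫ y, chi n k y * (f y * G y) := by
    intro k
    rw [green huc hu ((contDiff_chi k (m := 2)).mul hG) (hGc.mul_left) (tsupport_chi_mul k G),
      ← integral_neg]
    apply integral_congr_ae
    filter_upwards [hne] with y hy
    rw [hf y hy]
    ring
  have hGd : ∀ i, ContDiff ℝ 1 (pd i G) := fun i => contDiff_pd i hG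
  have hlapG := continuous_lap hG
  have hchi2 : ∀ k, ContDiff ℝ 2 (chi n k) := fun k => contDiff_chi k (m := 2)
  have hI1 : ∀ k : ℕ, Integrable (fun y => chi n k y * (u y * lap G y)) := fun k =>
    ((hchi2 k).continuous.mul (huc.mul hlapG)).integrable_of_hasCompactSupport
      ((hasCompactSupport_lap hGc).mul_left.mul_left)
  set r : ℕ → (Fin n → ℝ) → ℝ := fun k y =>
    u y * (2 * ∑ i, pd i (chi n k) y * pd i G y + G y * lap (chi n k) y) with hr
  have hrc : ∀ k, Continuous (r k) := fun k =>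
    huc.mul ((continuous_const.mul (continuous_finsetSum _ fun i _ =>
      (contDiff_pd i (hchi2 k)).continuous.mul (hGd i).continuous)).add
      (hG.continuous.mul (continuous_lap (hchi2 k))))
  have hrs : ∀ k, HasCompactSupport (r k) := by
    intro k
    apply HasCompactSupport.mul_left
    apply HasCompactSupport.intro hGc.isCompact
    intro y hy
    have h1 : G y = 0 := image_eq_zero_of_notMem_tsupport hy
    have h2 : ∀ i, pd i G y = 0 := fun i =>
      image_eq_zero_of_notMem_tsupport (fun h => hy (tsupport_pd_subset i G h))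
    simp [h1, h2]
  have hsplit : ∀ k : ℕ, ∫ y, u y * lap (fun y => chi n k y * G y) y =
      (∫ y, chi n k y * (u y * lap G y)) + ∫ y, r k y := by
    intro k
    rw [← integral_add (hI1 k) ((hrc k).integrable_of_hasCompactSupport (hrs k))]
    congr 1
    ext y
    rw [lap_mul (hchi2 k) hG, hr]
    ring
  -- limits
  have hL1 : Tendsto (fun k => ∫ y, chi n k y * (u y * lap G y)) atTop
      (𝓝 (∫ y, u y * lap G y)) := by
    have hi : Integrable (fun y => u y * lap G y) :=
      (huc.mul hlapG).integrable_of_hasCompactSupport ((hasCompactSupport_lap hGc).mul_left)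
    apply tendsto_integral_of_dominated_convergence _ (fun k => (hI1 k).aestronglyMeasurable)
      hi.norm
    · intro k
      filter_upwards with y
      rw [norm_mul, Real.norm_eq_abs, abs_of_nonneg (chi_nonneg k y)]
      exact mul_le_of_le_one_left (norm_nonneg _) (chi_le_one k y)
    · filter_upwards [hne] with y hy
      apply tendsto_const_nhds.congr'
      filter_upwards [eventually_big hy] with k hk
      rw [chi_eq_one hk.le, one_mul]
  have hL3 : Tendsto (fun k => ∫ y, chi n k y * (f y * G y)) atTop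
      (𝓝 (∫ y, f y * G y)) := by
    have hi : Integrable (fun y => f y * G y) := by
      have := hfi.integrable_smul_right_of_hasCompactSupport hG.continuous hGc
      simpa only [smul_eq_mul] using this
    apply tendsto_integral_of_dominated_convergence (F := fun k y => chi n k y * (f y * G y)) _
      (fun k => ((hchi2 k).continuous.aestronglyMeasurable.mul hi.aestronglyMeasurable)) hi.norm
    · intro k
      filter_upwards with y
      rw [norm_mul, Real.norm_eq_abs, abs_of_nonneg (chi_nonneg k y)]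
      exact mul_le_of_le_one_left (norm_nonneg _) (chi_le_one k y)
    · filter_upwards [hne] with y hy
      apply tendsto_const_nhds.congr'
      filter_upwards [eventually_big hy] with k hk
      rw [chi_eq_one hk.le, one_mul]
  have hL2 : Tendsto (fun k => ∫ y, r k y) atTop (𝓝 0) := by
    obtain ⟨C, hC0, hC⟩ := exists_chi_bound n
    obtain ⟨Cu, hCu⟩ := (isCompact_closedBall (0 : Fin n → ℝ) 2).exists_bound_of_continuousOn
      huc.continuousOn
    obtain ⟨CG, hCG⟩ := hG.continuous.bounded_above_of_compact_support hGc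
    have hA : ∀ i : Fin n, ∃ C : ℝ, ∀ y, ‖pd i G y‖ ≤ C := fun i =>
      (hGd i).continuous.bounded_above_of_compact_support (hasCompactSupport_pd hGc)
    choose C1 hC1 using hA
    have hzero : ∀ (k : ℕ) y, 2 < ((k : ℝ) + 1) * ‖y‖ → r k y = 0 := by
      intro k y hk
      have h1 := lap_chi_zero hk
      have h2 := pd_chi_zero hk
      simp only [hr, h2, zero_mul, Finset.sum_const_zero, mul_zero, h1, add_zero]
    have hCu0 : 0 ≤ Cu := (norm_nonneg _).trans (hCu 0 (by simp only [Metric.mem_closedBall, dist_self, Nat.ofNat_nonneg]))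
    have hCG0 : 0 ≤ CG := (norm_nonneg _).trans (hCG 0)
    refine tendsto_integral_cut hn (C := Cu * (2 * ∑ i, C * C1 i + CG * C))
      (fun k => (hrc k).aestronglyMeasurable) hzero ?_
    intro k y
    have hk1 : (1 : ℝ) ≤ (k : ℝ) + 1 := by linarith only []
    have hC10 : ∀ i, 0 ≤ C1 i := fun i => (norm_nonneg _).trans (hC1 i 0)
    by_cases hk : 2 < ((k : ℝ) + 1) * ‖y‖
    · rw [hzero k y hk, abs_zero]
      have : 0 ≤ ∑ i, C * C1 i := Finset.sum_nonneg fun i _ => mul_nonneg hC0 (hC10 i)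
      (clear * - hCu0 this hCG0 hC0; positivity)
    · rw [not_lt] at hk
      have hy : ‖y‖ ≤ 2 := by nlinarith only [hk]
      have hu' : |u y| ≤ Cu := by
        have := hCu y (by rwa [mem_closedBall_zero_iff])
        rwa [Real.norm_eq_abs] at this
      have hsum : |∑ i, pd i (chi n k) y * pd i G y| ≤ (∑ i, C * C1 i) * ((k : ℝ) + 1) ^ 2 := by
        refine (Finset.abs_sum_le_sum_abs _ _).trans ?_
        rw [Finset.sum_mul]
        apply Finset.sum_le_sum
        intro i _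
        rw [abs_mul]
        have h1 := (hC k y).1 i
        have h2 := hC1 i y
        rw [Real.norm_eq_abs] at h2
        calc |pd i (chi n k) y| * |pd i G y| ≤ (C * ((k : ℝ) + 1)) * C1 i := by (clear * - h1 h2 hC0; gcongr)
          _ = C * C1 i * ((k : ℝ) + 1) := by ring
          _ ≤ C * C1 i * ((k : ℝ) + 1) ^ 2 := by
            apply mul_le_mul_of_nonneg_left _ (mul_nonneg hC0 (hC10 i))
            nlinarith only []
      have hGl : |G y * lap (chi n k) y| ≤ CG * C * ((k : ℝ) + 1) ^ 2 := by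
        rw [abs_mul]
        have h1 := (hC k y).2
        have h2 := hCG y
        rw [Real.norm_eq_abs] at h2
        calc |G y| * |lap (chi n k) y| ≤ CG * (C * ((k : ℝ) + 1) ^ 2) := by (clear * - h2 h1 hCG0; gcongr)
          _ = _ := by ring
      rw [hr]
      simp only
      rw [abs_mul, mul_assoc]
      apply mul_le_mul hu' _ (abs_nonneg _) hCu0
      refine (abs_add_le _ _).trans ?_
      rw [abs_mul, abs_two, add_mul]
      have := mul_le_mul_of_nonneg_left hsum (zero_le_two (α := ℝ))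
      linarith only [hsum, hGl]
  have hlim : Tendsto (fun k => ∫ y, u y * lap (fun y => chi n k y * G y) y) atTop
      (𝓝 ((∫ y, u y * lap G y) + 0)) := by
    simp_rw [hsplit]
    exact hL1.add hL2
  have hlim2 : Tendsto (fun k => ∫ y, u y * lap (fun y => chi n k y * G y) y) atTop
      (𝓝 (- ∫ y, f y * G y)) := by
    simp_rw [hgreen]
    exact hL3.neg
  have := tendsto_nhds_unique hlim hlim2
  rw [add_zero] at this
  exact this

end

end Vale.Agent.P100.TS
end
end

section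

section

/-! The representation identity: averages at two scales differ by a potential. -/

open Set Filter MeasureTheory
open scoped ContDiff Topology

namespace Vale.Agent.P100.TS

noncomputable section

variable {n : ℕ}

/-- Derivative in the scale of the scaled kernel. -/
lemma hasDerivAt_scale {P : (Fin n → ℝ) → ℝ} (hP : Differentiable ℝ P) (a : ℕ)
    (w : Fin n → ℝ) {s : ℝ} (hs : 0 < s) :
    HasDerivAt (fun s : ℝ => (s ^ a)⁻¹ * P (s⁻¹ • w))
      ((s ^ (a + 1))⁻¹ * (-(a : ℝ) * P (s⁻¹ • w) - fderiv ℝ P (s⁻¹ • w) (s⁻¹ • w))) s := by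
  have h1 : HasDerivAt (fun s : ℝ => s⁻¹ • w) ((-(s ^ 2)⁻¹) • w) s :=
    (hasDerivAt_inv hs.ne').smul_const w
  have h2 : HasDerivAt (fun s : ℝ => P (s⁻¹ • w)) (fderiv ℝ P (s⁻¹ • w) ((-(s ^ 2)⁻¹) • w)) s :=
    ((hP _).hasFDerivAt).comp_hasDerivAt s h1
  have h3 : HasDerivAt (fun s : ℝ => (s ^ a)⁻¹) (-((a : ℝ) * s ^ (a - 1)) / (s ^ a) ^ 2) s :=
    (hasDerivAt_pow a s).inv (pow_ne_zero _ hs.ne')
  refine (h3.mul h2).congr_deriv ?_
  rw [map_smul, map_smul, smul_eq_mul, smul_eq_mul]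
  rcases a with _ | a
  · simp only [CharP.cast_eq_zero, zero_tsub, pow_zero, mul_one, neg_zero, one_pow, div_one, zero_mul, inv_one, neg_mul, mul_neg, one_mul, zero_add, pow_one, zero_sub, neg_inj]
    field_simp
  · simp only [Nat.add_sub_cancel]
    push_cast
    field_simp
    ring

/-- The representation identity. -/
lemma rep_identity [NeZero n] {u f Θ P : (Fin n → ℝ) → ℝ} (huc : Continuous u)
    (hweak : ∀ G : (Fin n → ℝ) → ℝ, ContDiff ℝ 2 G → HasCompactSupport G →
      ∫ y, u y * lap G y = - ∫ y, f y * G y)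
    (hΘ : ContDiff ℝ 2 Θ) (hΘc : HasCompactSupport Θ) (hP : ContDiff ℝ 1 P)
    (hPc : HasCompactSupport P) (a : ℕ)
    (hrel : ∀ z, lap Θ z = -(a : ℝ) * P z - fderiv ℝ P z z)
    (x : Fin n → ℝ) {δ h : ℝ} (hδ : 0 < δ) (hδh : δ ≤ h) :
    IntervalIntegrable (fun s : ℝ => (s ^ (a + 1))⁻¹ *
      (s ^ 2 * ∫ y, f y * Θ (s⁻¹ • (y - x)))) volume δ h ∧
    (∫ y, (h ^ a)⁻¹ * P (h⁻¹ • (y - x)) * u y) - (∫ y, (δ ^ a)⁻¹ * P (δ⁻¹ • (y - x)) * u y) =
      - ∫ s in δ..h, (s ^ (a + 1))⁻¹ * (s ^ 2 * ∫ y, f y * Θ (s⁻¹ • (y - x))) := by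
  have hh : 0 < h := lt_of_lt_of_le hδ hδh
  have hPd : Differentiable ℝ P := hP.differentiable (by simp)
  -- FTC
  have hftc : ∀ y : Fin n → ℝ, (h ^ a)⁻¹ * P (h⁻¹ • (y - x)) - (δ ^ a)⁻¹ * P (δ⁻¹ • (y - x)) =
      ∫ s in δ..h, (s ^ (a + 1))⁻¹ * lap Θ (s⁻¹ • (y - x)) := by
    intro y
    have hpos : ∀ s ∈ uIcc δ h, 0 < s := by
      intro s hs
      rw [uIcc_of_le hδh] at hs
      exact lt_of_lt_of_le hδ hs.1
    rw [intervalIntegral.integral_eq_sub_of_hasDerivAt
      (f := fun s => (s ^ a)⁻¹ * P (s⁻¹ • (y - x)))]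
    · intro s hs
      have := hasDerivAt_scale hPd a (y - x) (hpos s hs)
      rw [← hrel] at this
      exact this
    · apply ContinuousOn.intervalIntegrable
      intro s hs
      have hs0 := hpos s hs
      apply ContinuousAt.continuousWithinAt
      have h1 : ContinuousAt (fun s : ℝ => s⁻¹ • (y - x)) s :=
        (continuousAt_inv₀ hs0.ne').smul continuousAt_const
      exact ((continuousAt_id.pow _).inv₀ (pow_ne_zero _ hs0.ne')).mul
        ((continuous_lap hΘ).continuousAt.comp h1)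
  -- Weak identity at scale s
  have hsc : ∀ s : ℝ, 0 < s → ∫ y, lap Θ (s⁻¹ • (y - x)) * u y =
      -(s ^ 2 * ∫ y, f y * Θ (s⁻¹ • (y - x))) := by
    intro s hs
    have hG : ContDiff ℝ 2 (fun y : Fin n → ℝ => Θ (s⁻¹ • (y - x))) :=
      hΘ.comp ((contDiff_id.sub contDiff_const).const_smul _)
    have hGc : HasCompactSupport (fun y : Fin n → ℝ => Θ (s⁻¹ • (y - x))) := by
      have he : (fun y : Fin n → ℝ => Θ (s⁻¹ • (y - x))) =
          Θ ∘ ((Homeomorph.addRight (-x)).trans (Homeomorph.smulOfNeZero s⁻¹ (inv_ne_zero hs.ne'))) := by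
        ext y; simp only [sub_eq_add_neg, smul_add, smul_neg, Function.comp_apply, Homeomorph.trans_apply, Homeomorph.coe_addRight, Homeomorph.smulOfNeZero_apply]
      rw [he]
      exact hΘc.comp_homeomorph _
    have hw := hweak _ hG hGc
    have h1 : ∀ y, u y * lap (fun y : Fin n → ℝ => Θ (s⁻¹ • (y - x))) y =
        (s ^ 2)⁻¹ * (lap Θ (s⁻¹ • (y - x)) * u y) := by
      intro y
      rw [lap_comp_smul hΘ, inv_pow]
      ring
    simp_rw [h1] at hw
    rw [integral_const_mul] at hw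
    have hs2 : s ^ 2 ≠ 0 := pow_ne_zero _ hs.ne'
    calc ∫ y, lap Θ (s⁻¹ • (y - x)) * u y
        = s ^ 2 * ((s ^ 2)⁻¹ * ∫ y, lap Θ (s⁻¹ • (y - x)) * u y) := by
          rw [← mul_assoc, mul_inv_cancel₀ hs2, one_mul]
      _ = _ := by rw [hw]; ring
  -- Fubini
  obtain ⟨R, hR⟩ := (hasCompactSupport_lap hΘc).isCompact.isBounded.subset_closedBall
    (0 : Fin n → ℝ)
  have hR' : ∀ z : Fin n → ℝ, R < ‖z‖ → lap Θ z = 0 := by
    intro z hz
    apply image_eq_zero_of_notMem_tsupport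
    intro hz'
    have := hR hz'
    rw [mem_closedBall_zero_iff] at this
    linarith only [hz, this]
  have hint : Integrable (Function.uncurry fun (s : ℝ) (y : Fin n → ℝ) =>
      (s ^ (a + 1))⁻¹ * lap Θ (s⁻¹ • (y - x)) * u y) ((volume.restrict (uIoc δ h)).prod volume) := by
    rw [uIoc_of_le hδh]
    have hprod : (volume.restrict (Ioc δ h)).prod (volume : Measure (Fin n → ℝ)) =
        ((volume : Measure ℝ).prod (volume : Measure (Fin n → ℝ))).restrict (Ioc δ h ×ˢ univ) := by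
      rw [← Measure.prod_restrict, Measure.restrict_univ]
    rw [hprod]
    change IntegrableOn _ _ _
    have hcomp : IntegrableOn (Function.uncurry fun (s : ℝ) (y : Fin n → ℝ) =>
        (s ^ (a + 1))⁻¹ * lap Θ (s⁻¹ • (y - x)) * u y)
        (Icc δ h ×ˢ Metric.closedBall x (h * |R|)) ((volume : Measure ℝ).prod volume) := by
      apply ContinuousOn.integrableOn_compact
      · exact isCompact_Icc.prod (isCompact_closedBall _ _)
      · rintro ⟨s, y⟩ ⟨hs, -⟩
        have hs0 : 0 < s := lt_of_lt_of_le hδ hs.1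
        apply ContinuousAt.continuousWithinAt
        have c1 : ContinuousAt (fun q : ℝ × (Fin n → ℝ) => q.1) (s, y) := continuousAt_fst
        have c2 : ContinuousAt (fun q : ℝ × (Fin n → ℝ) => q.2) (s, y) := continuousAt_snd
        have c3 : ContinuousAt (fun q : ℝ × (Fin n → ℝ) => q.1⁻¹ • (q.2 - x)) (s, y) :=
          (c1.inv₀ hs0.ne').smul (c2.sub continuousAt_const)
        have c4 : ContinuousAt (fun q : ℝ × (Fin n → ℝ) => lap Θ (q.1⁻¹ • (q.2 - x))) (s, y) :=
          ContinuousAt.comp (f := fun q : ℝ × (Fin n → ℝ) => q.1⁻¹ • (q.2 - x))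
            (continuous_lap hΘ).continuousAt c3
        have c5 : ContinuousAt (fun q : ℝ × (Fin n → ℝ) => u q.2) (s, y) :=
          ContinuousAt.comp (f := fun q : ℝ × (Fin n → ℝ) => q.2) huc.continuousAt c2
        exact (((c1.pow _).inv₀ (pow_ne_zero _ hs0.ne')).mul c4).mul c5
    apply (hcomp.of_forall_sdiff_eq_zero (measurableSet_Ioc.prod MeasurableSet.univ))
    rintro ⟨s, y⟩ ⟨⟨hs, -⟩, hns⟩
    have hs0 : 0 < s := lt_trans hδ hs.1
    have hy : h * |R| < ‖y - x‖ := by
      by_contra hle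
      rw [not_lt] at hle
      exact hns ⟨⟨hs.1.le, hs.2⟩, by rwa [Metric.mem_closedBall, dist_eq_norm]⟩
    have : lap Θ (s⁻¹ • (y - x)) = 0 := by
      apply hR'
      rw [norm_smul, norm_inv, Real.norm_eq_abs, abs_of_pos hs0, inv_mul_eq_div,
        lt_div_iff₀ hs0]
      calc R * s ≤ |R| * h := by
            apply mul_le_mul (le_abs_self R) hs.2 hs0.le (abs_nonneg _)
        _ = h * |R| := mul_comm _ _
        _ < _ := hy
    simp [Function.uncurry, this]
  have hswap := intervalIntegral_integral_swap (μ := (volume : Measure (Fin n → ℝ))) hint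
  -- integrability of the two averages
  have hI : ∀ r : ℝ, 0 < r → Integrable (fun y => (r ^ a)⁻¹ * P (r⁻¹ • (y - x)) * u y) := by
    intro r hr
    have hc1 : Continuous (fun y : Fin n → ℝ => P (r⁻¹ • (y - x))) :=
      hP.continuous.comp (by (clear * -; fun_prop))
    have hc2 : HasCompactSupport (fun y : Fin n → ℝ => P (r⁻¹ • (y - x))) := by
      have he : (fun y : Fin n → ℝ => P (r⁻¹ • (y - x))) =
          P ∘ ((Homeomorph.addRight (-x)).trans (Homeomorph.smulOfNeZero r⁻¹ (inv_ne_zero hr.ne'))) := by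
        ext y; simp only [sub_eq_add_neg, smul_add, smul_neg, Function.comp_apply, Homeomorph.trans_apply, Homeomorph.coe_addRight, Homeomorph.smulOfNeZero_apply]
      rw [he]
      exact hPc.comp_homeomorph _
    exact ((continuous_const.mul hc1).mul huc).integrable_of_hasCompactSupport
      (hc2.mul_left.mul_right)
  constructor
  · have h1 : Integrable (fun s : ℝ => ∫ y, (s ^ (a + 1))⁻¹ * lap Θ (s⁻¹ • (y - x)) * u y)
        (volume.restrict (uIoc δ h)) := hint.integral_prod_left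
    have h2 : IntervalIntegrable (fun s : ℝ => ∫ y, (s ^ (a + 1))⁻¹ * lap Θ (s⁻¹ • (y - x)) * u y)
        volume δ h := intervalIntegrable_iff.2 h1
    refine (h2.neg).congr ?_
    intro s hs
    rw [uIoc_of_le hδh] at hs
    have hs0 : 0 < s := lt_trans hδ hs.1
    simp only [Pi.neg_apply]
    simp_rw [mul_assoc]
    rw [integral_const_mul, hsc s hs0]
    ring
  rw [← integral_sub (hI h hh) (hI δ hδ)]
  have e1 : ∀ y, (h ^ a)⁻¹ * P (h⁻¹ • (y - x)) * u y - (δ ^ a)⁻¹ * P (δ⁻¹ • (y - x)) * u y =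
      ∫ s in δ..h, (s ^ (a + 1))⁻¹ * lap Θ (s⁻¹ • (y - x)) * u y := by
    intro y
    rw [intervalIntegral.integral_mul_const, ← hftc y]
    ring
  simp_rw [e1]
  rw [← hswap, ← intervalIntegral.integral_neg]
  apply intervalIntegral.integral_congr
  intro s hs
  rw [uIcc_of_le hδh] at hs
  have hs0 : 0 < s := lt_of_lt_of_le hδ hs.1
  simp only
  simp_rw [mul_assoc]
  rw [integral_const_mul, hsc s hs0]
  ring

end

end Vale.Agent.P100.TS
end
end

section

section

/-! Pointwise bounds by potentials. -/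

open Set Filter MeasureTheory
open scoped ContDiff Topology ENNReal

namespace Vale.Agent.P100.TS

noncomputable section

variable {n : ℕ}

/-- Euclidean norm. -/
def en (x : Fin n → ℝ) : ℝ := Real.sqrt (nsq x)

lemma en_nonneg (x : Fin n → ℝ) : 0 ≤ en x := Real.sqrt_nonneg _

lemma en_sq (x : Fin n → ℝ) : en x ^ 2 = nsq x := Real.sq_sqrt (nsq_nonneg x)

lemma continuous_en : Continuous (en (n := n)) := continuous_nsq.sqrt

lemma nsq_pos {x : Fin n → ℝ} (hx : x ≠ 0) : 0 < nsq x := by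
  have h1 : 0 < ‖x‖ := norm_pos_iff.2 hx
  exact lt_of_lt_of_le (by positivity) (norm_sq_le_nsq x)

lemma en_pos {x : Fin n → ℝ} (hx : x ≠ 0) : 0 < en x := Real.sqrt_pos.2 (nsq_pos hx)

lemma norm_le_en (x : Fin n → ℝ) : ‖x‖ ≤ en x := Real.le_sqrt_of_sq_le (norm_sq_le_nsq x)

lemma inner_kernel {a : ℕ} (ha : 3 ≤ a) {r δ h : ℝ} (hr : 0 < r) (hδ : 0 < δ) :
    ∫⁻ s in Ioc δ h, ENNReal.ofReal ((s ^ (a + 1))⁻¹ * s ^ 2) *
      (if r ^ 2 < s ^ 2 then 1 else 0) ≤
      (if r ^ 2 < h ^ 2 then 1 else 0) * ENNReal.ofReal (r ^ (-((a : ℝ) - 2))) := by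
  have ha' : (3 : ℝ) ≤ a := by exact_mod_cast ha
  by_cases hrh : r ^ 2 < h ^ 2
  · rw [if_pos hrh, one_mul]
    have h1 : ∫⁻ s in Ioc δ h, ENNReal.ofReal ((s ^ (a + 1))⁻¹ * s ^ 2) *
        (if r ^ 2 < s ^ 2 then 1 else 0) ≤ ∫⁻ s in Ioi r, ENNReal.ofReal (s ^ (1 - (a : ℝ))) := by
      rw [← lintegral_indicator measurableSet_Ioc, ← lintegral_indicator measurableSet_Ioi]
      apply lintegral_mono
      intro s
      by_cases hs : s ∈ Ioc δ h
      · have hs0 : 0 < s := lt_trans hδ hs.1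
        rw [indicator_of_mem hs]
        by_cases hrs : r ^ 2 < s ^ 2
        · have hrs' : r < s := lt_of_pow_lt_pow_left₀ 2 hs0.le hrs
          rw [indicator_of_mem (mem_Ioi.2 hrs'), if_pos hrs, mul_one]
          apply le_of_eq
          congr 1
          rw [← Real.rpow_natCast, ← Real.rpow_natCast, ← Real.rpow_neg hs0.le,
            ← Real.rpow_add hs0]
          congr 1
          push_cast
          ring
        · rw [if_neg hrs, mul_zero]
          exact zero_le
      · rw [indicator_of_notMem hs]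
        exact zero_le
    refine h1.trans ?_
    have hint : IntegrableOn (fun s : ℝ => s ^ (1 - (a : ℝ))) (Ioi r) :=
      integrableOn_Ioi_rpow_of_lt (by linarith only [ha']) hr
    rw [← ofReal_integral_eq_lintegral_ofReal hint]
    · apply ENNReal.ofReal_le_ofReal
      rw [integral_Ioi_rpow_of_lt (by linarith only [ha']) hr]
      have e1 : 1 - (a : ℝ) + 1 = -((a : ℝ) - 2) := by ring
      rw [e1, neg_div_neg_eq]
      apply div_le_self (Real.rpow_nonneg hr.le _)
      linarith only [ha']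
    · filter_upwards [ae_restrict_mem measurableSet_Ioi] with s hs
      exact Real.rpow_nonneg (hr.trans hs).le _
  · rw [if_neg hrh, zero_mul, nonpos_iff_eq_zero]
    rw [setLIntegral_congr_fun (g := fun _ => 0) measurableSet_Ioc, lintegral_zero]
    intro s hs
    have hs0 : 0 < s := lt_trans hδ hs.1
    have : ¬ r ^ 2 < s ^ 2 := by
      rw [not_lt] at hrh ⊢
      refine le_trans ?_ hrh
      exact pow_le_pow_left₀ hs0.le hs.2 2
    simp only [this, ↓reduceIte, mul_zero]

/-- The potential part is bounded by a Riesz potential. -/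
lemma potential_bound [NeZero n] {f Θ : (Fin n → ℝ) → ℝ} (hf : Measurable f)
    (hΘ1 : ∀ z, |Θ z| ≤ 1) (hΘ0 : ∀ z, 1 ≤ nsq z → Θ z = 0)
    {a : ℕ} (ha : 3 ≤ a) (x : Fin n → ℝ) {δ h : ℝ} (hδ : 0 < δ) (hδh : δ ≤ h) :
    ‖∫ s in δ..h, (s ^ (a + 1))⁻¹ * (s ^ 2 * ∫ y, f y * Θ (s⁻¹ • (y - x)))‖ₑ ≤
      ∫⁻ y in {y | nsq (y - x) < h ^ 2},
        ENNReal.ofReal (en (y - x) ^ (-((a : ℝ) - 2))) * ‖f y‖ₑ := by
  rw [intervalIntegral.integral_of_le hδh]
  refine (enorm_integral_le_lintegral_enorm _).trans ?_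
  have h1 : ∀ s ∈ Ioc δ h, ‖(s ^ (a + 1))⁻¹ * (s ^ 2 * ∫ y, f y * Θ (s⁻¹ • (y - x)))‖ₑ ≤
      ∫⁻ y, ENNReal.ofReal ((s ^ (a + 1))⁻¹ * s ^ 2) *
        (if nsq (y - x) < s ^ 2 then 1 else 0) * ‖f y‖ₑ := by
    intro s hs
    have hs0 : 0 < s := lt_trans hδ hs.1
    rw [← mul_assoc, enorm_mul, Real.enorm_of_nonneg (by (clear * - hs0; positivity))]
    simp_rw [mul_assoc]
    rw [lintegral_const_mul' _ _ ENNReal.ofReal_ne_top]
    gcongr
    refine (enorm_integral_le_lintegral_enorm _).trans ?_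
    apply lintegral_mono
    intro y
    simp only
    rw [enorm_mul]
    by_cases hy : nsq (y - x) < s ^ 2
    · rw [if_pos hy, one_mul]
      apply mul_le_of_le_one_right zero_le
      rw [Real.enorm_eq_ofReal_abs, ← ENNReal.ofReal_one]
      exact ENNReal.ofReal_le_ofReal (hΘ1 _)
    · rw [hΘ0]
      · simp
      · rw [nsq_smul, inv_pow, inv_mul_eq_div, le_div_iff₀ (by (clear * - hs0; positivity)), one_mul]
        exact not_lt.1 hy
  refine (setLIntegral_mono' measurableSet_Ioc h1).trans ?_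
  rw [lintegral_lintegral_swap]
  · have hms : MeasurableSet {y : Fin n → ℝ | nsq (y - x) < h ^ 2} :=
      measurableSet_lt (continuous_nsq.comp (continuous_id.sub continuous_const)).measurable
        measurable_const
    rw [← lintegral_indicator hms]
    apply lintegral_mono_ae
    have hne : ∀ᵐ y : Fin n → ℝ, y ≠ x := by
      rw [ae_iff]; simp
    filter_upwards [hne] with y hy
    rw [lintegral_mul_const'' _ (by
      apply Measurable.aemeasurable
      apply Measurable.mul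
      · (clear * -; fun_prop)
      · exact Measurable.ite (measurableSet_lt measurable_const (by fun_prop))
          measurable_const measurable_const)]
    have hr : 0 < en (y - x) := en_pos (sub_ne_zero.2 hy)
    have h2 := inner_kernel ha (h := h) hr hδ
    rw [en_sq] at h2
    refine (mul_le_mul_left h2 _).trans ?_
    by_cases hyh : nsq (y - x) < h ^ 2
    · rw [if_pos hyh, indicator_of_mem (by exact hyh), one_mul]
    · rw [if_neg hyh, zero_mul, zero_mul]
      exact zero_le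
  · apply Measurable.aemeasurable
    apply Measurable.mul
    · apply Measurable.mul
      · (clear * -; (clear * -; fun_prop))
      · refine Measurable.ite (measurableSet_lt ?_ (by fun_prop)) measurable_const measurable_const
        exact (continuous_nsq.measurable).comp ((measurable_snd).sub measurable_const)
    · exact (hf.comp measurable_snd).enorm

/-- The mass of the radial kernel. -/
def cR (n : ℕ) : ℝ := ∫ z : Fin n → ℝ, Rk 3 z

lemma cR_pos (n : ℕ) : 0 < cR n := by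
  apply (continuous_Rk 3).integral_pos_of_hasCompactSupport_nonneg_nonzero
    (hasCompactSupport_Rk 2) (fun z => Rk_nonneg 3 z) (x := 0)
  unfold Rk tp nsq
  simp only [Pi.zero_apply, ne_eq, OfNat.ofNat_ne_zero, not_false_eq_true, zero_pow, Finset.sum_const_zero, sub_zero, zero_le_one, sup_of_le_left, one_pow, one_ne_zero]

lemma integral_scaled (g : (Fin n → ℝ) → ℝ) (x : Fin n → ℝ) {δ : ℝ} (hδ : 0 < δ) :
    ∫ y, (δ ^ n)⁻¹ * g (δ⁻¹ • (y - x)) = ∫ z, g z := by
  have h1 := integral_sub_right_eq_self (μ := (volume : Measure (Fin n → ℝ)))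
    (fun y => (δ ^ n)⁻¹ * g (δ⁻¹ • y)) x
  rw [h1, integral_const_mul, Measure.integral_comp_inv_smul, Module.finrank_fin_fun,
    abs_of_pos (by positivity), smul_eq_mul, ← mul_assoc, inv_mul_cancel₀ (by positivity), one_mul]

/-- Approximate identity. -/
lemma tendsto_avg {g : (Fin n → ℝ) → ℝ} {U : Set (Fin n → ℝ)} (hU : IsOpen U)
    (hg : ContinuousOn g U) {x : Fin n → ℝ} (hx : x ∈ U) {ε : ℝ} (hε : 0 < ε) :
    ∃ r > 0, ∀ δ, 0 < δ → δ < r →
      |(∫ y, (δ ^ n)⁻¹ * Rk 3 (δ⁻¹ • (y - x)) * g y) - cR n * g x| ≤ ε * cR n := by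
  have hcont : ContinuousAt g x := hg.continuousAt (hU.mem_nhds hx)
  obtain ⟨r1, hr1, h1⟩ := Metric.continuousAt_iff.1 hcont ε hε
  obtain ⟨r2, hr2, h2⟩ := Metric.isOpen_iff.1 hU x hx
  refine ⟨min r1 r2, lt_min hr1 hr2, fun δ hδ hδr => ?_⟩
  have hk0 : ∀ y, δ ≤ ‖y - x‖ → Rk 3 (δ⁻¹ • (y - x)) = 0 := by
    intro y hy
    apply Rk_eq_zero
    rw [nsq_smul, inv_pow, inv_mul_eq_div, le_div_iff₀ (by (clear * - hδ; positivity)), one_mul]
    exact (pow_le_pow_left₀ hδ.le hy 2).trans (norm_sq_le_nsq _)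
  have hkc : Continuous (fun y : Fin n → ℝ => (δ ^ n)⁻¹ * Rk 3 (δ⁻¹ • (y - x))) :=
    continuous_const.mul ((continuous_Rk 3).comp (by (clear * -; fun_prop)))
  have hks : tsupport (fun y : Fin n → ℝ => (δ ^ n)⁻¹ * Rk 3 (δ⁻¹ • (y - x))) ⊆
      Metric.closedBall x δ := by
    apply closure_minimal _ Metric.isClosed_closedBall
    intro y hy
    rw [Metric.mem_closedBall, dist_eq_norm]
    by_contra hlt
    apply hy
    simp only
    rw [hk0 y (not_le.1 hlt).le, mul_zero]
  have hkcs : HasCompactSupport (fun y : Fin n → ℝ => (δ ^ n)⁻¹ * Rk 3 (δ⁻¹ • (y - x))) :=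
    (isCompact_closedBall x δ).of_isClosed_subset (isClosed_tsupport _) hks
  have hkU : tsupport (fun y : Fin n → ℝ => (δ ^ n)⁻¹ * Rk 3 (δ⁻¹ • (y - x))) ⊆ U := by
    refine hks.trans (Subset.trans ?_ h2)
    exact Metric.closedBall_subset_ball (hδr.trans_le (min_le_right _ _))
  have hIk : Integrable (fun y : Fin n → ℝ => (δ ^ n)⁻¹ * Rk 3 (δ⁻¹ • (y - x))) :=
    hkc.integrable_of_hasCompactSupport hkcs
  have hIg : Integrable (fun y : Fin n → ℝ => (δ ^ n)⁻¹ * Rk 3 (δ⁻¹ • (y - x)) * g y) :=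
    (cont_mul hkc hU hg hkU).integrable_of_hasCompactSupport hkcs.mul_right
  have hm : ∫ y : Fin n → ℝ, (δ ^ n)⁻¹ * Rk 3 (δ⁻¹ • (y - x)) = cR n :=
    integral_scaled (Rk 3) x hδ
  have e1 : (∫ y, (δ ^ n)⁻¹ * Rk 3 (δ⁻¹ • (y - x)) * g y) - cR n * g x =
      ∫ y, (δ ^ n)⁻¹ * Rk 3 (δ⁻¹ • (y - x)) * (g y - g x) := by
    rw [← hm, ← integral_mul_const, ← integral_sub hIg (hIk.mul_const _)]
    congr 1
    ext y
    ring
  rw [e1, ← Real.norm_eq_abs]
  have e2 : ε * cR n = ∫ y : Fin n → ℝ, ε * ((δ ^ n)⁻¹ * Rk 3 (δ⁻¹ • (y - x))) := by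
    rw [integral_const_mul, hm]
  rw [e2]
  apply norm_integral_le_of_norm_le (hIk.const_mul ε)
  filter_upwards with y
  rw [norm_mul, Real.norm_eq_abs, Real.norm_eq_abs,
    abs_of_nonneg (mul_nonneg (by (clear * - hδ; positivity)) (Rk_nonneg _ _)), mul_comm ε]
  by_cases hy : δ ≤ ‖y - x‖
  · rw [hk0 y hy]; simp
  · rw [not_le] at hy
    apply mul_le_mul_of_nonneg_left _ (mul_nonneg (by (clear * - hδ; (clear * - hδ; positivity))) (Rk_nonneg _ _))
    have := h1 (x := y) (by rw [dist_eq_norm]; exact hy.trans (hδr.trans_le (min_le_left _ _)))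
    rw [Real.dist_eq] at this
    exact this.le

end

end Vale.Agent.P100.TS
end
end

section

section

/-! Pointwise upper and lower bounds for positive supersolutions. -/

open Set Filter MeasureTheory
open scoped ContDiff Topology ENNReal

namespace Vale.Agent.P100.TS

noncomputable section

variable {n : ℕ}

/-- A nonnegative function with `-Δ u = f ≥ 0` off the origin. -/
structure Sup (n : ℕ) (u f : (Fin n → ℝ) → ℝ) : Prop where
  cont : Continuous u
  smooth : ContDiffOn ℝ 2 u {0}ᶜ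
  eq : ∀ y, y ≠ 0 → lap u y = - f y
  loc : LocallyIntegrable f
  meas : Measurable f
  f_nonneg : ∀ y, 0 ≤ f y
  u_nonneg : ∀ y, 0 ≤ u y

lemma contDiff_Tj (j : Fin n) : ContDiff ℝ 2 (Tj (n := n) j) := by
  unfold Tj
  exact contDiff_const.mul ((contDiff_apply ℝ ℝ j).mul (contDiff_Rk 2))

lemma hasCompactSupport_Tj (j : Fin n) : HasCompactSupport (Tj (n := n) j) := by
  unfold Tj
  exact ((hasCompactSupport_Rk 2).mul_left).mul_left

lemma contDiff_Pj (j : Fin n) : ContDiff ℝ 1 (Pj (n := n) j) := by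
  unfold Pj
  exact contDiff_const.mul ((contDiff_apply ℝ ℝ j).mul (contDiff_Rk 1))

lemma hasCompactSupport_Pj (j : Fin n) : HasCompactSupport (Pj (n := n) j) := by
  unfold Pj
  exact ((hasCompactSupport_Rk 1).mul_left).mul_left

lemma abs_coord_mul_Rk_le (j : Fin n) (k : ℕ) (z : Fin n → ℝ) : |z j * Rk (k + 1) z| ≤ 1 := by
  by_cases h : 1 ≤ nsq z
  · rw [Rk_eq_zero k z h]; simp only [mul_zero, abs_zero, zero_le_one]
  · rw [not_le] at h
    have h1 : z j ^ 2 < 1 := lt_of_le_of_lt (sq_le_nsq z j) h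
    have h2 : |z j| ≤ 1 := by
      rw [← sq_abs] at h1
      nlinarith only [h1]
    rw [abs_mul, abs_of_nonneg (Rk_nonneg _ z)]
    calc |z j| * Rk (k + 1) z ≤ 1 * 1 :=
          mul_le_mul h2 (Rk_le_one _ z) (Rk_nonneg _ z) zero_le_one
      _ = 1 := one_mul 1

lemma abs_Tj_le (j : Fin n) (z : Fin n → ℝ) : |Tj j z| ≤ 1 := by
  unfold Tj
  rw [abs_mul, abs_neg, abs_one, one_mul]
  exact abs_coord_mul_Rk_le j 2 z

lemma Tj_eq_zero (j : Fin n) (z : Fin n → ℝ) (h : 1 ≤ nsq z) : Tj j z = 0 := by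
  unfold Tj; rw [Rk_eq_zero 2 z h]; simp

lemma Pj_eq_zero (j : Fin n) (z : Fin n → ℝ) (h : 1 ≤ nsq z) : Pj j z = 0 := by
  unfold Pj; rw [Rk_eq_zero 1 z h]; simp

lemma abs_Pj_le (j : Fin n) (z : Fin n → ℝ) : |Pj j z| ≤ 6 := by
  unfold Pj
  rw [abs_mul, abs_neg]
  have := abs_coord_mul_Rk_le j 1 z
  rw [abs_of_pos (by norm_num : (0 : ℝ) < 6)]
  linarith only [this]

lemma pd_Rk3 (j : Fin n) : pd j (Rk (n := n) 3) = Pj j := by
  ext x
  have := pd_Rk 1 j x
  rw [this]
  unfold Pj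
  push_cast
  ring

/-- Upper bound of the gradient by an average and a potential. -/
lemma Sup.upper_grad [NeZero n] (hn : 3 ≤ n) {u f : (Fin n → ℝ) → ℝ} (S : Sup n u f)
    {x : Fin n → ℝ} (hx : x ≠ 0) (j : Fin n) {h : ℝ} (hh : 0 < h) :
    ENNReal.ofReal (cR n * |pd j u x|) ≤
      ENNReal.ofReal (6 * (h ^ (n + 1))⁻¹) *
        (∫⁻ y in {y | nsq (y - x) < h ^ 2}, ENNReal.ofReal (u y)) +
      ∫⁻ y in {y | nsq (y - x) < h ^ 2},
        ENNReal.ofReal (en (y - x) ^ (-((n : ℝ) - 1))) * ENNReal.ofReal (f y) := by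
  have hms : MeasurableSet {y : Fin n → ℝ | nsq (y - x) < h ^ 2} :=
    measurableSet_lt (continuous_nsq.comp (continuous_id.sub continuous_const)).measurable
      measurable_const
  have hO : IsOpen ({0}ᶜ : Set (Fin n → ℝ)) := isOpen_compl_singleton
  apply ENNReal.le_of_forall_pos_le_add
  intro ε hε _
  obtain ⟨r, hr, hr2⟩ := tendsto_avg hO (contDiffOn_pd j S.smooth).continuousOn
    (x := x) (by simpa using hx) (div_pos (NNReal.coe_pos.2 hε) (cR_pos n))
  have hx0 : 0 < ‖x‖ := norm_pos_iff.2 hx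
  set δ := min (min (r / 2) h) (‖x‖ / 2) with hδdef
  have hδ : 0 < δ := lt_min (lt_min (by positivity) hh) (by positivity)
  have hδh : δ ≤ h := (min_le_left _ _).trans (min_le_right _ _)
  have hδr : δ < r := lt_of_le_of_lt ((min_le_left _ _).trans (min_le_left _ _)) (by linarith only [hr])
  have hδx : δ < ‖x‖ := lt_of_le_of_lt (min_le_right _ _) (by linarith only [hx0])
  have h1 := hr2 δ hδ hδr
  rw [div_mul_cancel₀ _ (cR_pos n).ne'] at h1
  -- integration by parts at scale δ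
  set F : (Fin n → ℝ) → ℝ := fun y => (δ ^ n)⁻¹ * Rk 3 (δ⁻¹ • (y - x)) with hF
  have hFd : ContDiff ℝ 1 F := contDiff_const.mul
    (((contDiff_Rk 2).of_le (by norm_num)).comp ((contDiff_id.sub contDiff_const).const_smul _))
  have hFs : tsupport F ⊆ Metric.closedBall x δ := by
    apply closure_minimal _ Metric.isClosed_closedBall
    intro y hy
    rw [Metric.mem_closedBall, dist_eq_norm]
    by_contra hlt
    apply hy
    simp only [hF]
    rw [Rk_eq_zero, mul_zero]
    rw [nsq_smul, inv_pow, inv_mul_eq_div, le_div_iff₀ (by (clear * - hr hh hx; (clear * - hr hh hx; positivity))), one_mul]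
    exact (pow_le_pow_left₀ hδ.le (not_le.1 hlt).le 2).trans (norm_sq_le_nsq _)
  have hFU : tsupport F ⊆ {0}ᶜ := by
    intro y hy h0
    rw [mem_singleton_iff] at h0
    subst h0
    have := hFs hy
    rw [Metric.mem_closedBall, dist_zero_left] at this
    linarith only [hδx, this]
  have hFc : HasCompactSupport F :=
    (isCompact_closedBall x δ).of_isClosed_subset (isClosed_tsupport _) hFs
  have hpF : ∀ y, pd j F y = (δ ^ (n + 1))⁻¹ * Pj j (δ⁻¹ • (y - x)) := by
    intro y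
    have hd : Differentiable ℝ (Rk (n := n) 3) := differentiable_Rk 1
    have hd2 : Differentiable ℝ (fun y : Fin n → ℝ => Rk 3 (δ⁻¹ • (y - x))) :=
      hd.comp (by (clear * -; (clear * -; fun_prop)))
    simp only [hF]
    rw [pd_const_mul j _ (hd2 y), pd_comp_smul hd, pd_Rk3, pow_succ, mul_inv]
    ring
  have hIBP : ∫ y, F y * pd j u y = - ∫ y, pd j F y * u y := by
    apply integral_mul_fderiv_eq_neg_fderiv_mul_of_integrable (f := F) (g := u)
    · exact ((continuous_pd j hFd).mul S.cont).integrable_of_hasCompactSupport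
        ((hasCompactSupport_pd hFc).mul_right)
    · exact (cont_mul hFd.continuous hO (contDiffOn_pd j S.smooth).continuousOn
        hFU).integrable_of_hasCompactSupport hFc.mul_right
    · exact (hFd.continuous.mul S.cont).integrable_of_hasCompactSupport hFc.mul_right
    · exact fun y _ => (hFd.differentiable (by simp)) y
    · exact fun y hy => (S.smooth.contDiffAt (hO.mem_nhds (hFU hy))).differentiableAt (by simp)
  have hrep := (rep_identity (u := u) (f := f) S.cont
    (fun G hG hGc => weak hn S.cont S.smooth S.eq S.loc hG hGc)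
    (contDiff_Tj j) (hasCompactSupport_Tj j) (contDiff_Pj j) (hasCompactSupport_Pj j) (n + 1)
    (fun z => by push_cast; exact lap_Tj j z) x hδ hδh).2
  simp_rw [hpF] at hIBP
  have h4 : cR n * |pd j u x| ≤ |∫ y, F y * pd j u y| + (ε : ℝ) := by
    have h5 : |cR n * pd j u x| ≤ |∫ y, F y * pd j u y| +
        |(∫ y, F y * pd j u y) - cR n * pd j u x| := by
      have := abs_sub_abs_le_abs_sub (cR n * pd j u x) (∫ y, F y * pd j u y)
      rw [abs_sub_comm] at this
      linarith only [this]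
    rw [abs_mul, abs_of_pos (cR_pos n)] at h5
    linarith only [h1, h5]
  rw [hIBP, abs_neg] at h4
  have h6 : |∫ y, (δ ^ (n + 1))⁻¹ * Pj j (δ⁻¹ • (y - x)) * u y| ≤
      |∫ y, (h ^ (n + 1))⁻¹ * Pj j (h⁻¹ • (y - x)) * u y| +
      |∫ s in δ..h, (s ^ (n + 1 + 1))⁻¹ * (s ^ 2 * ∫ y, f y * Tj j (s⁻¹ • (y - x)))| := by
    have : (∫ y, (δ ^ (n + 1))⁻¹ * Pj j (δ⁻¹ • (y - x)) * u y) =
      (∫ y, (h ^ (n + 1))⁻¹ * Pj j (h⁻¹ • (y - x)) * u y) +
      ∫ s in δ..h, (s ^ (n + 1 + 1))⁻¹ * (s ^ 2 * ∫ y, f y * Tj j (s⁻¹ • (y - x))) := by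
      linarith only [hrep]
    rw [this]
    exact abs_add_le _ _
  have hpot := potential_bound S.meas (abs_Tj_le j) (Tj_eq_zero j) (a := n + 1) (by omega) x hδ hδh
  have havg : ENNReal.ofReal |∫ y, (h ^ (n + 1))⁻¹ * Pj j (h⁻¹ • (y - x)) * u y| ≤
      ENNReal.ofReal (6 * (h ^ (n + 1))⁻¹) *
      (∫⁻ y in {y | nsq (y - x) < h ^ 2}, ENNReal.ofReal (u y)) := by
    rw [← Real.enorm_eq_ofReal_abs]
    refine (enorm_integral_le_lintegral_enorm _).trans ?_
    rw [← lintegral_const_mul' _ _ ENNReal.ofReal_ne_top, ← lintegral_indicator hms]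
    apply lintegral_mono
    intro y
    simp only
    by_cases hy : nsq (y - x) < h ^ 2
    · rw [indicator_of_mem (by exact hy), enorm_mul, Real.enorm_of_nonneg (S.u_nonneg y)]
      gcongr
      rw [Real.enorm_eq_ofReal_abs]
      apply ENNReal.ofReal_le_ofReal
      rw [abs_mul, abs_of_nonneg (by positivity : (0 : ℝ) ≤ (h ^ (n + 1))⁻¹), mul_comm]
      exact mul_le_mul_of_nonneg_right (abs_Pj_le j _) (by positivity)
    · rw [Pj_eq_zero]
      · simp only [mul_zero, zero_mul, enorm_zero, Nat.ofNat_nonneg, ENNReal.ofReal_mul, ENNReal.ofReal_ofNat, zero_le]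
      · rw [nsq_smul, inv_pow, inv_mul_eq_div, le_div_iff₀ (by (clear * - hh; positivity)), one_mul]
        exact not_lt.1 hy
  set X1 : ℝ := |∫ y, (h ^ (n + 1))⁻¹ * Pj j (h⁻¹ • (y - x)) * u y| with hX1
  set X2 : ℝ := |∫ s in δ..h, (s ^ (n + 1 + 1))⁻¹ * (s ^ 2 * ∫ y, f y * Tj j (s⁻¹ • (y - x)))|
    with hX2
  have h7 : cR n * |pd j u x| ≤ X1 + X2 + (ε : ℝ) := by linarith only [h4, h6]
  calc ENNReal.ofReal (cR n * |pd j u x|) ≤ ENNReal.ofReal (X1 + X2 + (ε : ℝ)) :=
        ENNReal.ofReal_le_ofReal h7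
    _ ≤ ENNReal.ofReal X1 + ENNReal.ofReal X2 + ENNReal.ofReal (ε : ℝ) :=
        ENNReal.ofReal_add_le.trans (add_le_add_left ENNReal.ofReal_add_le _)
    _ ≤ _ := by
        rw [ENNReal.ofReal_coe_nnreal]
        gcongr
        rw [hX2, ← Real.enorm_eq_ofReal_abs]
        refine hpot.trans (le_of_eq ?_)
        apply lintegral_congr
        intro y
        rw [Real.enorm_of_nonneg (S.f_nonneg y)]
        push_cast
        congr 3
        ring

end

end Vale.Agent.P100.TS
end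
end

section

section

/-! Universal local bounds for positive entire solutions. -/

open Set Filter MeasureTheory
open scoped ContDiff Topology ENNReal

namespace Vale.Agent.P100.TS

noncomputable section

variable {n : ℕ}

/-- Positive entire solution in coordinates. -/
structure PSol (n : ℕ) (p q A B : ℝ) (u v : (Fin n → ℝ) → ℝ) : Prop where
  cu : Continuous u
  cv : Continuous v
  su : ContDiffOn ℝ 2 u {0}ᶜ
  sv : ContDiffOn ℝ 2 v {0}ᶜ
  pu : ∀ x, 0 < u x
  pv : ∀ x, 0 < v x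
  eu : ∀ x, x ≠ 0 → lap u x = -(en x ^ A * v x ^ p)
  ev : ∀ x, x ≠ 0 → lap v x = -(en x ^ B * u x ^ q)

/-! ### Weights -/

lemma measurable_en : Measurable (en (n := n)) := continuous_en.measurable

lemma integrableOn_en_rpow [NeZero n] (hn : 3 ≤ n) {A : ℝ} (hA : -2 < A) (R : ℝ) :
    IntegrableOn (fun y : Fin n → ℝ => en y ^ A) (Metric.closedBall 0 R) := by
  rcases le_or_gt 0 A with h | h
  · apply ContinuousOn.integrableOn_compact (isCompact_closedBall _ _)
    exact (continuous_en.rpow_const fun _ => Or.inr h).continuousOn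
  · have hn' : -A < n := by
      have : (3 : ℝ) ≤ n := by exact_mod_cast hn
      linarith only [hA, this]
    have h1 := (integrableOn_norm_rpow hn' (R + 1)).mono_set
      (Metric.closedBall_subset_ball (by linarith only []) : Metric.closedBall (0 : Fin n → ℝ) R ⊆ _)
    refine Integrable.mono' h1 ((measurable_en.pow_const A).aestronglyMeasurable) ?_
    have hne : ∀ᵐ y : Fin n → ℝ, y ≠ 0 := by
      rw [ae_iff]; simp
    filter_upwards [ae_restrict_of_ae hne] with y hy
    rw [Real.norm_eq_abs, abs_of_nonneg (Real.rpow_nonneg (en_nonneg _) _), neg_neg]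
    exact Real.rpow_le_rpow_of_nonpos (norm_pos_iff.2 hy) (norm_le_en y) h.le

lemma locallyIntegrable_weight [NeZero n] (hn : 3 ≤ n) {A : ℝ} (hA : -2 < A)
    {w : (Fin n → ℝ) → ℝ} (hw : Continuous w) :
    LocallyIntegrable (fun y : Fin n → ℝ => en y ^ A * w y) := by
  rw [locallyIntegrable_iff]
  intro K hK
  obtain ⟨R, hR⟩ := hK.isBounded.subset_closedBall (0 : Fin n → ℝ)
  apply IntegrableOn.mono_set _ hR
  obtain ⟨C, hC⟩ := (isCompact_closedBall (0 : Fin n → ℝ) R).exists_bound_of_continuousOn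
    hw.continuousOn
  refine Integrable.mono' ((integrableOn_en_rpow hn hA R).mul_const C)
    ((measurable_en.pow_const A).mul hw.measurable).aestronglyMeasurable ?_
  filter_upwards [ae_restrict_mem measurableSet_closedBall] with y hy
  rw [norm_mul, Real.norm_eq_abs, abs_of_nonneg (Real.rpow_nonneg (en_nonneg _) _)]
  exact mul_le_mul_of_nonneg_left (hC y hy) (Real.rpow_nonneg (en_nonneg _) _)

lemma PSol.sup_u [NeZero n] (hn : 3 ≤ n) {p q A B : ℝ} (hA : -2 < A)
    {u v : (Fin n → ℝ) → ℝ} (S : PSol n p q A B u v) :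
    Sup n u (fun y => en y ^ A * v y ^ p) where
  cont := S.cu
  smooth := S.su
  eq := S.eu
  loc := locallyIntegrable_weight hn hA (S.cv.rpow_const fun x => Or.inl (S.pv x).ne')
  meas := (measurable_en.pow_const A).mul (S.cv.measurable.pow_const p)
  f_nonneg y := mul_nonneg (Real.rpow_nonneg (en_nonneg _) _) (Real.rpow_nonneg (S.pv y).le _)
  u_nonneg y := (S.pu y).le

end

end Vale.Agent.P100.TS
end
end

section

section

/-! Gradient bound near the origin. -/

open Set Filter MeasureTheory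
open scoped ContDiff Topology ENNReal Pointwise

namespace Vale.Agent.P100.TS

noncomputable section

variable {n : ℕ}

/-- Scaling of the integral of a negative power of the norm. -/
lemma lintegral_norm_rpow [NeZero n] {g : ℝ} (hg : g < n) (x : Fin n → ℝ) {h : ℝ} (hh : 0 < h) :
    ∫⁻ y in Metric.ball x h, ENNReal.ofReal (‖y - x‖ ^ (-g)) =
      ENNReal.ofReal (h ^ ((n : ℝ) - g) * ∫ z in Metric.ball (0 : Fin n → ℝ) 1, ‖z‖ ^ (-g)) := by
  have h1 : ∫⁻ y in Metric.ball x h, ENNReal.ofReal (‖y - x‖ ^ (-g)) =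
      ∫⁻ y in Metric.ball (0 : Fin n → ℝ) h, ENNReal.ofReal (‖y‖ ^ (-g)) := by
    rw [← lintegral_indicator measurableSet_ball, ← lintegral_indicator measurableSet_ball]
    have := lintegral_sub_right_eq_self (μ := (volume : Measure (Fin n → ℝ)))
      ((Metric.ball (0 : Fin n → ℝ) h).indicator fun y => ENNReal.ofReal (‖y‖ ^ (-g))) x
    rw [← this]
    apply lintegral_congr
    intro y
    by_cases hy : y ∈ Metric.ball x h
    · rw [indicator_of_mem hy, indicator_of_mem]
      rwa [mem_ball_zero_iff, ← dist_eq_norm]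
    · rw [indicator_of_notMem hy, indicator_of_notMem]
      rwa [mem_ball_zero_iff, ← dist_eq_norm]
  rw [h1, ← ofReal_integral_eq_lintegral_ofReal (integrableOn_norm_rpow hg h)
    (Eventually.of_forall fun y => Real.rpow_nonneg (norm_nonneg _) _)]
  congr 1
  have h2 := Measure.setIntegral_comp_smul_of_pos (volume : Measure (Fin n → ℝ))
    (fun y : Fin n → ℝ => ‖y‖ ^ (-g)) (Metric.ball (0 : Fin n → ℝ) 1) hh
  rw [smul_unitBall_of_pos hh, Module.finrank_fin_fun, smul_eq_mul] at h2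
  have h3 : ∀ y : Fin n → ℝ, ‖h • y‖ ^ (-g) = h ^ (-g) * ‖y‖ ^ (-g) := by
    intro y
    rw [norm_smul, Real.norm_eq_abs, abs_of_pos hh, Real.mul_rpow hh.le (norm_nonneg _)]
  simp_rw [h3] at h2
  rw [integral_const_mul] at h2
  have h4 : (h ^ n : ℝ) ≠ 0 := by positivity
  have h5 : h ^ ((n : ℝ) - g) = h ^ n * h ^ (-g) := by
    rw [sub_eq_add_neg, Real.rpow_add hh, Real.rpow_natCast]
  rw [h5, mul_assoc, h2, ← mul_assoc, mul_inv_cancel₀ h4, one_mul]

lemma grad_near_zero [NeZero n] (hn : 3 ≤ n) {u f : (Fin n → ℝ) → ℝ} (S : Sup n u f) {Cf : ℝ}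
    (hf : ∀ y, ‖y‖ ≤ 2 → y ≠ 0 → f y ≤ Cf * (‖y‖ ^ 2)⁻¹) : ∃ C : ℝ, 0 ≤ C ∧
    ∀ x, x ≠ 0 → ‖x‖ ≤ 1 → ∀ j, |pd j u x| ≤ C * ‖x‖⁻¹ := by
  obtain ⟨Mu, hMu⟩ := (isCompact_closedBall (0 : Fin n → ℝ) 2).exists_bound_of_continuousOn
    S.cont.continuousOn
  have hMu0 : 0 ≤ Mu := (norm_nonneg _).trans (hMu 0 (by simp only [Metric.mem_closedBall, dist_self, Nat.ofNat_nonneg]))
  set J := ∫ z in Metric.ball (0 : Fin n → ℝ) 1, ‖z‖ ^ (-((n : ℝ) - 1)) with hJ
  have hJ0 : 0 ≤ J := integral_nonneg fun _ => Real.rpow_nonneg (norm_nonneg _) _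
  refine ⟨(6 * 2 ^ (n + 1) * Mu + 2 * |Cf| * J) / cR n, by have := cR_pos n; (clear * - hMu0 this; (clear * - hMu0 this; positivity)), ?_⟩
  intro x hx hx1 j
  have hx0 : 0 < ‖x‖ := norm_pos_iff.2 hx
  set h := ‖x‖ / 2 with hh
  have hh0 : 0 < h := by positivity
  have hup := S.upper_grad hn hx j hh0
  have hms : MeasurableSet {y : Fin n → ℝ | nsq (y - x) < h ^ 2} :=
    measurableSet_lt (continuous_nsq.comp (continuous_id.sub continuous_const)).measurable
      measurable_const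
  have hsub : {y : Fin n → ℝ | nsq (y - x) < h ^ 2} ⊆ Metric.ball x h := by
    intro y hy
    rw [Metric.mem_ball, dist_eq_norm]
    have : ‖y - x‖ ^ 2 < h ^ 2 := lt_of_le_of_lt (norm_sq_le_nsq _) hy
    exact lt_of_pow_lt_pow_left₀ 2 hh0.le this
  have hyx : ∀ y ∈ Metric.ball x h, ‖y‖ ≤ 2 ∧ h ≤ ‖y‖ := by
    intro y hy
    rw [Metric.mem_ball, dist_eq_norm] at hy
    have h1 : ‖y‖ ≤ ‖y - x‖ + ‖x‖ := by simpa only [sub_add_cancel] using norm_add_le (y - x) x
    have h2 : ‖x‖ ≤ ‖y - x‖ + ‖y‖ := by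
      have := norm_sub_norm_le x y
      rw [norm_sub_rev] at this
      linarith only [this]
    constructor <;> linarith only [hh, hy, h2, hx1, h1]
  have hT1 : ∫⁻ y in {y | nsq (y - x) < h ^ 2}, ENNReal.ofReal (u y) ≤
      ENNReal.ofReal (Mu * (2 * h) ^ n) := by
    refine (lintegral_mono_set hsub).trans ?_
    have h1 : ∫⁻ y in Metric.ball x h, ENNReal.ofReal (u y) ≤
        ∫⁻ _y in Metric.ball x h, ENNReal.ofReal Mu := by
      apply setLIntegral_mono' measurableSet_ball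
      intro y hy
      apply ENNReal.ofReal_le_ofReal
      have := hMu y (by rw [mem_closedBall_zero_iff]; exact (hyx y hy).1)
      rw [Real.norm_eq_abs] at this
      exact (le_abs_self _).trans this
    refine h1.trans (le_of_eq ?_)
    rw [lintegral_const, Measure.restrict_apply MeasurableSet.univ, univ_inter,
      Real.volume_pi_ball _ hh0, Fintype.card_fin, ← ENNReal.ofReal_mul hMu0]
  have hT2 : ∫⁻ y in {y | nsq (y - x) < h ^ 2},
        ENNReal.ofReal (en (y - x) ^ (-((n : ℝ) - 1))) * ENNReal.ofReal (f y) ≤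
      ENNReal.ofReal (|Cf| * (h ^ 2)⁻¹ * (h * J)) := by
    refine (lintegral_mono_set hsub).trans ?_
    have h1 : ∫⁻ y in Metric.ball x h,
        ENNReal.ofReal (en (y - x) ^ (-((n : ℝ) - 1))) * ENNReal.ofReal (f y) ≤
        ∫⁻ y in Metric.ball x h, ENNReal.ofReal (|Cf| * (h ^ 2)⁻¹) *
          ENNReal.ofReal (‖y - x‖ ^ (-((n : ℝ) - 1))) := by
      have hne : ∀ᵐ y : Fin n → ℝ, y ≠ x := by
        rw [ae_iff]; simp only [ne_eq, Decidable.not_not, ofPred_eq_eq_singleton, measure_singleton]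
      apply lintegral_mono_ae
      filter_upwards [ae_restrict_of_ae hne, ae_restrict_mem measurableSet_ball] with y hy hyb
      rw [mul_comm]
      have hn1 : (0 : ℝ) ≤ (n : ℝ) - 1 := by
        have : (3 : ℝ) ≤ n := by exact_mod_cast hn
        linarith only [this]
      refine mul_le_mul' (ENNReal.ofReal_le_ofReal ?_) (ENNReal.ofReal_le_ofReal ?_)
      · have hyn := (hyx y hyb).2
        have hy0 : y ≠ 0 := by
          rintro rfl
          rw [norm_zero] at hyn
          linarith only [hh0, hyn]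
        refine (hf y (hyx y hyb).1 hy0).trans ?_
        calc Cf * (‖y‖ ^ 2)⁻¹ ≤ |Cf| * (‖y‖ ^ 2)⁻¹ :=
              mul_le_mul_of_nonneg_right (le_abs_self _) (by positivity)
          _ ≤ |Cf| * (h ^ 2)⁻¹ := by
              apply mul_le_mul_of_nonneg_left _ (abs_nonneg _)
              exact inv_anti₀ (by positivity) (pow_le_pow_left₀ hh0.le hyn 2)
      · exact Real.rpow_le_rpow_of_nonpos (norm_pos_iff.2 (sub_ne_zero.2 hy)) (norm_le_en _)
          (by linarith only [hn1])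
    refine h1.trans (le_of_eq ?_)
    rw [lintegral_const_mul' _ _ ENNReal.ofReal_ne_top, lintegral_norm_rpow (by linarith only []) x hh0,
      ← ENNReal.ofReal_mul (by (clear * - hx; (clear * - hx; positivity)))]
    congr 2
    have : (n : ℝ) - (n - 1) = 1 := by ring
    rw [this, Real.rpow_one]
  have hfin : ENNReal.ofReal (cR n * |pd j u x|) ≤
      ENNReal.ofReal ((6 * 2 ^ (n + 1) * Mu + 2 * |Cf| * J) * ‖x‖⁻¹) := by
    refine hup.trans ((add_le_add (mul_le_mul_right hT1 _) hT2).trans (le_of_eq ?_))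
    rw [← ENNReal.ofReal_mul (by positivity), ← ENNReal.ofReal_add (by (clear * - hx hMu0; positivity)) (by (clear * - hx; positivity))]
    congr 1
    have hxe : ‖x‖ = 2 * h := by rw [hh]; ring
    rw [hxe, pow_succ, pow_succ]
    field_simp
    ring_nf
  have hnn : 0 ≤ (6 * 2 ^ (n + 1) * Mu + 2 * |Cf| * J) * ‖x‖⁻¹ := by (clear * - hMu0 hx; (clear * - hMu0 hx; positivity))
  rw [ENNReal.ofReal_le_ofReal_iff hnn] at hfin
  rw [div_mul_eq_mul_div, le_div_iff₀ (cR_pos n)]
  linarith only [hfin]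

end

end Vale.Agent.P100.TS
end
end

section

section

/-! The Rellich-Pohozaev vector field. -/

open Set Filter MeasureTheory
open scoped ContDiff Topology ENNReal

namespace Vale.Agent.P100.TS

noncomputable section

variable {n : ℕ}

section

variable {p q A B : ℝ} {u v : (Fin n → ℝ) → ℝ}

end

end

end Vale.Agent.P100.TS
end
end

section

section

/-! The Pohozaev inequality on cubes. -/

open Set Filter MeasureTheory
open scoped ContDiff Topology ENNReal

namespace Vale.Agent.P100.TS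

noncomputable section

lemma en_le {n : ℕ} [NeZero n] (y : Fin n → ℝ) : en y ≤ n * ‖y‖ := by
  have hn0 : (1 : ℝ) ≤ n := by exact_mod_cast Nat.one_le_iff_ne_zero.2 (NeZero.ne n)
  unfold en
  rw [Real.sqrt_le_left (by (clear * - hn0; positivity))]
  refine (nsq_le y).trans ?_
  rw [mul_pow]
  apply mul_le_mul_of_nonneg_right _ (by (clear * -; positivity))
  nlinarith only [hn0]

lemma weight_near {n : ℕ} [NeZero n] {A : ℝ} (hA : -2 < A) : ∃ C : ℝ, 0 ≤ C ∧
    ∀ y : Fin n → ℝ, y ≠ 0 → ‖y‖ ≤ 2 → en y ^ A ≤ C * (‖y‖ ^ 2)⁻¹ := by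
  have hn0 : (0 : ℝ) ≤ n := Nat.cast_nonneg n
  rcases le_or_gt 0 A with h | h
  · refine ⟨(n * 2) ^ A * 4, by (clear * -; positivity), fun y hy hy2 => ?_⟩
    have hy0 : 0 < ‖y‖ := norm_pos_iff.2 hy
    rw [← div_eq_mul_inv, le_div_iff₀ (by (clear * - hy; positivity))]
    have h1 : en y ^ A ≤ (n * 2) ^ A := by
      apply Real.rpow_le_rpow (en_nonneg _) _ h
      exact (en_le y).trans (by (clear * - hy2; gcongr))
    have h2 : ‖y‖ ^ 2 ≤ 4 := by nlinarith only [hy2, hy0]
    exact mul_le_mul h1 h2 (by (clear * - hy; positivity)) (by (clear * -; positivity))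
  · refine ⟨2 ^ (A + 2), by positivity, fun y hy hy2 => ?_⟩
    have hy0 : 0 < ‖y‖ := norm_pos_iff.2 hy
    rw [← div_eq_mul_inv, le_div_iff₀ (by positivity)]
    have h1 : en y ^ A ≤ ‖y‖ ^ A := Real.rpow_le_rpow_of_nonpos hy0 (norm_le_en y) h.le
    calc en y ^ A * ‖y‖ ^ 2 ≤ ‖y‖ ^ A * ‖y‖ ^ 2 := by (clear * - h1 hy; gcongr)
      _ = ‖y‖ ^ (A + 2) := by rw [Real.rpow_add hy0]; norm_num
      _ ≤ 2 ^ (A + 2) := Real.rpow_le_rpow hy0.le hy2 (by linarith only [hA])

section

variable {n : ℕ} {p q A B : ℝ} {u v : (Fin n → ℝ) → ℝ}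

lemma PSol.grad_bound [NeZero n] (hn : 3 ≤ n) (hA : -2 < A) (hp : 0 < p)
    (S : PSol n p q A B u v) : ∃ C : ℝ, 0 ≤ C ∧
    ∀ x, x ≠ 0 → ‖x‖ ≤ 1 → ∀ j, |pd j u x| ≤ C * ‖x‖⁻¹ := by
  obtain ⟨CA, hCA0, hCA⟩ := weight_near (n := n) hA
  obtain ⟨Mv, hMv⟩ := (isCompact_closedBall (0 : Fin n → ℝ) 2).exists_bound_of_continuousOn
    S.cv.continuousOn
  have hMv0 : 0 ≤ Mv := (norm_nonneg _).trans (hMv 0 (by simp only [Metric.mem_closedBall, dist_self, Nat.ofNat_nonneg]))
  apply grad_near_zero hn (S.sup_u hn hA) (Cf := CA * Mv ^ p)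
  intro y hy hy0
  have h1 := hCA y hy0 hy
  have h2 : v y ^ p ≤ Mv ^ p := by
    apply Real.rpow_le_rpow (S.pv y).le _ hp.le
    have := hMv y (by rwa [mem_closedBall_zero_iff])
    rw [Real.norm_eq_abs] at this
    exact (le_abs_self _).trans this
  calc en y ^ A * v y ^ p ≤ (CA * (‖y‖ ^ 2)⁻¹) * Mv ^ p :=
        mul_le_mul h1 h2 (Real.rpow_nonneg (S.pv y).le _) (by (clear * - hCA0 hy0; positivity))
    _ = _ := by ring

end

variable {m : ℕ} {p q A B : ℝ} {u v : (Fin (m + 1) → ℝ) → ℝ}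

end

end Vale.Agent.P100.TS
end
end

section

section

/-!
# P100, running minimum: the discrete Hamiltonian is almost monotone
-/

namespace Vale.Agent.P100.RM

open Finset

variable {S : Type*} [TopologicalSpace S]

/-- Pointwise real power of a continuous function. -/
noncomputable def pw (p : ℝ) (hp : 0 ≤ p) (f : C(S, ℝ)) : C(S, ℝ) :=
  ⟨fun x => f x ^ p, f.continuous.rpow_const (fun _ => Or.inr hp)⟩

@[simp] theorem pw_apply (p : ℝ) (hp : 0 ≤ p) (f : C(S, ℝ)) (x : S) : pw p hp f x = f x ^ p := rfl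

/-- The data of the discrete problem: a positive functional `I`, a symmetric operator `L`, two
nonincreasing positive sequences `m, μ` of continuous functions (running minima), weights `a, b`. -/
structure Sup (I : C(S, ℝ) →ₗ[ℝ] ℝ) (L : C(S, ℝ) →ₗ[ℝ] C(S, ℝ)) (m mu : ℕ → C(S, ℝ))
    (a b : ℕ → ℝ) (p q h om : ℝ) (N : ℕ) : Prop where
  hI : ∀ f : C(S, ℝ), (∀ x, 0 ≤ f x) → 0 ≤ I f
  hsym : ∀ f g : C(S, ℝ), I (f * L g) = I (g * L f)
  hp : 0 < p
  hq : 0 < q
  hh : 0 < h
  hom : 0 ≤ om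
  ha : ∀ k, 0 ≤ a k
  hb : ∀ k, 0 ≤ b k
  hm : ∀ k x, 0 < m k x
  hmu : ∀ k x, 0 < mu k x
  ham : ∀ k x, m (k + 1) x ≤ m k x
  hamu : ∀ k x, mu (k + 1) x ≤ mu k x
  hP : ∀ k, k + 1 < N → ∀ x, (m (k + 2) x - 2 * m (k + 1) x + m k x) / h ^ 2
    + L (m (k + 1)) x + a (k + 1) * (mu (k + 1) x) ^ p ≤ om
  hQ : ∀ k, k + 1 < N → ∀ x, (mu (k + 2) x - 2 * mu (k + 1) x + mu k x) / h ^ 2
    + L (mu (k + 1)) x + b (k + 1) * (m (k + 1) x) ^ q ≤ om

/-- Energy of the first component. -/
noncomputable def en (I : C(S, ℝ) →ₗ[ℝ] ℝ) (p : ℝ) (hp : 0 < p) (mu : ℕ → C(S, ℝ)) (k : ℕ) : ℝ :=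
  I (pw (p + 1) (by linarith) (mu k))

/-- Kinetic part of the discrete Hamiltonian (symmetric in the two components). -/
noncomputable def kin (I : C(S, ℝ) →ₗ[ℝ] ℝ) (L : C(S, ℝ) →ₗ[ℝ] C(S, ℝ)) (m mu : ℕ → C(S, ℝ))
    (h : ℝ) (k : ℕ) : ℝ :=
  I ((m (k + 1) - m k) * (mu (k + 1) - mu k)) / h ^ 2
    + (I (m (k + 1) * L (mu k)) + I (m k * L (mu (k + 1)))) / 2

/-- Potential part. -/
noncomputable def pot (I : C(S, ℝ) →ₗ[ℝ] ℝ) (p : ℝ) (hp : 0 < p) (a : ℕ → ℝ) (mu : ℕ → C(S, ℝ))
    (k : ℕ) : ℝ :=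
  (a k * en I p hp mu k + a (k + 1) * en I p hp mu (k + 1)) / (2 * (p + 1))

theorem rpow_convex {p x y : ℝ} (hp : 0 < p) (hx : 0 < x) (hy : 0 < y) :
    x ^ (p + 1) - y ^ (p + 1) ≤ (p + 1) * ((x - y) * x ^ p) := by
  have hs : -1 ≤ (y - x) / x := by
    rw [le_div_iff₀ hx]; linarith only [hy]
  have hB := one_add_mul_self_le_rpow_one_add hs (show 1 ≤ p + 1 by (clear * - hp; linarith))
  have e1 : 1 + (y - x) / x = y / x := by field_simp; ring
  rw [e1, Real.div_rpow hy.le hx.le, le_div_iff₀ (Real.rpow_pos_of_pos hx _)] at hB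
  have e2 : x ^ (p + 1) = x ^ p * x := by rw [Real.rpow_add hx, Real.rpow_one]
  have e3 : (1 + (p + 1) * ((y - x) / x)) * x ^ (p + 1) =
      x ^ (p + 1) - (p + 1) * ((x - y) * x ^ p) := by
    rw [e2]; field_simp; ring
  linarith only [hB, e3]

section

variable {I : C(S, ℝ) →ₗ[ℝ] ℝ} {L : C(S, ℝ) →ₗ[ℝ] C(S, ℝ)} {m mu : ℕ → C(S, ℝ)}
  {a b : ℕ → ℝ} {p q h om : ℝ} {N : ℕ}

theorem I_mono (hI : ∀ f : C(S, ℝ), (∀ x, 0 ≤ f x) → 0 ≤ I f) {f g : C(S, ℝ)}
    (h : ∀ x, f x ≤ g x) : I f ≤ I g := by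
  have := hI (g - f) (fun x => by simp only [ContinuousMap.sub_apply, sub_nonneg, h x])
  rw [map_sub] at this; linarith only [this]

theorem Sup.symm (H : Sup I L m mu a b p q h om N) : Sup I L mu m b a q p h om N where
  hI := H.hI
  hsym := H.hsym
  hp := H.hq
  hq := H.hp
  hh := H.hh
  hom := H.hom
  ha := H.hb
  hb := H.ha
  hm := H.hmu
  hmu := H.hm
  ham := H.hamu
  hamu := H.ham
  hP := H.hQ
  hQ := H.hP

/-- Difference of the kinetic parts. -/
theorem kin_diff (H : Sup I L m mu a b p q h om N) (k : ℕ) :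
    kin I L m mu h (k + 1) - kin I L m mu h k
      = I ((mu (k + 2) - mu k) * ((1 / h ^ 2) • (m (k + 2) - 2 * m (k + 1) + m k)
          + L (m (k + 1)))) / 2
        + I ((m (k + 2) - m k) * ((1 / h ^ 2) • (mu (k + 2) - 2 * mu (k + 1) + mu k)
          + L (mu (k + 1)))) / 2 := by
  have hh := H.hh
  unfold kin
  have e1 : I (m (k + 1) * L (mu (k + 1 + 1))) = I (mu (k + 1 + 1) * L (m (k + 1))) := H.hsym _ _
  have e2 : I (m (k + 1) * L (mu k)) = I (mu k * L (m (k + 1))) := H.hsym _ _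
  rw [e1, e2]
  have e3 : (m (k + 1 + 1) - m (k + 1)) * (mu (k + 1 + 1) - mu (k + 1)) -
      (m (k + 1) - m k) * (mu (k + 1) - mu k) =
      (1 / 2 : ℝ) • ((mu (k + 2) - mu k) * (m (k + 2) - 2 * m (k + 1) + m k)) +
      (1 / 2 : ℝ) • ((m (k + 2) - m k) * (mu (k + 2) - 2 * mu (k + 1) + mu k)) := by
    ext x; simp only [ContinuousMap.coe_sub, ContinuousMap.coe_mul, ContinuousMap.coe_add,
      ContinuousMap.coe_smul, Pi.sub_apply, Pi.mul_apply, Pi.add_apply, Pi.smul_apply, smul_eq_mul]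
    have : (2 : C(S, ℝ)) x = 2 := rfl
    rw [this, show k + 1 + 1 = k + 2 from rfl]; ring
  have e4 := congrArg I e3
  rw [map_sub, map_add, map_smul, map_smul, smul_eq_mul, smul_eq_mul] at e4
  have e5 : I ((mu (k + 2) - mu k) * ((1 / h ^ 2) • (m (k + 2) - 2 * m (k + 1) + m k)
      + L (m (k + 1)))) = (1 / h ^ 2) * I ((mu (k + 2) - mu k) * (m (k + 2) - 2 * m (k + 1) + m k))
      + I (mu (k + 2) * L (m (k + 1))) - I (mu k * L (m (k + 1))) := by
    rw [mul_add, map_add, mul_smul_comm, map_smul, sub_mul (mu (k + 2)) (mu k) (L (m (k + 1))),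
      map_sub, smul_eq_mul]; ring
  have e6 : I ((m (k + 2) - m k) * ((1 / h ^ 2) • (mu (k + 2) - 2 * mu (k + 1) + mu k)
      + L (mu (k + 1)))) = (1 / h ^ 2) * I ((m (k + 2) - m k) * (mu (k + 2) - 2 * mu (k + 1) + mu k))
      + I (m (k + 2) * L (mu (k + 1))) - I (m k * L (mu (k + 1))) := by
    rw [mul_add, map_add, mul_smul_comm, map_smul, sub_mul (m (k + 2)) (m k) (L (mu (k + 1))),
      map_sub, smul_eq_mul]; ring
  rw [e5, e6]
  have e7 : I ((m (k + 1 + 1) - m (k + 1)) * (mu (k + 1 + 1) - mu (k + 1))) / h ^ 2 -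
      I ((m (k + 1) - m k) * (mu (k + 1) - mu k)) / h ^ 2 =
      (1 / h ^ 2) * (1 / 2 * I ((mu (k + 2) - mu k) * (m (k + 2) - 2 * m (k + 1) + m k)) +
      1 / 2 * I ((m (k + 2) - m k) * (mu (k + 2) - 2 * mu (k + 1) + mu k))) := by
    rw [← e4]; ring
  have e8 : m (k + 1 + 1) = m (k + 2) := rfl
  have e9 : mu (k + 1 + 1) = mu (k + 2) := rfl
  rw [e8, e9] at e7 ⊢
  linarith only [e7]

/-- One half of the step estimate. -/
theorem half_step (H : Sup I L m mu a b p q h om N) {rho : ℝ}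
    (hrho : ∀ k x, (mu k x) ^ p - (mu (k + 1) x) ^ p ≤ rho) (k : ℕ) (hk : k + 1 < N) :
    - (om / 2) * I (mu k - mu (k + 2)) - rho / 2 * a (k + 1) * I (mu k - mu (k + 2))
      - a (k + 1) * (en I p H.hp mu (k + 2) - en I p H.hp mu k) / (2 * (p + 1)) ≤
    I ((mu (k + 2) - mu k) * ((1 / h ^ 2) • (m (k + 2) - 2 * m (k + 1) + m k)
          + L (m (k + 1)))) / 2 := by
  have hp := H.hp
  have key : ∀ x, - om * (mu k x - mu (k + 2) x) - rho * a (k + 1) * (mu k x - mu (k + 2) x)
      + a (k + 1) / (p + 1) * ((mu k x) ^ (p + 1) - (mu (k + 2) x) ^ (p + 1)) ≤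
      (mu (k + 2) x - mu k x) * ((1 / h ^ 2) * (m (k + 2) x - 2 * m (k + 1) x + m k x)
        + L (m (k + 1)) x) := by
    intro x
    have h0 : mu (k + 2) x ≤ mu k x := le_trans (H.hamu (k + 1) x) (H.hamu k x)
    have h1 := rpow_convex hp (H.hmu k x) (H.hmu (k + 2) x)
    have h2 := H.hP k hk x
    have h3 := hrho k x
    have ha := H.ha (k + 1)
    have h4 : (m (k + 2) x - 2 * m (k + 1) x + m k x) / h ^ 2 =
      (1 / h ^ 2) * (m (k + 2) x - 2 * m (k + 1) x + m k x) := by ring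
    rw [h4] at h2
    set P := (1 / h ^ 2) * (m (k + 2) x - 2 * m (k + 1) x + m k x) + L (m (k + 1)) x with hPdef
    set d := mu k x - mu (k + 2) x with hd
    have hd0 : 0 ≤ d := by linarith only [h0]
    have h5 : P ≤ om - a (k + 1) * (mu (k + 1) x) ^ p := by linarith only [h2]
    have h6 : d * P ≤ d * (om - a (k + 1) * (mu (k + 1) x) ^ p) := by (clear * - h5 h0; gcongr)
    have h7 : a (k + 1) / (p + 1) * ((mu k x) ^ (p + 1) - (mu (k + 2) x) ^ (p + 1)) ≤
        a (k + 1) * (d * (mu k x) ^ p) := by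
      have : a (k + 1) / (p + 1) * ((mu k x) ^ (p + 1) - (mu (k + 2) x) ^ (p + 1)) ≤
          a (k + 1) / (p + 1) * ((p + 1) * (d * (mu k x) ^ p)) := by
        apply mul_le_mul_of_nonneg_left h1 (by (clear * - ha hp; positivity))
      have e : a (k + 1) / (p + 1) * ((p + 1) * (d * (mu k x) ^ p)) =
          a (k + 1) * (d * (mu k x) ^ p) := by (clear * - hp; field_simp)
      linarith only [this, e]
    have h8 : a (k + 1) * (d * ((mu k x) ^ p - (mu (k + 1) x) ^ p)) ≤
        a (k + 1) * (d * rho) := by (clear * - h3 h0 ha; gcongr)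
    have h9 : (mu (k + 2) x - mu k x) * P = - (d * P) := by rw [hd]; ring
    rw [h9]
    nlinarith only [h6, h7, h8]
  have hmono := I_mono H.hI (f := (-om) • (mu k - mu (k + 2)) - (rho * a (k + 1)) • (mu k - mu (k + 2))
      + (a (k + 1) / (p + 1)) • (pw (p + 1) (by linarith only [hp]) (mu k) - pw (p + 1) (by linarith only [hp]) (mu (k + 2))))
    (g := (mu (k + 2) - mu k) * ((1 / h ^ 2) • (m (k + 2) - 2 * m (k + 1) + m k)
          + L (m (k + 1)))) (fun x => by
      have := key x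
      simp only [ContinuousMap.coe_add, ContinuousMap.coe_sub, ContinuousMap.coe_smul, Pi.add_apply, Pi.sub_apply, Pi.smul_apply, smul_eq_mul, pw_apply, ContinuousMap.coe_mul, Pi.mul_apply]
      have h2 : (2 : C(S, ℝ)) x = 2 := rfl
      rw [h2]; linarith)
  rw [map_add, map_sub, map_smul, map_smul, map_smul, map_sub I (pw _ _ _) (pw _ _ _)] at hmono
  simp only [smul_eq_mul] at hmono
  have hen1 : en I p H.hp mu k = I (pw (p + 1) (by linarith only [hp]) (mu k)) := rfl
  have hen2 : en I p H.hp mu (k + 2) = I (pw (p + 1) (by linarith only [hp]) (mu (k + 2))) := rfl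
  rw [hen1, hen2]
  have e : a (k + 1) * (I (pw (p + 1) (by linarith only [hp]) (mu (k + 2))) -
      I (pw (p + 1) (by linarith only [hp]) (mu k))) / (2 * (p + 1)) =
      - (a (k + 1) / (p + 1) * (I (pw (p + 1) (by linarith only [hp]) (mu k)) -
        I (pw (p + 1) (by linarith only [hp]) (mu (k + 2))))) / 2 := by
    field_simp; ring
  rw [e]
  linarith only [hmono]

end

end Vale.Agent.P100.RM
end
end

section

section

/-!
# P100, running minimum: telescoping of the discrete Hamiltonian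
-/

namespace Vale.Agent.P100.RM

open Finset

variable {S : Type*} [TopologicalSpace S]

/-- The discrete Hamiltonian at time `k + 1/2`. -/
noncomputable def HH (I : C(S, ℝ) →ₗ[ℝ] ℝ) (L : C(S, ℝ) →ₗ[ℝ] C(S, ℝ)) (m mu : ℕ → C(S, ℝ))
    (a b : ℕ → ℝ) (p q : ℝ) (hp : 0 < p) (hq : 0 < q) (h : ℝ) (k : ℕ) : ℝ :=
  kin I L m mu h k + pot I p hp a mu k + pot I q hq b m k

section

variable {I : C(S, ℝ) →ₗ[ℝ] ℝ} {L : C(S, ℝ) →ₗ[ℝ] C(S, ℝ)} {m mu : ℕ → C(S, ℝ)}
  {a b : ℕ → ℝ} {p q h om : ℝ} {N : ℕ}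

theorem en_nonneg (H : Sup I L m mu a b p q h om N) (k : ℕ) : 0 ≤ en I p H.hp mu k :=
  H.hI _ (fun x => Real.rpow_nonneg (H.hmu k x).le _)

theorem en_anti (H : Sup I L m mu a b p q h om N) (k : ℕ) :
    en I p H.hp mu (k + 1) ≤ en I p H.hp mu k := by
  apply I_mono H.hI
  intro x
  have hp := H.hp
  exact Real.rpow_le_rpow (H.hmu _ x).le (H.hamu k x) (by linarith only [hp])

theorem half_step2 (H : Sup I L m mu a b p q h om N) {rho C1 abar : ℝ} (hrho0 : 0 ≤ rho)
    (hC1 : 0 ≤ C1)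
    (hrho : ∀ k x, (mu k x) ^ p - (mu (k + 1) x) ^ p ≤ rho)
    (hab : ∀ k, a k ≤ abar) (ha : ∀ k, a k - a (k + 1) ≤ C1 * h * a k)
    (k : ℕ) (hk : k + 1 < N) :
    - ((om + rho * abar) / 2) * I (mu k - mu (k + 2))
      - C1 * h * (a k * en I p H.hp mu k + a (k + 1) * en I p H.hp mu (k + 1)) / (2 * (p + 1)) ≤
    I ((mu (k + 2) - mu k) * ((1 / h ^ 2) • (m (k + 2) - 2 * m (k + 1) + m k)
          + L (m (k + 1)))) / 2 + (pot I p H.hp a mu (k + 1) - pot I p H.hp a mu k) := by
  have h1 := half_step H hrho k hk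
  have hp := H.hp
  have hh := H.hh
  have hd : 0 ≤ I (mu k - mu (k + 2)) := H.hI _ (fun x => by
    have := le_trans (H.hamu (k + 1) x) (H.hamu k x)
    simp only [ContinuousMap.coe_sub, Pi.sub_apply]; linarith only [this])
  have h2 : rho / 2 * a (k + 1) * I (mu k - mu (k + 2)) ≤
      rho / 2 * abar * I (mu k - mu (k + 2)) := by
    have := hab (k + 1)
    (clear * - this hrho0 hd; gcongr)
  have e0 := en_nonneg H k
  have e1 := en_nonneg H (k + 1)
  have e2 := en_nonneg H (k + 2)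
  have e3 := en_anti H (k + 1)
  have hA1 := ha k
  have hA2 := ha (k + 1)
  have f1 : (a k - a (k + 1)) * en I p H.hp mu k ≤ C1 * h * a k * en I p H.hp mu k := by (clear * - H hA1 e0; gcongr)
  have f2 : (a (k + 1) - a (k + 2)) * en I p H.hp mu (k + 2) ≤
      C1 * h * a (k + 1) * en I p H.hp mu (k + 1) := by
    have g0 : 0 ≤ C1 * h * a (k + 1) := by
      have := H.ha (k + 1); (clear * - hC1 hh this; positivity)
    calc (a (k + 1) - a (k + 2)) * en I p H.hp mu (k + 2)
        ≤ C1 * h * a (k + 1) * en I p H.hp mu (k + 2) := by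
          apply mul_le_mul_of_nonneg_right hA2 e2
      _ ≤ C1 * h * a (k + 1) * en I p H.hp mu (k + 1) := by
          apply mul_le_mul_of_nonneg_left e3 g0
  unfold pot
  have hden : 0 < 2 * (p + 1) := by linarith only [hp]
  have key : - (C1 * h * (a k * en I p H.hp mu k + a (k + 1) * en I p H.hp mu (k + 1)))
      / (2 * (p + 1)) ≤ (- a (k + 1) * (en I p H.hp mu (k + 2) - en I p H.hp mu k)
      + ((a (k + 1) * en I p H.hp mu (k + 1) + a (k + 2) * en I p H.hp mu (k + 2)) -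
        (a k * en I p H.hp mu k + a (k + 1) * en I p H.hp mu (k + 1)))) / (2 * (p + 1)) := by
    apply div_le_div_of_nonneg_right _ hden.le
    linarith only [f1, f2]
  have e4 : a (k + 1 + 1) = a (k + 2) := rfl
  have e5 : en I p H.hp mu (k + 1 + 1) = en I p H.hp mu (k + 2) := rfl
  rw [e4, e5]
  have e6 : (- a (k + 1) * (en I p H.hp mu (k + 2) - en I p H.hp mu k)
      + ((a (k + 1) * en I p H.hp mu (k + 1) + a (k + 2) * en I p H.hp mu (k + 2)) -
        (a k * en I p H.hp mu k + a (k + 1) * en I p H.hp mu (k + 1)))) / (2 * (p + 1)) =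
      - (a (k + 1) * (en I p H.hp mu (k + 2) - en I p H.hp mu k)) / (2 * (p + 1))
      + ((a (k + 1) * en I p H.hp mu (k + 1) + a (k + 2) * en I p H.hp mu (k + 2)) / (2 * (p + 1)) -
        (a k * en I p H.hp mu k + a (k + 1) * en I p H.hp mu (k + 1)) / (2 * (p + 1))) := by ring
  rw [e6] at key
  have e7 : - (C1 * h * (a k * en I p H.hp mu k + a (k + 1) * en I p H.hp mu (k + 1)))
      / (2 * (p + 1)) = - (C1 * h * (a k * en I p H.hp mu k + a (k + 1) * en I p H.hp mu (k + 1))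
      / (2 * (p + 1))) := by ring
  rw [e7] at key
  have e8 : - (a (k + 1) * (en I p H.hp mu (k + 2) - en I p H.hp mu k)) / (2 * (p + 1)) =
    - (a (k + 1) * (en I p H.hp mu (k + 2) - en I p H.hp mu k) / (2 * (p + 1))) := by ring
  rw [e8] at key
  linarith only [h1, h2, key]

/-- One step of the discrete Hamiltonian. -/
theorem hh_step (H : Sup I L m mu a b p q h om N) {rho C1 abar : ℝ} (hrho0 : 0 ≤ rho)
    (hC1 : 0 ≤ C1)
    (hrho : ∀ k x, (mu k x) ^ p - (mu (k + 1) x) ^ p ≤ rho)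
    (hrho' : ∀ k x, (m k x) ^ q - (m (k + 1) x) ^ q ≤ rho)
    (hab : ∀ k, a k ≤ abar) (hbb : ∀ k, b k ≤ abar)
    (ha : ∀ k, a k - a (k + 1) ≤ C1 * h * a k) (hb : ∀ k, b k - b (k + 1) ≤ C1 * h * b k)
    (k : ℕ) (hk : k + 1 < N) :
    HH I L m mu a b p q H.hp H.hq h k ≤ HH I L m mu a b p q H.hp H.hq h (k + 1)
      + (om + rho * abar) / 2 * (I (mu k - mu (k + 2)) + I (m k - m (k + 2)))
      + C1 * h * ((a k * en I p H.hp mu k + a (k + 1) * en I p H.hp mu (k + 1)) / (2 * (p + 1))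
        + (b k * en I q H.hq m k + b (k + 1) * en I q H.hq m (k + 1)) / (2 * (q + 1))) := by
  have h1 := half_step2 H hrho0 hC1 hrho hab ha k hk
  have h2 := half_step2 H.symm hrho0 hC1 hrho' hbb hb k hk
  have h3 := kin_diff H k
  unfold HH
  have e1 : C1 * h * (a k * en I p H.hp mu k + a (k + 1) * en I p H.hp mu (k + 1)) /
      (2 * (p + 1)) = C1 * h * ((a k * en I p H.hp mu k + a (k + 1) * en I p H.hp mu (k + 1)) /
      (2 * (p + 1))) := by ring
  have e2 : C1 * h * (b k * en I q H.hq m k + b (k + 1) * en I q H.hq m (k + 1)) /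
      (2 * (q + 1)) = C1 * h * ((b k * en I q H.hq m k + b (k + 1) * en I q H.hq m (k + 1)) /
      (2 * (q + 1))) := by ring
  rw [e1] at h1
  rw [e2] at h2
  (clear * - H h1 h2 h3; linarith)

/-- The energy of the window, `h * ∑_{k ≤ K} (a_k I(μ_k^{p+1})/(p+1) + b_k I(m_k^{q+1})/(q+1))`. -/
noncomputable def WE (I : C(S, ℝ) →ₗ[ℝ] ℝ) (m mu : ℕ → C(S, ℝ))
    (a b : ℕ → ℝ) (p q : ℝ) (hp : 0 < p) (hq : 0 < q) (h : ℝ) (K : ℕ) : ℝ :=
  h * ∑ k ∈ range (K + 1), (a k * en I p hp mu k / (p + 1) + b k * en I q hq m k / (q + 1))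

theorem anti_zero {f : ℕ → C(S, ℝ)} (hf : ∀ k x, f (k + 1) x ≤ f k x) (k : ℕ) (x : S) :
    f k x ≤ f 0 x := by
  induction k with
  | zero => exact le_refl _
  | succ k ih => exact le_trans (hf k x) ih

/-- **Discrete Hamiltonian, telescoped.** -/
theorem hh_tele (H : Sup I L m mu a b p q h om N) {rho C1 abar : ℝ} (hrho0 : 0 ≤ rho)
    (hC1 : 0 ≤ C1) (hab0 : 0 ≤ abar)
    (hrho : ∀ k x, (mu k x) ^ p - (mu (k + 1) x) ^ p ≤ rho)
    (hrho' : ∀ k x, (m k x) ^ q - (m (k + 1) x) ^ q ≤ rho)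
    (hab : ∀ k, a k ≤ abar) (hbb : ∀ k, b k ≤ abar)
    (ha : ∀ k, a k - a (k + 1) ≤ C1 * h * a k) (hb : ∀ k, b k - b (k + 1) ≤ C1 * h * b k)
    (K : ℕ) (hK : K < N) :
    HH I L m mu a b p q H.hp H.hq h 0 ≤ HH I L m mu a b p q H.hp H.hq h K
      + (om + rho * abar) * (I (mu 0) + I (m 0)) + C1 * WE I m mu a b p q H.hp H.hq h K := by
  have hp := H.hp
  have hq := H.hq
  have hh := H.hh
  have hom := H.hom
  -- stronger induction statement
  have key : ∀ K, K < N →
      HH I L m mu a b p q H.hp H.hq h 0 ≤ HH I L m mu a b p q H.hp H.hq h K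
      + (om + rho * abar) / 2 * (I (mu 0) + I (mu 1) - I (mu K) - I (mu (K + 1))
        + (I (m 0) + I (m 1) - I (m K) - I (m (K + 1))))
      + C1 * h * ∑ k ∈ range K, ((a k * en I p H.hp mu k + a (k + 1) * en I p H.hp mu (k + 1))
          / (2 * (p + 1))
        + (b k * en I q H.hq m k + b (k + 1) * en I q H.hq m (k + 1)) / (2 * (q + 1))) := by
    intro K
    induction K with
    | zero => intro _; simp only [add_sub_cancel_left, zero_add, sub_self, add_zero, mul_zero, range_zero, sum_empty, Std.le_refl]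
    | succ K ih =>
      intro hK
      have h1 := ih (by omega)
      have h2 := hh_step H hrho0 hC1 hrho hrho' hab hbb ha hb K hK
      rw [sum_range_succ, mul_add]
      rw [map_sub, map_sub] at h2
      have e : K + 1 + 1 = K + 2 := rfl
      rw [e]
      linarith only [h1, h2]
  have h1 := key K hK
  have hmu0 : ∀ k, 0 ≤ I (mu k) := fun k => H.hI _ (fun x => (H.hmu k x).le)
  have hm0 : ∀ k, 0 ≤ I (m k) := fun k => H.hI _ (fun x => (H.hm k x).le)
  have hmu1 : I (mu 1) ≤ I (mu 0) := I_mono H.hI (H.hamu 0)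
  have hm1 : I (m 1) ≤ I (m 0) := I_mono H.hI (H.ham 0)
  have h2 : (om + rho * abar) / 2 * (I (mu 0) + I (mu 1) - I (mu K) - I (mu (K + 1))
        + (I (m 0) + I (m 1) - I (m K) - I (m (K + 1)))) ≤
      (om + rho * abar) / 2 * (2 * (I (mu 0) + I (m 0))) := by
    apply mul_le_mul_of_nonneg_left _ (by (clear * - hom hrho0 hab0; positivity))
    have := hmu0 K; have := hmu0 (K + 1); have := hm0 K; have := hm0 (K + 1)
    (clear rho C1 abar hrho0 hC1 hab0 hrho hrho' hab hbb ha hb hK hp hq hh hom key h1; linarith)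
  have h3 : C1 * h * ∑ k ∈ range K, ((a k * en I p H.hp mu k + a (k + 1) * en I p H.hp mu (k + 1))
          / (2 * (p + 1))
        + (b k * en I q H.hq m k + b (k + 1) * en I q H.hq m (k + 1)) / (2 * (q + 1))) ≤
      C1 * WE I m mu a b p q H.hp H.hq h K := by
    unfold WE
    rw [mul_assoc]
    apply mul_le_mul_of_nonneg_left _ hC1
    apply mul_le_mul_of_nonneg_left _ hh.le
    have hF : ∀ k, 0 ≤ a k * en I p H.hp mu k / (p + 1) + b k * en I q H.hq m k / (q + 1) := by
      intro k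
      have g1 := en_nonneg H k
      have g2 := en_nonneg H.symm k
      have g3 := H.ha k
      have g4 := H.hb k
      (clear * - H g3 g1 hp g4 g2 hq; positivity)
    have hs1 : ∑ k ∈ range K, (a k * en I p H.hp mu k / (p + 1) + b k * en I q H.hq m k / (q + 1))
        ≤ ∑ k ∈ range (K + 1), (a k * en I p H.hp mu k / (p + 1)
          + b k * en I q H.hq m k / (q + 1)) := by
      rw [sum_range_succ]; linarith only [hF K]
    have hs2 : ∑ k ∈ range K, (a (k + 1) * en I p H.hp mu (k + 1) / (p + 1)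
          + b (k + 1) * en I q H.hq m (k + 1) / (q + 1))
        ≤ ∑ k ∈ range (K + 1), (a k * en I p H.hp mu k / (p + 1)
          + b k * en I q H.hq m k / (q + 1)) := by
      rw [sum_range_succ' _ K]; linarith only [hF 0]
    have hs3 : ∑ k ∈ range K, ((a k * en I p H.hp mu k + a (k + 1) * en I p H.hp mu (k + 1))
          / (2 * (p + 1))
        + (b k * en I q H.hq m k + b (k + 1) * en I q H.hq m (k + 1)) / (2 * (q + 1))) =
        1 / 2 * ∑ k ∈ range K, (a k * en I p H.hp mu k / (p + 1) + b k * en I q H.hq m k / (q + 1))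
        + 1 / 2 * ∑ k ∈ range K, (a (k + 1) * en I p H.hp mu (k + 1) / (p + 1)
          + b (k + 1) * en I q H.hq m (k + 1) / (q + 1)) := by
      rw [mul_sum, mul_sum, ← sum_add_distrib]
      apply sum_congr rfl
      intro k _
      field_simp
      ring
    rw [hs3]; linarith only [hs1, hs2]
  linarith

end

end Vale.Agent.P100.RM
end
end

section

section

/-!
# P100, running minimum: virial identity (Step 2) and the discrete main inequality
-/

namespace Vale.Agent.P100.RM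

open Finset

variable {S : Type*} [TopologicalSpace S]

/-- Kinetic energy of the running minima. -/
noncomputable def KE (I : C(S, ℝ) →ₗ[ℝ] ℝ) (m mu : ℕ → C(S, ℝ)) (h : ℝ) (n : ℕ) : ℝ :=
  (∑ k ∈ range (n + 1), I ((m (k + 1) - m k) * (mu (k + 1) - mu k))) / h

section

variable {I : C(S, ℝ) →ₗ[ℝ] ℝ} {L : C(S, ℝ) →ₗ[ℝ] C(S, ℝ)} {m mu : ℕ → C(S, ℝ)}
  {a b : ℕ → ℝ} {p q h om : ℝ} {N : ℕ}

theorem tsum_drop (H : Sup I L m mu a b p q h om N) (n : ℕ) :
    ∑ k ∈ range (n + 1), I (mu 0 * (m k - m (k + 1))) ≤ I (mu 0 * m 0) := by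
  have h1 : ∀ n, ∑ k ∈ range n, I (mu 0 * (m k - m (k + 1))) = I (mu 0 * m 0) - I (mu 0 * m n) := by
    intro n
    induction n with
    | zero => simp only [range_zero, sum_empty, sub_self]
    | succ n ih => rw [sum_range_succ, ih, mul_sub, map_sub]; ring
  rw [h1]
  have : 0 ≤ I (mu 0 * m (n + 1)) := H.hI _ (fun x => by
    have := H.hmu 0 x; have := H.hm (n + 1) x
    simp only [ContinuousMap.coe_mul, Pi.mul_apply]; positivity)
  linarith only [this]

/-- Virial inequality for one component. -/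
theorem virial (H : Sup I L m mu a b p q h om N) {eta : ℕ → ℝ} {ce : ℝ} {n : ℕ} (hn : n < N)
    (he0 : ∀ k, 0 ≤ eta k) (he1 : ∀ k, eta k ≤ 1) (hen : eta (n + 1) = 0)
    (hce : ∀ k, |eta (k + 1) - eta k| ≤ ce) :
    h * ∑ k ∈ range n, eta (k + 1) * (I (mu (k + 1) * L (m (k + 1)))
        + a (k + 1) * en I p H.hp mu (k + 1)) ≤
      (∑ k ∈ range (n + 1), eta k * I ((m (k + 1) - m k) * (mu (k + 1) - mu k))) / h
        + ce / h * I (mu 0 * m 0) + om * (n * h) * I (mu 0) := by
  have hh := H.hh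
  have hp := H.hp
  have hom := H.hom
  have hce0 : 0 ≤ ce := le_trans (abs_nonneg _) (hce 0)
  -- the inequality at each index
  have h1 : ∀ k ∈ range n, eta (k + 1) * (I (mu (k + 1) * L (m (k + 1)))
        + a (k + 1) * en I p H.hp mu (k + 1)) ≤
      - (1 / h ^ 2) * (eta (k + 1) * (I (mu (k + 1) * (m (k + 2) - m (k + 1)))
        - I (mu (k + 1) * (m (k + 1) - m k)))) + om * I (mu 0) := by
    intro k hk
    have hk' : k < n := mem_range.mp hk
    have hPk := H.hP k (by omega)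
    have e1 : en I p H.hp mu (k + 1) = I (mu (k + 1) * pw p hp.le (mu (k + 1))) := by
      unfold en
      congr 1
      ext x
      simp only [pw_apply, ContinuousMap.coe_mul, Pi.mul_apply]
      rw [Real.rpow_add (H.hmu (k + 1) x), Real.rpow_one]; ring
    have h2 : I (mu (k + 1) * ((1 / h ^ 2) • ((m (k + 2) - m (k + 1)) - (m (k + 1) - m k))
        + L (m (k + 1)) + a (k + 1) • pw p hp.le (mu (k + 1)))) ≤ I (om • mu (k + 1)) := by
      apply I_mono H.hI
      intro x
      have hx := hPk x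
      have hm := H.hmu (k + 1) x
      have e2 : (m (k + 2) x - 2 * m (k + 1) x + m k x) / h ^ 2 =
        (1 / h ^ 2) * ((m (k + 2) x - m (k + 1) x) - (m (k + 1) x - m k x)) := by ring
      rw [e2] at hx
      simp only [ContinuousMap.coe_sub, ContinuousMap.coe_mul, ContinuousMap.coe_add,
        ContinuousMap.coe_smul, Pi.sub_apply, Pi.mul_apply, Pi.add_apply, Pi.smul_apply,
        smul_eq_mul, pw_apply]
      have := mul_le_mul_of_nonneg_left hx hm.le
      linarith only [this]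
    rw [mul_add, mul_add, map_add, map_add, mul_smul_comm, map_smul, mul_smul_comm, map_smul,
      map_smul, mul_sub, map_sub, ← e1] at h2
    simp only [smul_eq_mul] at h2
    have h3 : I (mu (k + 1)) ≤ I (mu 0) := I_mono H.hI (anti_zero H.hamu (k + 1))
    have h3' : 0 ≤ I (mu (k + 1)) := H.hI _ (fun x => (H.hmu _ x).le)
    have h4 := mul_le_mul_of_nonneg_left h2 (he0 (k + 1))
    have h5 : eta (k + 1) * (om * I (mu (k + 1))) ≤ om * I (mu 0) := by
      calc eta (k + 1) * (om * I (mu (k + 1))) ≤ 1 * (om * I (mu (k + 1))) := by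
            apply mul_le_mul_of_nonneg_right (he1 _) (by (clear * - hom h3'; positivity))
        _ ≤ om * I (mu 0) := by rw [one_mul]; (clear * - h3 hom; gcongr)
    linarith
  have h2 := sum_le_sum h1
  rw [sum_add_distrib, sum_const, card_range, nsmul_eq_mul, ← mul_sum] at h2
  -- summation by parts
  have h3 : ∑ k ∈ range n, eta (k + 1) * (I (mu (k + 1) * (m (k + 2) - m (k + 1)))
        - I (mu (k + 1) * (m (k + 1) - m k))) =
      - (∑ k ∈ range (n + 1), eta k * I ((m (k + 1) - m k) * (mu (k + 1) - mu k)))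
      - (∑ k ∈ range (n + 1), (eta (k + 1) - eta k) * I (mu (k + 1) * (m (k + 1) - m k)))
      - eta 0 * I (mu 0 * (m 1 - m 0)) := by
    have g1 : ∑ k ∈ range n, eta (k + 1) * I (mu (k + 1) * (m (k + 2) - m (k + 1))) =
        ∑ k ∈ range (n + 1), eta k * I (mu k * (m (k + 1) - m k))
          - eta 0 * I (mu 0 * (m 1 - m 0)) := by
      rw [sum_range_succ' _ n]; ring
    have g2 : ∑ k ∈ range n, eta (k + 1) * I (mu (k + 1) * (m (k + 1) - m k)) =
        ∑ k ∈ range (n + 1), eta (k + 1) * I (mu (k + 1) * (m (k + 1) - m k)) := by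
      rw [sum_range_succ, hen]; ring
    have g3 : ∑ k ∈ range n, eta (k + 1) * (I (mu (k + 1) * (m (k + 2) - m (k + 1)))
        - I (mu (k + 1) * (m (k + 1) - m k))) =
        ∑ k ∈ range n, eta (k + 1) * I (mu (k + 1) * (m (k + 2) - m (k + 1)))
        - ∑ k ∈ range n, eta (k + 1) * I (mu (k + 1) * (m (k + 1) - m k)) := by
      rw [← sum_sub_distrib]
      apply sum_congr rfl; intro k _; ring
    rw [g3, g1, g2]
    have g4 : ∑ k ∈ range (n + 1), eta k * I (mu k * (m (k + 1) - m k))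
        - ∑ k ∈ range (n + 1), eta (k + 1) * I (mu (k + 1) * (m (k + 1) - m k)) =
        - (∑ k ∈ range (n + 1), eta k * I ((m (k + 1) - m k) * (mu (k + 1) - mu k)))
      - (∑ k ∈ range (n + 1), (eta (k + 1) - eta k) * I (mu (k + 1) * (m (k + 1) - m k))) := by
      rw [← sum_sub_distrib, ← sum_neg_distrib, ← sum_sub_distrib]
      apply sum_congr rfl
      intro k _
      have : I ((m (k + 1) - m k) * (mu (k + 1) - mu k)) =
          I (mu (k + 1) * (m (k + 1) - m k)) - I (mu k * (m (k + 1) - m k)) := by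
        rw [← map_sub]; congr 1; ring
      rw [this]; ring
    linarith only [g4]
  rw [h3] at h2
  -- boundary term
  have h4 : I (mu 0 * (m 1 - m 0)) ≤ 0 := by
    have : I (mu 0 * (m 1 - m 0)) ≤ I 0 := by
      apply I_mono H.hI
      intro x
      have g1 := H.hmu 0 x
      have g2 := H.ham 0 x
      simp only [ContinuousMap.coe_sub, ContinuousMap.coe_mul, Pi.sub_apply, Pi.mul_apply,
        ContinuousMap.coe_zero, Pi.zero_apply]
      have : 0 ≤ mu 0 x * (m 0 x - m 1 x) := mul_nonneg g1.le (by simpa only [sub_nonneg, zero_add] using g2)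
      linarith only [this]
    simpa only [ge_iff_le, map_zero] using this
  have h5 : ∑ k ∈ range (n + 1), (eta (k + 1) - eta k) * I (mu (k + 1) * (m (k + 1) - m k)) ≤
      ce * I (mu 0 * m 0) := by
    calc ∑ k ∈ range (n + 1), (eta (k + 1) - eta k) * I (mu (k + 1) * (m (k + 1) - m k))
        ≤ ∑ k ∈ range (n + 1), ce * I (mu 0 * (m k - m (k + 1))) := by
          apply sum_le_sum
          intro k _
          have g1 : I (mu (k + 1) * (m k - m (k + 1))) ≤ I (mu 0 * (m k - m (k + 1))) := by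
            apply I_mono H.hI
            intro x
            simp only [ContinuousMap.coe_sub, ContinuousMap.coe_mul, Pi.sub_apply, Pi.mul_apply]
            apply mul_le_mul_of_nonneg_right (anti_zero H.hamu (k + 1) x)
            have := H.ham k x; linarith only [this]
          have g0 : 0 ≤ I (mu (k + 1) * (m k - m (k + 1))) := by
            apply H.hI
            intro x
            simp only [ContinuousMap.coe_sub, ContinuousMap.coe_mul, Pi.sub_apply, Pi.mul_apply]
            apply mul_nonneg (H.hmu _ x).le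
            have := H.ham k x; linarith only [this]
          have g2 : I (mu (k + 1) * (m (k + 1) - m k)) = - I (mu (k + 1) * (m k - m (k + 1))) := by
            rw [← map_neg]; congr 1; ring
          rw [g2]
          have g3 := hce k
          have g4 : -(eta (k + 1) - eta k) ≤ ce := le_trans (neg_le_abs _) g3
          calc (eta (k + 1) - eta k) * -I (mu (k + 1) * (m k - m (k + 1)))
              = -(eta (k + 1) - eta k) * I (mu (k + 1) * (m k - m (k + 1))) := by ring
            _ ≤ ce * I (mu (k + 1) * (m k - m (k + 1))) := mul_le_mul_of_nonneg_right g4 g0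
            _ ≤ ce * I (mu 0 * (m k - m (k + 1))) := mul_le_mul_of_nonneg_left g1 hce0
      _ = ce * ∑ k ∈ range (n + 1), I (mu 0 * (m k - m (k + 1))) := by rw [mul_sum]
      _ ≤ ce * I (mu 0 * m 0) := mul_le_mul_of_nonneg_left (tsum_drop H n) hce0
  have h6 := mul_le_mul_of_nonneg_left h2 hh.le
  refine le_trans h6 ?_
  have hh2 : h * (-(1 / h ^ 2) * (-(∑ k ∈ range (n + 1), eta k * I ((m (k + 1) - m k) * (mu (k + 1) - mu k)))
      - (∑ k ∈ range (n + 1), (eta (k + 1) - eta k) * I (mu (k + 1) * (m (k + 1) - m k)))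
      - eta 0 * I (mu 0 * (m 1 - m 0))) + ↑n * (om * I (mu 0))) =
      (∑ k ∈ range (n + 1), eta k * I ((m (k + 1) - m k) * (mu (k + 1) - mu k))) / h
      + (∑ k ∈ range (n + 1), (eta (k + 1) - eta k) * I (mu (k + 1) * (m (k + 1) - m k))) / h
      + eta 0 * I (mu 0 * (m 1 - m 0)) / h + om * (n * h) * I (mu 0) := by
    field_simp
    ring
  rw [hh2]
  have h7 : (∑ k ∈ range (n + 1), (eta (k + 1) - eta k) * I (mu (k + 1) * (m (k + 1) - m k))) / h ≤
      ce / h * I (mu 0 * m 0) := by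
    rw [div_mul_eq_mul_div]
    exact div_le_div_of_nonneg_right h5 hh.le
  have h8 : eta 0 * I (mu 0 * (m 1 - m 0)) / h ≤ 0 := by
    apply div_nonpos_of_nonpos_of_nonneg _ hh.le
    exact mul_nonpos_of_nonneg_of_nonpos (he0 0) h4
  linarith only [h7, h8]

end

end Vale.Agent.P100.RM
end
end

section

section

/-!
# P100, running minimum: the discrete main inequality
-/

namespace Vale.Agent.P100.RM

open Finset

variable {S : Type*} [TopologicalSpace S]

/-- The cut-off `1 - k/(n+1)`. -/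
noncomputable def etaf (n k : ℕ) : ℝ := max (1 - (k : ℝ) / (n + 1)) 0

theorem etaf_nonneg (n k : ℕ) : 0 ≤ etaf n k := le_max_right _ _

theorem etaf_le_one (n k : ℕ) : etaf n k ≤ 1 := by
  unfold etaf
  apply max_le _ zero_le_one
  have : 0 ≤ (k : ℝ) / (n + 1) := by positivity
  linarith only [this]

theorem etaf_end (n : ℕ) : etaf n (n + 1) = 0 := by
  unfold etaf
  apply max_eq_right
  push_cast
  rw [div_self (by positivity)]; linarith only []

theorem etaf_diff (n k : ℕ) : |etaf n (k + 1) - etaf n k| ≤ 1 / ((n : ℝ) + 1) := by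
  unfold etaf
  refine le_trans (abs_max_sub_max_le_abs _ _ _) ?_
  have : (1 - ((k + 1 : ℕ) : ℝ) / (n + 1)) - (1 - (k : ℝ) / (n + 1)) = - (1 / ((n : ℝ) + 1)) := by
    push_cast; field_simp; ring
  rw [this, abs_neg, abs_of_nonneg (by positivity)]

theorem etaf_sum (n : ℕ) : ∑ k ∈ range n, etaf n (k + 1) = n / 2 := by
  have h1 : ∀ k ∈ range n, etaf n (k + 1) = 1 - ((k : ℝ) + 1) / (n + 1) := by
    intro k hk
    have hk' : k < n := mem_range.mp hk
    unfold etaf
    rw [max_eq_left]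
    · push_cast; ring
    · push_cast
      have : ((k : ℝ) + 1) / (n + 1) ≤ 1 := by
        rw [div_le_one (by positivity)]
        have : (k : ℝ) + 1 ≤ n := by exact_mod_cast hk'
        linarith only [this]
      linarith
  rw [sum_congr rfl h1, sum_sub_distrib, sum_const, card_range, ← sum_div]
  have h2 : ∀ n : ℕ, ∑ k ∈ range n, ((k : ℝ) + 1) = n * (n + 1) / 2 := by
    intro n
    induction n with
    | zero => simp only [range_zero, sum_empty, CharP.cast_eq_zero, zero_add, mul_one, zero_div]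
    | succ n ih => rw [sum_range_succ, ih]; push_cast; ring
  rw [h2]
  simp only [nsmul_eq_mul, mul_one]
  have : (n : ℝ) + 1 ≠ 0 := by positivity
  field_simp
  ring

section

variable {I : C(S, ℝ) →ₗ[ℝ] ℝ} {L : C(S, ℝ) →ₗ[ℝ] C(S, ℝ)} {m mu : ℕ → C(S, ℝ)}
  {a b : ℕ → ℝ} {p q h om : ℝ} {N : ℕ}

/-- Upper bound of the kinetic part of the Hamiltonian. -/
theorem kin_le (H : Sup I L m mu a b p q h om N) {Lam : ℝ}
    (hL : ∀ k x, |L (mu k) x| ≤ Lam) (hL' : ∀ k x, |L (m k) x| ≤ Lam) (k : ℕ) :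
    kin I L m mu h k ≤ I ((m (k + 1) - m k) * (mu (k + 1) - mu k)) / h ^ 2
      + I (m k * L (mu k)) + Lam / 2 * (I (m k - m (k + 1)) + I (mu k - mu (k + 1))) := by
  unfold kin
  have key : ∀ (f g f' : C(S, ℝ)), (∀ x, f' x ≤ f x) → (∀ x, |L g x| ≤ Lam) →
      I (f' * L g) ≤ I (f * L g) + Lam * I (f - f') := by
    intro f g f' hf hg
    have : I (f' * L g) ≤ I (f * L g + Lam • (f - f')) := by
      apply I_mono H.hI
      intro x
      have h1 := hf x
      have h2 := abs_le.mp (hg x)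
      simp only [ContinuousMap.coe_sub, ContinuousMap.coe_mul, ContinuousMap.coe_add,
        ContinuousMap.coe_smul, Pi.sub_apply, Pi.mul_apply, Pi.add_apply, Pi.smul_apply,
        smul_eq_mul]
      have h3 : (f x - f' x) * (- Lam) ≤ (f x - f' x) * L g x :=
        mul_le_mul_of_nonneg_left h2.1 (by linarith only [h1])
      linarith
    rwa [map_add, map_smul, smul_eq_mul] at this
  have h1 := key (m k) (mu k) (m (k + 1)) (H.ham k) (hL k)
  have h2 := key (mu k) (m k) (mu (k + 1)) (H.hamu k) (hL' k)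
  have h3 : I (m k * L (mu (k + 1))) = I (mu (k + 1) * L (m k)) := H.hsym _ _
  have h4 : I (mu k * L (m k)) = I (m k * L (mu k)) := H.hsym _ _
  rw [h3]; rw [h4] at h2
  (clear * - h1 h2; linarith)

theorem pot_le (H : Sup I L m mu a b p q h om N) (ha' : ∀ k, a (k + 1) ≤ a k) (k : ℕ) :
    pot I p H.hp a mu k ≤ a k * en I p H.hp mu k / (p + 1) := by
  have hp := H.hp
  unfold pot
  have h1 := en_anti H k
  have h2 := en_nonneg H (k + 1)
  have h3 : a (k + 1) * en I p H.hp mu (k + 1) ≤ a k * en I p H.hp mu k :=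
    mul_le_mul (ha' k) h1 h2 (H.ha k)
  rw [div_le_div_iff₀ (by linarith only [hp]) (by linarith only [hp])]
  (clear * - H h3 hp; nlinarith)

theorem diff_sum_le (H : Sup I L m mu a b p q h om N) (n : ℕ) :
    ∑ k ∈ range n, I (m (k + 1) - m (k + 2)) ≤ I (m 0) := by
  have h1 : ∀ n, ∑ k ∈ range n, I (m (k + 1) - m (k + 2)) = I (m 1) - I (m (n + 1)) := by
    intro n
    induction n with
    | zero => simp only [range_zero, map_sub, sum_sub_distrib, sum_empty, sub_self, zero_add]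
    | succ n ih => rw [sum_range_succ, ih, map_sub]; ring
  rw [h1]
  have h2 : 0 ≤ I (m (n + 1)) := H.hI _ (fun x => (H.hm _ x).le)
  have h3 : I (m 1) ≤ I (m 0) := I_mono H.hI (H.ham 0)
  linarith only [h2, h3]

theorem dd_nonneg (H : Sup I L m mu a b p q h om N) (k : ℕ) :
    0 ≤ I ((m (k + 1) - m k) * (mu (k + 1) - mu k)) := by
  apply H.hI
  intro x
  have g1 := H.ham k x
  have g2 := H.hamu k x
  simp only [ContinuousMap.coe_sub, ContinuousMap.coe_mul, Pi.sub_apply, Pi.mul_apply]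
  exact mul_nonneg_of_nonpos_of_nonpos (by linarith only [g1]) (by linarith)

theorem ham_term (H : Sup I L m mu a b p q h om N) {Lam : ℝ} (hLam : 0 ≤ Lam)
    (ha' : ∀ k, a (k + 1) ≤ a k) (hb' : ∀ k, b (k + 1) ≤ b k)
    (hL : ∀ k x, |L (mu k) x| ≤ Lam) (hL' : ∀ k x, |L (m k) x| ≤ Lam)
    {eta : ℕ → ℝ} (he0 : ∀ k, 0 ≤ eta k) (he1 : ∀ k, eta k ≤ 1) (k : ℕ) :
    eta k * HH I L m mu a b p q H.hp H.hq h k ≤
        eta k * I ((m (k + 1) - m k) * (mu (k + 1) - mu k)) / h ^ 2
        + eta k * I (m k * L (mu k))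
        + Lam / 2 * (I (m k - m (k + 1)) + I (mu k - mu (k + 1)))
        + eta k * (a k * en I p H.hp mu k) / (p + 1)
        + eta k * (b k * en I q H.hq m k) / (q + 1) := by
  have f1 := kin_le H hL hL' k
  have f2 := pot_le H ha' k
  have f3 := pot_le H.symm hb' k
  have e0 := he0 k
  have e1 := he1 k
  have f4 : HH I L m mu a b p q H.hp H.hq h k ≤
    I ((m (k + 1) - m k) * (mu (k + 1) - mu k)) / h ^ 2
    + I (m k * L (mu k))
    + Lam / 2 * (I (m k - m (k + 1)) + I (mu k - mu (k + 1)))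
    + (a k * en I p H.hp mu k) / (p + 1)
    + (b k * en I q H.hq m k) / (q + 1) := by
    unfold HH; linarith only [f1, f2, f3]
  have f5 := mul_le_mul_of_nonneg_left f4 e0
  have g0 : 0 ≤ Lam / 2 * (I (m k - m (k + 1)) + I (mu k - mu (k + 1))) := by
    apply mul_nonneg (by linarith only [hLam])
    apply add_nonneg
    · apply H.hI; intro x; have := H.ham k x
      simp only [ContinuousMap.coe_sub, Pi.sub_apply]; linarith only [this]
    · apply H.hI; intro x; have := H.hamu k x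
      simp only [ContinuousMap.coe_sub, Pi.sub_apply]; linarith only [this]
  have f6 : eta k * (Lam / 2 * (I (m k - m (k + 1)) + I (mu k - mu (k + 1))))
      ≤ Lam / 2 * (I (m k - m (k + 1)) + I (mu k - mu (k + 1))) := by
    calc _ ≤ 1 * (Lam / 2 * (I (m k - m (k + 1)) + I (mu k - mu (k + 1)))) :=
          mul_le_mul_of_nonneg_right e1 g0
      _ = _ := one_mul _
  refine le_trans f5 ?_
  have e2 : eta k * (I ((m (k + 1) - m k) * (mu (k + 1) - mu k)) / h ^ 2
    + I (m k * L (mu k))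
    + Lam / 2 * (I (m k - m (k + 1)) + I (mu k - mu (k + 1)))
    + (a k * en I p H.hp mu k) / (p + 1)
    + (b k * en I q H.hq m k) / (q + 1)) =
    eta k * I ((m (k + 1) - m k) * (mu (k + 1) - mu k)) / h ^ 2
    + eta k * I (m k * L (mu k))
    + eta k * (Lam / 2 * (I (m k - m (k + 1)) + I (mu k - mu (k + 1))))
    + eta k * (a k * en I p H.hp mu k) / (p + 1)
    + eta k * (b k * en I q H.hq m k) / (q + 1) := by ring
  rw [e2]; linarith only [f6]

theorem ham_sum (H : Sup I L m mu a b p q h om N) {Lam : ℝ} (hLam : 0 ≤ Lam)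
    (ha' : ∀ k, a (k + 1) ≤ a k) (hb' : ∀ k, b (k + 1) ≤ b k)
    (hL : ∀ k x, |L (mu k) x| ≤ Lam) (hL' : ∀ k x, |L (m k) x| ≤ Lam)
    {eta : ℕ → ℝ} (he0 : ∀ k, 0 ≤ eta k) (he1 : ∀ k, eta k ≤ 1) (n : ℕ) :
    h * ∑ k ∈ range n, eta (k + 1) * HH I L m mu a b p q H.hp H.hq h (k + 1) ≤
      (∑ k ∈ range (n + 1), eta k * I ((m (k + 1) - m k) * (mu (k + 1) - mu k))) / h
      + h * ∑ k ∈ range n, eta (k + 1) * I (m (k + 1) * L (mu (k + 1)))
      + h * Lam / 2 * (I (m 0) + I (mu 0))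
      + (h * ∑ k ∈ range n, eta (k + 1) * (a (k + 1) * en I p H.hp mu (k + 1))) / (p + 1)
      + (h * ∑ k ∈ range n, eta (k + 1) * (b (k + 1) * en I q H.hq m (k + 1))) / (q + 1) := by
  have hh := H.hh
  have g2 := sum_le_sum (fun k (_ : k ∈ range n) =>
    ham_term H hLam ha' hb' hL hL' he0 he1 (k + 1))
  simp only [sum_add_distrib] at g2
  have g3 := mul_le_mul_of_nonneg_left g2 hh.le
  refine le_trans g3 ?_
  have k1 : h * ∑ k ∈ range n, eta (k + 1) * I ((m (k + 1 + 1) - m (k + 1)) *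
      (mu (k + 1 + 1) - mu (k + 1))) / h ^ 2 ≤
      (∑ k ∈ range (n + 1), eta k * I ((m (k + 1) - m k) * (mu (k + 1) - mu k))) / h := by
    rw [sum_range_succ' _ n, ← sum_div]
    have : h * ((∑ k ∈ range n, eta (k + 1) * I ((m (k + 1 + 1) - m (k + 1)) *
      (mu (k + 1 + 1) - mu (k + 1)))) / h ^ 2) = (∑ k ∈ range n, eta (k + 1) *
        I ((m (k + 1 + 1) - m (k + 1)) * (mu (k + 1 + 1) - mu (k + 1)))) / h := by (clear * - hh; field_simp)
    rw [this]
    apply div_le_div_of_nonneg_right _ hh.le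
    have := mul_nonneg (he0 0) (dd_nonneg H 0)
    linarith only [this]
  have k2 : ∑ k ∈ range n, Lam / 2 * (I (m (k + 1) - m (k + 1 + 1)) +
      I (mu (k + 1) - mu (k + 1 + 1))) ≤ Lam / 2 * (I (m 0) + I (mu 0)) := by
    rw [← mul_sum, sum_add_distrib]
    apply mul_le_mul_of_nonneg_left _ (by linarith only [hLam])
    have := diff_sum_le H n
    have := diff_sum_le H.symm n
    (clear Lam hLam ha' hb' hL hL' eta he0 he1 hh g2 g3 k1; linarith)
  have k3 := mul_le_mul_of_nonneg_left k2 hh.le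
  have k4 : h * ∑ k ∈ range n, eta (k + 1) * (a (k + 1) * en I p H.hp mu (k + 1)) / (p + 1) =
      (h * ∑ k ∈ range n, eta (k + 1) * (a (k + 1) * en I p H.hp mu (k + 1))) / (p + 1) := by
    rw [← sum_div]; ring
  have k5 : h * ∑ k ∈ range n, eta (k + 1) * (b (k + 1) * en I q H.hq m (k + 1)) / (q + 1) =
      (h * ∑ k ∈ range n, eta (k + 1) * (b (k + 1) * en I q H.hq m (k + 1))) / (q + 1) := by
    rw [← sum_div]; ring
  rw [mul_add, mul_add, mul_add, mul_add, k4, k5]
  linarith only [k1, k3]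

/-- Final algebra. -/
theorem final_alg {KK J E1 E2 R1 R2 R s1 s2 X Y : ℝ} (hs1 : 0 < s1) (hs2 : 0 < s2)
    (hs : s1 + s2 ≤ 1) (hE1 : 0 ≤ E1) (hV1 : J + E1 ≤ KK + R1) (hV2 : J + E2 ≤ KK + R2)
    (hR1 : R1 ≤ R) (hR2 : R2 ≤ R) (hX : X ≤ KK + J + Y + s1 * E1 + s2 * E2) :
    X ≤ 2 * KK + R + Y := by
  have A1 := mul_le_mul_of_nonneg_left (show E1 ≤ KK + R - J by linarith only [hV1, hR1]) hs1.le
  have A2 := mul_le_mul_of_nonneg_left (show E2 ≤ KK + R - J by linarith only [hV2, hR2]) hs2.le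
  have h0 : 0 ≤ KK + R - J := by linarith only [hE1, hV1, hR1]
  have h1 := mul_le_mul_of_nonneg_right hs h0
  linarith only [hX, A1, A2, h1]

/-- Weighted sum of the telescoped inequality. -/
theorem tele_sum (H : Sup I L m mu a b p q h om N) {rho C1 abar : ℝ} {n : ℕ} (hn : n < N)
    (hrho0 : 0 ≤ rho) (hC1 : 0 ≤ C1) (hab0 : 0 ≤ abar)
    (hrho : ∀ k x, (mu k x) ^ p - (mu (k + 1) x) ^ p ≤ rho)
    (hrho' : ∀ k x, (m k x) ^ q - (m (k + 1) x) ^ q ≤ rho)
    (hab : ∀ k, a k ≤ abar) (hbb : ∀ k, b k ≤ abar)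
    (ha : ∀ k, a k - a (k + 1) ≤ C1 * h * a k) (hb : ∀ k, b k - b (k + 1) ≤ C1 * h * b k) :
    (n * h / 2) * HH I L m mu a b p q H.hp H.hq h 0 ≤
      h * ∑ k ∈ range n, etaf n (k + 1) * HH I L m mu a b p q H.hp H.hq h (k + 1)
      + (n * h / 2) * ((om + rho * abar) * (I (mu 0) + I (m 0))
        + C1 * WE I m mu a b p q H.hp H.hq h n) := by
  have hh := H.hh
  have hp := H.hp
  have hq := H.hq
  have hF : ∀ k, 0 ≤ a k * en I p H.hp mu k / (p + 1) + b k * en I q H.hq m k / (q + 1) := by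
    intro k
    have g1 := en_nonneg H k
    have g2 := en_nonneg H.symm k
    have g3 := H.ha k
    have g4 := H.hb k
    (clear * - H g3 g1 hp g4 g2 hq; positivity)
  have V4 : ∀ k ∈ range n, etaf n (k + 1) * HH I L m mu a b p q H.hp H.hq h 0 ≤
      etaf n (k + 1) * HH I L m mu a b p q H.hp H.hq h (k + 1)
      + etaf n (k + 1) * ((om + rho * abar) * (I (mu 0) + I (m 0))
        + C1 * WE I m mu a b p q H.hp H.hq h n) := by
    intro k hk
    have hk' : k < n := mem_range.mp hk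
    have g1 := hh_tele H hrho0 hC1 hab0 hrho hrho' hab hbb ha hb (k + 1) (by omega)
    have g2 : WE I m mu a b p q H.hp H.hq h (k + 1) ≤ WE I m mu a b p q H.hp H.hq h n := by
      unfold WE
      apply mul_le_mul_of_nonneg_left _ hh.le
      apply sum_le_sum_of_subset_of_nonneg
      · intro i hi
        simp only [mem_range] at hi ⊢
        omega
      · intro i _ _
        exact hF i
    have g3 := mul_le_mul_of_nonneg_left g2 hC1
    rw [← mul_add]
    apply mul_le_mul_of_nonneg_left _ (etaf_nonneg n _)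
    linarith only [g1, g3]
  have V6 := sum_le_sum V4
  rw [sum_add_distrib, ← sum_mul, ← sum_mul, etaf_sum n] at V6
  have V7 := mul_le_mul_of_nonneg_left V6 hh.le
  rw [mul_add] at V7
  linarith only [V7]

/-- The cut-off weighted kinetic sum is at most `KE`. -/
theorem ke_le (H : Sup I L m mu a b p q h om N) (n : ℕ) :
    (∑ k ∈ range (n + 1), etaf n k * I ((m (k + 1) - m k) * (mu (k + 1) - mu k))) / h ≤
      KE I m mu h n := by
  unfold KE
  apply div_le_div_of_nonneg_right _ H.hh.le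
  apply sum_le_sum
  intro k _
  calc etaf n k * I ((m (k + 1) - m k) * (mu (k + 1) - mu k))
      ≤ 1 * I ((m (k + 1) - m k) * (mu (k + 1) - mu k)) :=
        mul_le_mul_of_nonneg_right (etaf_le_one n k) (dd_nonneg H k)
    _ = _ := one_mul _

theorem virial1 (H : Sup I L m mu a b p q h om N) {n : ℕ} (hn : n < N) :
    h * ∑ k ∈ range n, etaf n (k + 1) * I (m (k + 1) * L (mu (k + 1)))
      + h * ∑ k ∈ range n, etaf n (k + 1) * (a (k + 1) * en I p H.hp mu (k + 1)) ≤
    (∑ k ∈ range (n + 1), etaf n k * I ((m (k + 1) - m k) * (mu (k + 1) - mu k))) / h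
      + (1 / (((n : ℝ) + 1) * h) * I (mu 0 * m 0) + om * (n * h) * I (mu 0)) := by
  have V1 := virial H hn (etaf_nonneg n) (etaf_le_one n) (etaf_end n) (etaf_diff n)
  have W1 : h * ∑ k ∈ range n, etaf n (k + 1) * (I (mu (k + 1) * L (m (k + 1)))
        + a (k + 1) * en I p H.hp mu (k + 1)) =
      h * ∑ k ∈ range n, etaf n (k + 1) * I (m (k + 1) * L (mu (k + 1)))
      + h * ∑ k ∈ range n, etaf n (k + 1) * (a (k + 1) * en I p H.hp mu (k + 1)) := by
    rw [← mul_add, ← sum_add_distrib]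
    congr 1; apply sum_congr rfl; intro k _
    rw [H.hsym (mu (k + 1)) (m (k + 1))]; ring
  have hceh : 1 / ((n : ℝ) + 1) / h = 1 / (((n : ℝ) + 1) * h) := by rw [div_div]
  rw [W1, hceh] at V1
  rw [← add_assoc]
  exact V1

theorem virial2 (H : Sup I L m mu a b p q h om N) {n : ℕ} (hn : n < N) :
    h * ∑ k ∈ range n, etaf n (k + 1) * I (m (k + 1) * L (mu (k + 1)))
      + h * ∑ k ∈ range n, etaf n (k + 1) * (b (k + 1) * en I q H.hq m (k + 1)) ≤
    (∑ k ∈ range (n + 1), etaf n k * I ((m (k + 1) - m k) * (mu (k + 1) - mu k))) / h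
      + (1 / (((n : ℝ) + 1) * h) * I (mu 0 * m 0) + om * (n * h) * I (m 0)) := by
  have V1 := virial1 H.symm hn
  have e1 : ∑ k ∈ range n, etaf n (k + 1) * I (mu (k + 1) * L (m (k + 1))) =
      ∑ k ∈ range n, etaf n (k + 1) * I (m (k + 1) * L (mu (k + 1))) := by
    apply sum_congr rfl; intro k _; rw [H.hsym (mu (k + 1)) (m (k + 1))]
  have e2 : (∑ k ∈ range (n + 1), etaf n k * I ((mu (k + 1) - mu k) * (m (k + 1) - m k))) =
      (∑ k ∈ range (n + 1), etaf n k * I ((m (k + 1) - m k) * (mu (k + 1) - mu k))) := by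
    apply sum_congr rfl; intro k _; rw [mul_comm (mu (k + 1) - mu k)]
  rw [e1, e2, mul_comm (m 0) (mu 0)] at V1
  exact V1

/-- Weighted sum of the Hamiltonians. -/
theorem ham_total (H : Sup I L m mu a b p q h om N) {Lam : ℝ} {n : ℕ} (hn : n < N)
    (hpq : 1 / (p + 1) + 1 / (q + 1) ≤ 1) (hLam : 0 ≤ Lam)
    (ha' : ∀ k, a (k + 1) ≤ a k) (hb' : ∀ k, b (k + 1) ≤ b k)
    (hL : ∀ k x, |L (mu k) x| ≤ Lam) (hL' : ∀ k x, |L (m k) x| ≤ Lam) :
    h * ∑ k ∈ range n, etaf n (k + 1) * HH I L m mu a b p q H.hp H.hq h (k + 1) ≤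
      2 * KE I m mu h n + (1 / (((n : ℝ) + 1) * h) * I (mu 0 * m 0)
      + om * (n * h) * (I (mu 0) + I (m 0))) + h * Lam / 2 * (I (m 0) + I (mu 0)) := by
  have hp := H.hp
  have hq := H.hq
  have hh := H.hh
  have hom := H.hom
  have hmu0 : 0 ≤ I (mu 0) := H.hI _ (fun x => (H.hmu 0 x).le)
  have hm0 : 0 ≤ I (m 0) := H.hI _ (fun x => (H.hm 0 x).le)
  have V1 := virial1 H hn
  have V2 := virial2 H hn
  have V3 := ham_sum H hLam ha' hb' hL hL' (etaf_nonneg n) (etaf_le_one n) n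
  have V5 := ke_le H n
  have hE1n : 0 ≤ h * ∑ k ∈ range n, etaf n (k + 1) * (a (k + 1) * en I p H.hp mu (k + 1)) := by
    apply mul_nonneg hh.le
    apply sum_nonneg
    intro k _
    exact mul_nonneg (etaf_nonneg n _) (mul_nonneg (H.ha _) (en_nonneg H _))
  have hx1 : 0 ≤ om * (n * h) * I (m 0) := by (clear * - hom hh hm0; positivity)
  have hx2 : 0 ≤ om * (n * h) * I (mu 0) := by (clear * - hom hh hmu0; positivity)
  revert V1 V2 V3 V5 hE1n
  generalize h * ∑ k ∈ range n, etaf n (k + 1) * I (m (k + 1) * L (mu (k + 1))) = J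
  generalize h * ∑ k ∈ range n, etaf n (k + 1) * (a (k + 1) * en I p H.hp mu (k + 1)) = E1
  generalize h * ∑ k ∈ range n, etaf n (k + 1) * (b (k + 1) * en I q H.hq m (k + 1)) = E2
  generalize (∑ k ∈ range (n + 1), etaf n k *
    I ((m (k + 1) - m k) * (mu (k + 1) - mu k))) / h = KK
  generalize h * ∑ k ∈ range n, etaf n (k + 1) * HH I L m mu a b p q hp hq h (k + 1) = X
  generalize KE I m mu h n = K0
  generalize 1 / (((n : ℝ) + 1) * h) * I (mu 0 * m 0) = Z
  intro V1 V2 V3 V5 hE1n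
  have V6 := final_alg (s1 := 1 / (p + 1)) (s2 := 1 / (q + 1)) (Y := h * Lam / 2 *
      (I (m 0) + I (mu 0))) (R := Z + om * (n * h) * (I (mu 0) + I (m 0)))
    (by (clear * - hp; positivity)) (by (clear * - hq; positivity)) hpq hE1n V1 V2
    (by linarith only [hx1]) (by linarith only [hx2]) (X := X)
    (by
      refine le_trans V3 (le_of_eq ?_)
      ring)
  linarith only [V5, V6]

/-- **The discrete main inequality.** -/
theorem disc_main (H : Sup I L m mu a b p q h om N) {rho C1 abar Lam : ℝ} {n : ℕ} (hn : n < N)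
    (hpq : 1 / (p + 1) + 1 / (q + 1) ≤ 1)
    (hrho0 : 0 ≤ rho) (hC1 : 0 ≤ C1) (hab0 : 0 ≤ abar) (hLam : 0 ≤ Lam)
    (hrho : ∀ k x, (mu k x) ^ p - (mu (k + 1) x) ^ p ≤ rho)
    (hrho' : ∀ k x, (m k x) ^ q - (m (k + 1) x) ^ q ≤ rho)
    (hab : ∀ k, a k ≤ abar) (hbb : ∀ k, b k ≤ abar)
    (ha : ∀ k, a k - a (k + 1) ≤ C1 * h * a k) (hb : ∀ k, b k - b (k + 1) ≤ C1 * h * b k)
    (ha' : ∀ k, a (k + 1) ≤ a k) (hb' : ∀ k, b (k + 1) ≤ b k)
    (hL : ∀ k x, |L (mu k) x| ≤ Lam) (hL' : ∀ k x, |L (m k) x| ≤ Lam) :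
    (n * h / 2) * HH I L m mu a b p q H.hp H.hq h 0 ≤
      2 * KE I m mu h n + 1 / (((n : ℝ) + 1) * h) * I (mu 0 * m 0)
      + (om * (n * h) + h * Lam / 2) * (I (mu 0) + I (m 0))
      + (n * h / 2) * ((om + rho * abar) * (I (mu 0) + I (m 0))
        + C1 * WE I m mu a b p q H.hp H.hq h n) := by
  have V0 := tele_sum H hn hrho0 hC1 hab0 hrho hrho' hab hbb ha hb
  have V1 := ham_total H hn hpq hLam ha' hb' hL hL'
  have e3 : (om * (n * h) + h * Lam / 2) * (I (mu 0) + I (m 0)) =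
    om * (n * h) * (I (mu 0) + I (m 0)) + h * Lam / 2 * (I (m 0) + I (mu 0)) := by ring
  rw [e3]
  (clear * - H V0 V1; linarith)

end

end Vale.Agent.P100.RM
end
end
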