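import Mathlib
import Vale.Agent.P100.Bdl.B1
import Vale.Agent.P100.Defs
import Vale.Agent.P100.Bdl.B2

set_option linter.all false

section

section

/-!
# P100, running minimum: discrete supersolution

`cmin X k = min_{|j| ≤ k} X j` for a two-sided sequence of continuous functions.
-/

namespace Vale.Agent.P100.RM

variable {S : Type*} [TopologicalSpace S]

/-- Running minimum of a two-sided sequence of continuous functions. -/
noncomputable def cmin (X : ℤ → C(S, ℝ)) : ℕ → C(S, ℝ)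
  | 0 => X 0
  | k + 1 => cmin X k ⊓ (X ((k : ℤ) + 1) ⊓ X (-((k : ℤ) + 1)))

theorem cmin_succ (X : ℤ → C(S, ℝ)) (k : ℕ) (θ : S) :
    cmin X (k + 1) θ = min (cmin X k θ) (min (X ((k : ℤ) + 1) θ) (X (-((k : ℤ) + 1)) θ)) := rfl

theorem cmin_anti (X : ℤ → C(S, ℝ)) (k : ℕ) (θ : S) : cmin X (k + 1) θ ≤ cmin X k θ := by
  rw [cmin_succ]; exact min_le_left _ _

theorem cmin_le (X : ℤ → C(S, ℝ)) (θ : S) : ∀ (k : ℕ) (j : ℤ), |j| ≤ (k : ℤ) →
    cmin X k θ ≤ X j θ := by
  intro k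
  induction k with
  | zero =>
    intro j hj
    have : j = 0 := by
      have := abs_nonneg j
      have h0 : |j| = 0 := le_antisymm (by simpa only [abs_nonpos_iff, CharP.cast_eq_zero] using hj) this
      exact abs_eq_zero.mp h0
    subst this; exact le_refl _
  | succ k ih =>
    intro j hj
    rw [cmin_succ]
    rcases lt_or_ge (k : ℤ) |j| with h | h
    · have h1 : |j| = (k : ℤ) + 1 := by push_cast at hj; omega
      rcases abs_cases j with ⟨h2, _⟩ | ⟨h2, _⟩
      · have : j = (k : ℤ) + 1 := by omega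
        subst this
        exact le_trans (min_le_right _ _) (min_le_left _ _)
      · have : j = -((k : ℤ) + 1) := by omega
        subst this
        exact le_trans (min_le_right _ _) (min_le_right _ _)
    · exact le_trans (min_le_left _ _) (ih j h)

theorem cmin_argmin (X : ℤ → C(S, ℝ)) (θ : S) : ∀ k : ℕ, ∃ j : ℤ, |j| ≤ (k : ℤ) ∧
    cmin X k θ = X j θ := by
  intro k
  induction k with
  | zero => exact ⟨0, by simp, rfl⟩
  | succ k ih =>
    obtain ⟨j, hj, hX⟩ := ih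
    rw [cmin_succ]
    rcases min_choice (cmin X k θ) (min (X ((k : ℤ) + 1) θ) (X (-((k : ℤ) + 1)) θ)) with h | h
    · rw [h]; exact ⟨j, by push_cast; (clear * - hj; omega), hX⟩
    · rw [h]
      rcases min_choice (X ((k : ℤ) + 1) θ) (X (-((k : ℤ) + 1)) θ) with h' | h'
      · rw [h']
        refine ⟨(k : ℤ) + 1, ?_, rfl⟩
        rw [abs_of_nonneg (by positivity)]; push_cast; exact le_refl _
      · rw [h']
        refine ⟨-((k : ℤ) + 1), ?_, rfl⟩
        rw [abs_neg, abs_of_nonneg (by (clear * -; positivity))]; push_cast; exact le_refl _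

theorem cmin_pos (X : ℤ → C(S, ℝ)) (θ : S) (k : ℕ) (hX : ∀ j : ℤ, |j| ≤ (k : ℤ) → 0 < X j θ) :
    0 < cmin X k θ := by
  obtain ⟨j, hj, h⟩ := cmin_argmin X θ k
  rw [h]; exact hX j hj

/-- **Discrete supersolution.** If `X, Y` satisfy the approximate discrete equation at all times
`|j| < N`, the running minima satisfy the corresponding inequality. -/
theorem disc1 {L : C(S, ℝ) → C(S, ℝ)}
    (hmax : ∀ (f g : C(S, ℝ)) (θ : S), (∀ θ', f θ' ≤ g θ') → f θ = g θ → L f θ ≤ L g θ)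
    {X Y : ℤ → C(S, ℝ)} {A : ℤ → ℝ} {a : ℕ → ℝ} {h om p : ℝ} {N : ℕ} (hh : 0 < h)
    (hp : 0 < p) (ha0 : ∀ k, 0 ≤ a k)
    (ha : ∀ (k : ℕ) (j : ℤ), |j| ≤ (k : ℤ) → a k ≤ A j)
    (hY : ∀ (j : ℤ) (θ : S), |j| < (N : ℤ) → 0 < Y j θ)
    (hEq : ∀ (j : ℤ) (θ : S), |j| < (N : ℤ) →
      (X (j + 1) θ - 2 * X j θ + X (j - 1) θ) / h ^ 2 + L (X j) θ
        + A j * (Y j θ) ^ p ≤ om)
    (k : ℕ) (hk : k + 1 < N) (θ : S) :
    (cmin X (k + 2) θ - 2 * cmin X (k + 1) θ + cmin X k θ) / h ^ 2 + L (cmin X (k + 1)) θ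
      + a (k + 1) * (cmin Y (k + 1) θ) ^ p ≤ om := by
  have hh2 : 0 < h ^ 2 := by (clear * - hh; positivity)
  obtain ⟨j, hj, hX⟩ := cmin_argmin X θ (k + 1)
  have hjN : |j| < (N : ℤ) := by push_cast at hj; omega
  have hL : L (cmin X (k + 1)) θ ≤ L (X j) θ :=
    hmax _ _ θ (fun θ' => cmin_le X θ' (k + 1) j hj) hX
  have hYpos : 0 < cmin Y (k + 1) θ := by
    apply cmin_pos
    intro i hi
    apply hY
    push_cast at hi; omega
  have hpow : (cmin Y (k + 1) θ) ^ p ≤ (Y j θ) ^ p :=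
    Real.rpow_le_rpow hYpos.le (cmin_le Y θ (k + 1) j hj) hp.le
  have hprod : a (k + 1) * (cmin Y (k + 1) θ) ^ p ≤ A j * (Y j θ) ^ p := by
    apply mul_le_mul (ha (k + 1) j hj) hpow (Real.rpow_nonneg hYpos.le _)
    exact le_trans (ha0 (k + 1)) (ha (k + 1) j hj)
  have hE := hEq j θ hjN
  have e1 : cmin X (k + 2) θ ≤ cmin X (k + 1) θ := cmin_anti X (k + 1) θ
  have e2 : cmin X (k + 1) θ ≤ cmin X k θ := cmin_anti X k θ
  rcases lt_or_ge |j| ((k : ℤ) + 1) with hlt | hge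
  · -- interior argmin
    have hk' : cmin X k θ ≤ X j θ := cmin_le X θ k j (by (clear * - hlt; omega))
    have hsec : 0 ≤ (X (j + 1) θ - 2 * X j θ + X (j - 1) θ) / h ^ 2 := by
      apply div_nonneg _ hh2.le
      have f1 : cmin X (k + 1) θ ≤ X (j + 1) θ := cmin_le X θ (k + 1) (j + 1) (by
        push_cast; have := abs_add_le j 1; simp only [abs_one] at this; omega)
      have f2 : cmin X (k + 1) θ ≤ X (j - 1) θ := cmin_le X θ (k + 1) (j - 1) (by
        push_cast; have := abs_sub j 1; simp only [abs_one] at this; omega)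
      rw [hX] at f1 f2; linarith only [f1, f2]
    have hsec2 : (cmin X (k + 2) θ - 2 * cmin X (k + 1) θ + cmin X k θ) / h ^ 2 ≤ 0 := by
      apply div_nonpos_of_nonpos_of_nonneg _ hh2.le
      rw [hX] at e1 e2 ⊢; linarith only [e1, hk']
    rw [hX] at *
    linarith only [hL, hprod, hE, hsec, hsec2]
  · have hjeq : |j| = (k : ℤ) + 1 := by push_cast at hj; omega
    have key : cmin X (k + 2) θ - 2 * cmin X (k + 1) θ + cmin X k θ ≤
        X (j + 1) θ - 2 * X j θ + X (j - 1) θ := by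
      rcases abs_cases j with ⟨h2, _⟩ | ⟨h2, _⟩
      · have hj' : j = (k : ℤ) + 1 := by omega
        have f1 : cmin X (k + 2) θ ≤ X (j + 1) θ := cmin_le X θ (k + 2) (j + 1) (by
          rw [abs_of_nonneg (by omega)]; push_cast; omega)
        have f2 : cmin X k θ ≤ X (j - 1) θ := cmin_le X θ k (j - 1) (by
          rw [abs_of_nonneg (by omega)]; omega)
        rw [hX]; linarith only [f1, f2]
      · have hj' : j = -((k : ℤ) + 1) := by omega
        have f1 : cmin X (k + 2) θ ≤ X (j - 1) θ := cmin_le X θ (k + 2) (j - 1) (by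
          rw [abs_of_nonpos (by omega)]; push_cast; omega)
        have f2 : cmin X k θ ≤ X (j + 1) θ := cmin_le X θ k (j + 1) (by
          rw [abs_of_nonpos (by omega)]; omega)
        rw [hX]; linarith only [f1, f2]
    have hdiv : (cmin X (k + 2) θ - 2 * cmin X (k + 1) θ + cmin X k θ) / h ^ 2 ≤
        (X (j + 1) θ - 2 * X j θ + X (j - 1) θ) / h ^ 2 := by (clear * - key hh; gcongr)
    rw [hX] at *
    linarith only [hL, hprod, hE, hdiv]

end Vale.Agent.P100.RM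
end
end

section

section

/-!
# P100 / RM / Lim0 : elementary facts on running minima of smooth functions (helper602)
-/

open MeasureTheory Set Filter Topology Real

namespace Vale.Agent.P100.RM

variable {S : Type*}

theorem rmin_succ (X : ℤ → S → ℝ) (j : ℕ) (θ : S) :
    rmin X (j + 1) θ = min (rmin X j θ) (min (X ((j : ℤ) + 1) θ) (X (-((j : ℤ) + 1)) θ)) := rfl

theorem rmin_zero (X : ℤ → S → ℝ) (θ : S) : rmin X 0 θ = X 0 θ := rfl

theorem rmin_succ_le (X : ℤ → S → ℝ) (j : ℕ) (θ : S) : rmin X (j + 1) θ ≤ rmin X j θ := by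
  rw [rmin_succ]; exact min_le_left _ _

theorem rmin_le_zero (X : ℤ → S → ℝ) (j : ℕ) (θ : S) : rmin X j θ ≤ X 0 θ := by
  induction j with
  | zero => exact le_rfl
  | succ j ih => exact (rmin_succ_le X j θ).trans ih

theorem rmin_le (X : ℤ → S → ℝ) (j : ℕ) (i : ℤ) (hi : i.natAbs ≤ j) (θ : S) :
    rmin X j θ ≤ X i θ := by
  induction j with
  | zero =>
    have : i = 0 := Int.natAbs_eq_zero.1 (Nat.le_zero.1 hi)
    subst this; exact le_rfl
  | succ j ih =>
    rcases Nat.lt_or_ge i.natAbs (j + 1) with h | h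
    · exact (rmin_succ_le X j θ).trans (ih (by omega))
    · have h2 : i.natAbs = j + 1 := le_antisymm hi h
      rw [rmin_succ]
      rcases Int.natAbs_eq i with h3 | h3
      · have : i = (j : ℤ) + 1 := by rw [h3, h2]; push_cast; ring
        rw [this]
        exact (min_le_right _ _).trans (min_le_left _ _)
      · have : i = -((j : ℤ) + 1) := by rw [h3, h2]; push_cast; ring
        rw [this]
        exact (min_le_right _ _).trans (min_le_right _ _)

theorem exists_rmin_eq (X : ℤ → S → ℝ) (j : ℕ) (θ : S) :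
    ∃ i : ℤ, i.natAbs ≤ j ∧ rmin X j θ = X i θ := by
  induction j with
  | zero => exact ⟨0, by simp only [Int.natAbs_zero, Std.le_refl], rfl⟩
  | succ j ih =>
    obtain ⟨i, hi, he⟩ := ih
    rw [rmin_succ]
    rcases min_choice (rmin X j θ) (min (X ((j : ℤ) + 1) θ) (X (-((j : ℤ) + 1)) θ)) with h | h
    · exact ⟨i, by omega, by rw [h, he]⟩
    · rw [h]
      rcases min_choice (X ((j : ℤ) + 1) θ) (X (-((j : ℤ) + 1)) θ) with h2 | h2
      · exact ⟨(j : ℤ) + 1, by omega, h2⟩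
      · exact ⟨-((j : ℤ) + 1), by omega, h2⟩

theorem rmin_pos {X : ℤ → S → ℝ} {j : ℕ} {θ : S} (h : ∀ i : ℤ, i.natAbs ≤ j → 0 < X i θ) :
    0 < rmin X j θ := by
  obtain ⟨i, hi, he⟩ := exists_rmin_eq X j θ
  rw [he]; exact h i hi

theorem continuous_rmin [TopologicalSpace S] {X : ℤ → S → ℝ} (hX : ∀ i, Continuous (X i)) (j : ℕ) :
    Continuous (rmin X j) := by
  induction j with
  | zero => exact hX 0
  | succ j ih => exact ih.min ((hX _).min (hX _))

/-- Sampling of a function of a real variable. -/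
def smp (X : ℝ → S → ℝ) (h : ℝ) (i : ℤ) (θ : S) : ℝ := X (i * h) θ

/-- Mean value bound. -/
theorem mvt_bound {f f' : ℝ → ℝ} {T ω s s' h : ℝ} (hs : |s| ≤ T) (hs' : |s'| ≤ T)
    (hss : |s - s'| ≤ h) (hf : ∀ t, |t| ≤ T → HasDerivAt f (f' t) t)
    (hω : ∀ t t', |t| ≤ T → |t'| ≤ T → |t - t'| ≤ h → |f' t - f' t'| ≤ ω) :
    |f s - f s' - f' s' * (s - s')| ≤ ω * |s - s'| := by
  have key := Convex.norm_image_sub_le_of_norm_hasDerivWithin_le
    (f := fun t => f t - f' s' * t) (f' := fun t => f' t - f' s') (C := ω) (s := uIcc s' s)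
    (x := s') (y := s) (fun t ht => ?_) (fun t ht => ?_) (convex_uIcc _ _) left_mem_uIcc
    right_mem_uIcc
  · simp only [Real.norm_eq_abs] at key
    convert key using 2
    ring
  · have ht' : |t| ≤ T := by
      rcases mem_uIcc.1 ht with h1 | h1 <;> rw [abs_le] at * <;> constructor <;> linarith only [hs', h1, hs]
    have h1 := ((hf t ht').sub ((hasDerivAt_id t).const_mul (f' s'))).congr_deriv
      (by ring : f' t - f' s' * 1 = f' t - f' s')
    exact h1.hasDerivWithinAt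
  · have ht' : |t| ≤ T := by
      rcases mem_uIcc.1 ht with h1 | h1 <;> rw [abs_le] at * <;> constructor <;> linarith only [hs', h1, hs]
    rw [Real.norm_eq_abs]
    refine hω t s' ht' hs' ?_
    rcases mem_uIcc.1 ht with h1 | h1 <;> rw [abs_le] at * <;> constructor <;> linarith only [hss, h1]

/-- **Record slopes.** -/
theorem rmin_slope {X X' : ℝ → S → ℝ} {T ω h : ℝ} {N : ℕ} (hh : 0 < h) (hN : h * N ≤ T) {θ : S}
    (hX : ∀ t, |t| ≤ T → HasDerivAt (fun t => X t θ) (X' t θ) t)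
    (hω : ∀ t t', |t| ≤ T → |t'| ≤ T → |t - t'| ≤ h → |X' t θ - X' t' θ| ≤ ω) (hω0 : 0 ≤ ω)
    {G : ℝ} (hG0 : 0 ≤ G) (hG : ∀ t, |t| ≤ T → X t θ ≤ X 0 θ → |X' t θ| ≤ G) {k : ℕ} (hk : k < N) :
    rmin (smp X h) k θ - rmin (smp X h) (k + 1) θ ≤ h * (G + ω) := by
  have hk1 : ((k : ℝ) + 1) * h ≤ T := by
    have : ((k : ℝ) + 1) ≤ N := by exact_mod_cast hk
    nlinarith only [hN, hh, this]
  have hk0 : (0 : ℝ) ≤ k := Nat.cast_nonneg k
  have main : ∀ e : ℝ, |e| = 1 → X (e * ((k + 1) * h)) θ < rmin (smp X h) k θ →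
      rmin (smp X h) k θ ≤ X (e * (k * h)) θ →
      rmin (smp X h) k θ - X (e * ((k + 1) * h)) θ ≤ h * (G + ω) := by
    intro e he h1 h2
    have hs' : |e * ((k + 1) * h)| ≤ T := by
      rw [abs_mul, he, one_mul, abs_of_nonneg (by positivity)]; exact hk1
    have hs : |e * (k * h)| ≤ T := by
      rw [abs_mul, he, one_mul, abs_of_nonneg (by (clear * - hh; positivity))]; nlinarith only [hh, hk1]
    have hd : e * (k * h) - e * ((k + 1) * h) = -(e * h) := by ring
    have hss : |e * (k * h) - e * ((k + 1) * h)| = h := by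
      rw [hd, abs_neg, abs_mul, he, one_mul, abs_of_pos hh]
    have h3 := mvt_bound hs hs' hss.le hX hω
    have h0 : rmin (smp X h) k θ ≤ X 0 θ := by
      have := rmin_le_zero (smp X h) k θ
      simpa only [ge_iff_le, smp, Int.cast_zero, zero_mul] using this
    have h4 := hG _ hs' (h1.le.trans h0)
    rw [hss] at h3
    have h5 := (abs_le.1 h3).2
    have h6 : X' (e * ((k + 1) * h)) θ * (e * (k * h) - e * ((k + 1) * h)) ≤ G * h := by
      refine (le_abs_self _).trans ?_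
      rw [abs_mul, hss]
      exact mul_le_mul_of_nonneg_right h4 hh.le
    nlinarith only [h2, h5, h6]
  rw [rmin_succ]
  rcases min_choice (rmin (smp X h) k θ) (min (smp X h ((k : ℤ) + 1) θ) (smp X h (-((k : ℤ) + 1)) θ))
    with hc | hc
  · rw [hc, sub_self]; (clear * - hh hG0 hω0; positivity)
  · by_cases hlt : min (smp X h ((k : ℤ) + 1) θ) (smp X h (-((k : ℤ) + 1)) θ) < rmin (smp X h) k θ
    · rw [min_eq_right hlt.le]
      rcases min_choice (smp X h ((k : ℤ) + 1) θ) (smp X h (-((k : ℤ) + 1)) θ) with h2 | h2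
      · rw [h2] at hlt ⊢
        have e1 : smp X h ((k : ℤ) + 1) θ = X (1 * ((k + 1) * h)) θ := by
          simp only [smp, Int.cast_add, Int.cast_natCast, Int.cast_one, one_mul]
        rw [e1] at hlt ⊢
        refine main 1 (by simp) hlt ?_
        have := rmin_le (smp X h) k (k : ℤ) (by simp only [Int.natAbs_natCast, Std.le_refl]) θ
        simpa only [one_mul, ge_iff_le, smp, Int.cast_natCast] using this
      · rw [h2] at hlt ⊢
        have e1 : smp X h (-((k : ℤ) + 1)) θ = X (-1 * ((k + 1) * h)) θ := by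
          simp only [smp]
          congr 1
          push_cast; ring
        rw [e1] at hlt ⊢
        refine main (-1) (by simp) hlt ?_
        have := rmin_le (smp X h) k (-(k : ℤ)) (by simp only [Int.natAbs_neg, Int.natAbs_natCast, Std.le_refl]) θ
        have e2 : smp X h (-(k : ℤ)) θ = X (-1 * (k * h)) θ := by
          simp only [smp]
          congr 1
          push_cast; ring
        rwa [e2] at this
    · push Not at hlt
      rw [min_eq_left hlt, sub_self]; (clear * - hh hG0 hω0; positivity)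

/-- The first step of the running minimum. -/
theorem rmin_first {X X' : ℝ → S → ℝ} {T ω h : ℝ} (hh : 0 < h) (hT : h ≤ T) {θ : S}
    (hX : ∀ t, |t| ≤ T → HasDerivAt (fun t => X t θ) (X' t θ) t)
    (hω : ∀ t t', |t| ≤ T → |t'| ≤ T → |t - t'| ≤ h → |X' t θ - X' t' θ| ≤ ω) :
    |X' 0 θ| - ω ≤ (X 0 θ - rmin (smp X h) 1 θ) / h := by
  rw [le_div_iff₀ hh]
  have h0 : |(0 : ℝ)| ≤ T := by rw [abs_zero]; linarith
  have hp : |h| ≤ T := by rwa [abs_of_pos hh]
  have hm : |(-h)| ≤ T := by rwa [abs_neg, abs_of_pos hh]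
  have a1 := mvt_bound (s := h) (s' := 0) (h := h) hp h0 (by rw [sub_zero, abs_of_pos hh]) hX hω
  have a2 := mvt_bound (s := -h) (s' := 0) (h := h) hm h0 (by rw [sub_zero, abs_neg, abs_of_pos hh])
    hX hω
  rw [sub_zero, abs_of_pos hh] at a1
  rw [sub_zero, abs_neg, abs_of_pos hh] at a2
  have b1 := (abs_le.1 a1).2
  have b2 := (abs_le.1 a2).2
  have r1 : rmin (smp X h) 1 θ ≤ X h θ := by
    have := rmin_le (smp X h) 1 1 (by simp only [isUnit_one, Int.natAbs_of_isUnit, Std.le_refl]) θ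
    simpa only [ge_iff_le, smp, Int.cast_one, one_mul] using this
  have r2 : rmin (smp X h) 1 θ ≤ X (-h) θ := by
    have := rmin_le (smp X h) 1 (-1) (by simp only [Int.reduceNeg, IsUnit.neg_iff, isUnit_one, Int.natAbs_of_isUnit, Std.le_refl]) θ
    simpa only [ge_iff_le, smp, Int.reduceNeg, Int.cast_neg, Int.cast_one, neg_mul, one_mul] using this
  rcases abs_cases (X' 0 θ) with ⟨h1, _⟩ | ⟨h1, _⟩ <;> rw [h1] <;> nlinarith

/-- product form -/
theorem mul_ge_of_slopes {a b x y ω : ℝ} (ha : 0 ≤ a) (hb : 0 ≤ b) (hω : 0 ≤ ω)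
    (hax : |x| - ω ≤ a) (hby : |y| - ω ≤ b) : x * y - ω * (|x| + |y|) ≤ a * b := by
  have hxy : x * y ≤ |x| * |y| := by rw [← abs_mul]; exact le_abs_self _
  have hx := abs_nonneg x
  have hy := abs_nonneg y
  by_cases h1 : |x| ≤ ω
  · have : |x| * |y| ≤ ω * |y| := mul_le_mul_of_nonneg_right h1 hy
    have h2 : 0 ≤ a * b := mul_nonneg ha hb
    nlinarith only [hxy, this, h2, hω, hx]
  by_cases h2 : |y| ≤ ω
  · have : |x| * |y| ≤ |x| * ω := mul_le_mul_of_nonneg_left h2 hx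
    have h3 : 0 ≤ a * b := mul_nonneg ha hb
    nlinarith only [hxy, this, h3, hω, hy]
  push Not at h1 h2
  have : (|x| - ω) * (|y| - ω) ≤ a * b :=
    mul_le_mul hax hby (by linarith only [h2]) ha
  nlinarith only [hxy, this, hω]

end Vale.Agent.P100.RM
end
end

section

section

/-!
# P100 / RM / Iter : finite time blow-up of the growth function (real analysis)
-/

open MeasureTheory Set Real Filter Topology

namespace Vale.Agent.P100.RM

/-- One step: integrate the local inequality over `[t, t + δ]`, with `T = δ ^ 2`. -/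
theorem iter_step {H e : ℝ → ℝ} (he0 : ∀ t, 0 ≤ e t) (hei : Continuous e)
    {c0 C k T0 : ℝ} (hc0 : 0 < c0) (hC : 0 < C) (hT0 : 0 < T0)
    (hgrow : ∀ t1 t2, t1 ≤ t2 → H t1 + c0 * ∫ s in t1..t2, e s ≤ H t2)
    (hloc : ∀ t T, 0 < T → T ≤ T0 →
      H t ≤ C * T * (e t + ∫ s in (t - 2 * T)..(t + 2 * T), e s) + C * T ^ (-k))
    {t δ : ℝ} (hδ : 0 < δ) (hδ1 : δ ≤ 1) (hδT : δ ^ 2 ≤ T0) (hpos : 0 ≤ H (t - 2)) :
    H t ≤ 2 * C / c0 * δ * H (t + 3 * δ) + C * (δ ^ 2) ^ (-k) := by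
  have hmono : ∀ a b, a ≤ b → H a ≤ H b := by
    intro a b hab
    have h1 := hgrow a b hab
    have h2 : 0 ≤ ∫ s in a..b, e s := intervalIntegral.integral_nonneg hab fun s _ => he0 s
    (clear * - h1 hc0 h2; nlinarith [mul_nonneg hc0.le h2])
  have hint : ∀ a b, IntervalIntegrable e volume a b := fun a b => hei.intervalIntegrable a b
  have hδ2 : 0 < δ ^ 2 := by (clear * - hδ; positivity)
  have hδ3 : δ ^ 2 ≤ δ := by nlinarith only [hδ, hδ1]
  -- energy of subintervals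
  have hen : ∀ a b, t - 2 ≤ a → a ≤ b → b ≤ t + 3 * δ → (∫ s in a..b, e s) ≤ H (t + 3 * δ) / c0 := by
    intro a b ha hab hb
    rw [le_div_iff₀ hc0]
    have h1 := hgrow a b hab
    have h2 : 0 ≤ H a := hpos.trans (hmono _ _ ha)
    have h3 := hmono _ _ hb
    linarith only [h1, h2, h3]
  set K : ℝ := C * δ ^ 2 * (H (t + 3 * δ) / c0) + C * (δ ^ 2) ^ (-k) with hK
  have hpt : ∀ s ∈ Icc t (t + δ), H t - K ≤ C * δ ^ 2 * e s := by
    intro s hs
    have h1 := hloc s (δ ^ 2) hδ2 hδT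
    have h2 : (∫ r in (s - 2 * δ ^ 2)..(s + 2 * δ ^ 2), e r) ≤ H (t + 3 * δ) / c0 := by
      apply hen
      · nlinarith only [hδ3, hs.1]
      · linarith only [hδ2]
      · nlinarith only [hδ3, hs.2]
    have h3 : C * δ ^ 2 * (∫ r in (s - 2 * δ ^ 2)..(s + 2 * δ ^ 2), e r) ≤
        C * δ ^ 2 * (H (t + 3 * δ) / c0) := mul_le_mul_of_nonneg_left h2 (by (clear * - hC hδ; positivity))
    have h4 := hmono t s hs.1
    rw [hK]
    linarith only [h1, h3, h4]
  have hI : δ * (H t - K) ≤ C * δ ^ 2 * (H (t + 3 * δ) / c0) := by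
    have h1 : (∫ _s in t..(t + δ), (H t - K)) ≤ ∫ s in t..(t + δ), C * δ ^ 2 * e s := by
      apply intervalIntegral.integral_mono_on (by linarith only [hδ]) intervalIntegrable_const
        ((hint _ _).const_mul _)
      exact hpt
    rw [intervalIntegral.integral_const, intervalIntegral.integral_const_mul, smul_eq_mul] at h1
    have h2 : (∫ s in t..(t + δ), e s) ≤ H (t + 3 * δ) / c0 := by
      apply hen <;> linarith only [hδ]
    have h3 : C * δ ^ 2 * (∫ s in t..(t + δ), e s) ≤ C * δ ^ 2 * (H (t + 3 * δ) / c0) :=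
      mul_le_mul_of_nonneg_left h2 (by positivity)
    have h4 : t + δ - t = δ := by ring
    rw [h4] at h1
    linarith only [h1, h3]
  have hI2 : H t - K ≤ C * δ * (H (t + 3 * δ) / c0) := by
    have : δ * (H t - K) ≤ δ * (C * δ * (H (t + 3 * δ) / c0)) := by
      calc δ * (H t - K) ≤ C * δ ^ 2 * (H (t + 3 * δ) / c0) := hI
        _ = _ := by ring
    exact le_of_mul_le_mul_left this hδ
  have hHp : 0 ≤ H (t + 3 * δ) / c0 :=
    div_nonneg (hpos.trans (hmono _ _ (by linarith only [hδ]))) hc0.le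
  have h5 : C * δ ^ 2 * (H (t + 3 * δ) / c0) ≤ C * δ * (H (t + 3 * δ) / c0) := by
    apply mul_le_mul_of_nonneg_right _ hHp
    nlinarith only [hC, hδ3]
  have h6 : 2 * C / c0 * δ * H (t + 3 * δ) = 2 * (C * δ * (H (t + 3 * δ) / c0)) := by
    (clear * - hδ hc0 hC; field_simp)
  rw [h6]
  rw [hK] at hI2
  linarith only [hI2, h5]

theorem iter {H e : ℝ → ℝ} (he0 : ∀ t, 0 ≤ e t) (hei : Continuous e)
    {c0 C k T0 : ℝ} (hc0 : 0 < c0) (hC : 0 < C) (hk : 0 < k) (hT0 : 0 < T0)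
    (hgrow : ∀ t1 t2, t1 ≤ t2 → H t1 + c0 * ∫ s in t1..t2, e s ≤ H t2)
    (hlim : Tendsto H atTop atTop)
    (hloc : ∀ t T, 0 < T → T ≤ T0 →
      H t ≤ C * T * (e t + ∫ s in (t - 2 * T)..(t + 2 * T), e s) + C * T ^ (-k)) : False := by
  have hmono : ∀ a b, a ≤ b → H a ≤ H b := by
    intro a b hab
    have h1 := hgrow a b hab
    have h2 : 0 ≤ ∫ s in a..b, e s := intervalIntegral.integral_nonneg hab fun s _ => he0 s
    nlinarith only [h1, hc0, h2]
  -- parameters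
  set C1 : ℝ := 2 * C / c0 with hC1
  have hC1p : 0 < C1 := by (clear * - hC hc0; positivity)
  have h4k : 0 < (4 : ℝ) ^ k := by positivity
  obtain ⟨δ0, hδ0, hδ01, hδ0T, hδ0C⟩ : ∃ δ0 : ℝ, 0 < δ0 ∧ δ0 ≤ 1 ∧ δ0 ^ 2 ≤ T0 ∧
      2 * C1 * δ0 * (4 : ℝ) ^ k ≤ 1 := by
    refine ⟨min (min 1 T0) (1 / (2 * C1 * (4 : ℝ) ^ k)), ?_, ?_, ?_, ?_⟩
    · positivity
    · exact (min_le_left _ _).trans (min_le_left _ _)
    · have h1 : min (min 1 T0) (1 / (2 * C1 * (4 : ℝ) ^ k)) ≤ 1 :=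
        (min_le_left _ _).trans (min_le_left _ _)
      have h2 : min (min 1 T0) (1 / (2 * C1 * (4 : ℝ) ^ k)) ≤ T0 :=
        (min_le_left _ _).trans (min_le_right _ _)
      have h3 : 0 < min (min 1 T0) (1 / (2 * C1 * (4 : ℝ) ^ k)) := by positivity
      nlinarith only [h2, h1, h3]
    · have h1 : min (min 1 T0) (1 / (2 * C1 * (4 : ℝ) ^ k)) ≤ 1 / (2 * C1 * (4 : ℝ) ^ k) :=
        min_le_right _ _
      rw [le_div_iff₀ (by positivity)] at h1
      linarith only [h1]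
  -- the sequence of steps
  let δ : ℕ → ℝ := fun j => δ0 * (1 / 2) ^ j
  have hδpos : ∀ j, 0 < δ j := fun j => by positivity
  have hδs : ∀ j, δ (j + 1) = δ j / 2 := by
    intro j; simp only [δ, pow_succ]; ring
  have hδle : ∀ j, δ j ≤ δ0 := by
    intro j
    have : (1 / 2 : ℝ) ^ j ≤ 1 := pow_le_one₀ (by norm_num) (by norm_num)
    calc δ j = δ0 * (1 / 2) ^ j := rfl
      _ ≤ δ0 * 1 := mul_le_mul_of_nonneg_left this hδ0.le
      _ = δ0 := mul_one _
  -- starting time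
  obtain ⟨s0, hs0⟩ := (hlim.eventually (eventually_ge_atTop (0 : ℝ))).exists
  obtain ⟨s1, hs1⟩ := (hlim.eventually (eventually_ge_atTop (2 * C * (δ0 ^ 2) ^ (-k)))).exists
  set t0 : ℝ := max (s0 + 2) s1 with ht0
  let t : ℕ → ℝ := fun j => t0 + 6 * (δ0 - δ j)
  have ht_0 : t 0 = t0 := by simp only [one_div, inv_pow, pow_zero, inv_one, mul_one, sub_self, mul_zero, add_zero, t, δ]
  have hts : ∀ j, t (j + 1) = t j + 3 * δ j := by
    intro j; simp only [t]; rw [hδs]; ring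
  have htge : ∀ j, t0 ≤ t j := by
    intro j; have := hδle j; simp only [t]; linarith only [this]
  have htle : ∀ j, t j ≤ t0 + 6 * δ0 := by
    intro j; have := hδpos j; simp only [t]; linarith only [this]
  have hmain : ∀ j, 2 * C * ((δ j) ^ 2) ^ (-k) ≤ H (t j) := by
    intro j
    induction j with
    | zero =>
      rw [ht_0]
      have : δ 0 = δ0 := by simp [δ]
      rw [this]
      exact hs1.trans (hmono _ _ (le_max_right _ _))
    | succ j ih =>
      have hpos : 0 ≤ H (t j - 2) := by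
        apply hs0.trans (hmono _ _ _)
        have := htge j
        have h2 : s0 + 2 ≤ t0 := le_max_left _ _
        linarith only [this, h2]
      have hst := iter_step he0 hei hc0 hC hT0 hgrow hloc (hδpos j)
        ((hδle j).trans hδ01) (by
          have := hδle j; have := hδpos j
          (clear H e he0 hei c0 C k hc0 hC hk hT0 hgrow hlim hloc hmono C1 hC1 hC1p h4k hδ01 hδ0C hδs s0 hs0 s1 hs1 t0 ht0 t ht_0 hts htge htle ih hpos; nlinarith)) hpos
      rw [← hC1, ← hts] at hst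
      have h1 : H (t j) ≤ 2 * (C1 * δ j * H (t (j + 1))) := by linarith only [ih, hst]
      have hpw : ((δ (j + 1)) ^ 2) ^ (-k) = (4 : ℝ) ^ k * ((δ j) ^ 2) ^ (-k) := by
        rw [hδs]
        have h2 : (δ j / 2) ^ 2 = (1 / 4) * (δ j) ^ 2 := by ring
        rw [h2, mul_rpow (by norm_num) (by positivity)]
        congr 1
        rw [rpow_neg (by norm_num), one_div, inv_rpow (by norm_num), inv_inv]
      rw [hpw]
      have hX : 0 ≤ H (t (j + 1)) := by
        apply hpos.trans (hmono _ _ _)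
        have := hts j
        have := hδpos j
        (clear H e he0 hei c0 C k T0 hc0 hC hk hT0 hgrow hlim hloc hmono C1 hC1 hC1p h4k hδ01 hδ0T hδ0C hδle hs0 hs1 ht0 ht_0 htge htle ih hpos hst h1 hpw; linarith)
      have h3 : 2 * C1 * δ j * (4 : ℝ) ^ k ≤ 1 := by
        calc 2 * C1 * δ j * (4 : ℝ) ^ k ≤ 2 * C1 * δ0 * (4 : ℝ) ^ k := by
              have := hδle j
              (clear * - this hC hc0; gcongr)
          _ ≤ 1 := hδ0C
      calc 2 * C * ((4 : ℝ) ^ k * ((δ j) ^ 2) ^ (-k)) = (4 : ℝ) ^ k * (2 * C * ((δ j) ^ 2) ^ (-k)) := by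
            ring
        _ ≤ (4 : ℝ) ^ k * H (t j) := mul_le_mul_of_nonneg_left ih h4k.le
        _ ≤ (4 : ℝ) ^ k * (2 * (C1 * δ j * H (t (j + 1)))) := mul_le_mul_of_nonneg_left h1 h4k.le
        _ = (2 * C1 * δ j * (4 : ℝ) ^ k) * H (t (j + 1)) := by ring
        _ ≤ 1 * H (t (j + 1)) := mul_le_mul_of_nonneg_right h3 hX
        _ = H (t (j + 1)) := one_mul _
  -- contradiction
  have hbd : ∀ j, 2 * C * ((δ j) ^ 2) ^ (-k) ≤ H (t0 + 6 * δ0) := fun j =>
    (hmain j).trans (hmono _ _ (htle j))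
  have hδt : Tendsto δ atTop (𝓝[>] 0) := by
    rw [tendsto_nhdsWithin_iff]
    refine ⟨?_, Eventually.of_forall fun j => hδpos j⟩
    have := (tendsto_pow_atTop_nhds_zero_of_lt_one (r := (1 / 2 : ℝ)) (by norm_num) (by norm_num)).const_mul δ0
    simpa [δ] using this
  have hinf : Tendsto (fun x : ℝ => 2 * C * (x ^ 2) ^ (-k)) (𝓝[>] 0) atTop := by
    apply Tendsto.const_mul_atTop (by positivity)
    have h1 : Tendsto (fun x : ℝ => x ^ 2) (𝓝[>] 0) (𝓝[>] 0) := by
      rw [tendsto_nhdsWithin_iff]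
      refine ⟨?_, ?_⟩
      · have : Tendsto (fun x : ℝ => x ^ 2) (𝓝 0) (𝓝 (0 ^ 2)) := (continuous_pow 2).tendsto 0
        simpa using this.mono_left nhdsWithin_le_nhds
      · filter_upwards [self_mem_nhdsWithin] with x hx
        have : (0 : ℝ) < x := hx
        exact pow_pos this 2
    have h2 : Tendsto (fun x : ℝ => x ^ (-k)) (𝓝[>] 0) atTop := by
      have h3 : Tendsto (fun x : ℝ => (x⁻¹) ^ k) (𝓝[>] 0) atTop :=
        (tendsto_rpow_atTop hk).comp tendsto_inv_nhdsGT_zero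
      refine h3.congr' ?_
      filter_upwards [self_mem_nhdsWithin] with x hx
      have hx0 : (0 : ℝ) < x := hx
      rw [inv_rpow hx0.le, rpow_neg hx0.le]
    exact h2.comp h1
  have := (hinf.comp hδt).eventually (eventually_gt_atTop (H (t0 + 6 * δ0)))
  obtain ⟨j, hj⟩ := this.exists
  exact absurd (hbd j) (not_le.2 hj)

end Vale.Agent.P100.RM
end
end

section

section

/-!
# P100 / RM / GrowAbs : the Pohozaev growth identity, abstract form (helper252)
-/

open MeasureTheory Set Real Filter Topology Function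

namespace Vale.Agent.P100.RM

variable {S : Type*} [MetricSpace S] [CompactSpace S] [MeasurableSpace S] [BorelSpace S]
  {sg : Measure S} [IsFiniteMeasure sg]

omit [CompactSpace S] [MeasurableSpace S] [BorelSpace S] in
lemma cont_slice {F : ℝ → S → ℝ} (hF : Continuous (uncurry F)) (t : ℝ) : Continuous (F t) :=
  hF.comp (by fun_prop : Continuous fun θ : S => (t, θ))

omit [CompactSpace S] [MeasurableSpace S] [BorelSpace S] in
lemma cont_line {F : ℝ → S → ℝ} (hF : Continuous (uncurry F)) (θ : S) :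
    Continuous (fun t => F t θ) :=
  hF.comp (by fun_prop : Continuous fun t : ℝ => (t, θ))

lemma integrable_cont {f : S → ℝ} (hf : Continuous f) : Integrable f sg :=
  hf.integrable_of_hasCompactSupport (HasCompactSupport.of_compactSpace f)

lemma cont_int {F : ℝ → S → ℝ} (hF : Continuous (uncurry F)) :
    Continuous (fun t => ∫ θ, F t θ ∂sg) := by
  have := continuous_parametric_integral_of_continuous (μ := sg) hF isCompact_univ
  simpa using this

/-- Fubini for a jointly continuous function. -/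
lemma swap_int {F : ℝ → S → ℝ} (hF : Continuous (uncurry F)) (a b : ℝ) :
    ∫ θ, (∫ s in a..b, F s θ) ∂sg = ∫ s in a..b, (∫ θ, F s θ ∂sg) := by
  have key : ∀ a b : ℝ, a ≤ b →
      ∫ θ, (∫ s in a..b, F s θ) ∂sg = ∫ s in a..b, (∫ θ, F s θ ∂sg) := by
    intro a b hab
    simp only [intervalIntegral.integral_of_le hab]
    apply integral_integral_swap
    have h1 : Continuous (uncurry fun (θ : S) (s : ℝ) => F s θ) := by
      have : (uncurry fun (θ : S) (s : ℝ) => F s θ) = uncurry F ∘ Prod.swap := by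
        ext ⟨θ, s⟩; rfl
      rw [this]; exact hF.comp continuous_swap
    have h2 : sg.prod (volume.restrict (Ioc a b)) =
        (sg.prod volume).restrict (univ ×ˢ Ioc a b) := by
      rw [← Measure.prod_restrict, Measure.restrict_univ]
    rw [h2]
    have h3 : IntegrableOn (uncurry fun (θ : S) (s : ℝ) => F s θ) (univ ×ˢ Icc a b)
        (sg.prod volume) :=
      h1.continuousOn.integrableOn_compact (isCompact_univ.prod isCompact_Icc)
    exact h3.mono_set (prod_mono_right Ioc_subset_Icc_self)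
  rcases le_total a b with h | h
  · exact key a b h
  · have := key b a h
    simp only [intervalIntegral.integral_symm b a] at *
    rw [integral_neg, this]

/-- The fundamental theorem of calculus for slice integrals. -/
lemma slice_ftc {h h1 : ℝ → S → ℝ} (hd : ∀ t θ, HasDerivAt (fun s => h s θ) (h1 t θ) t)
    (hc : Continuous (uncurry h)) (hc1 : Continuous (uncurry h1)) (a b : ℝ) :
    (∫ θ, h b θ ∂sg) - ∫ θ, h a θ ∂sg = ∫ s in a..b, (∫ θ, h1 s θ ∂sg) := by
  rw [← swap_int hc1, ← integral_sub (integrable_cont (cont_slice hc b))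
    (integrable_cont (cont_slice hc a))]
  congr 1
  ext θ
  rw [intervalIntegral.integral_eq_sub_of_hasDerivAt (fun t _ => hd t θ)
    ((cont_line hc1 θ).intervalIntegrable _ _)]

section

variable {ι : Type*} [Fintype ι]

omit [CompactSpace S] [MeasurableSpace S] [BorelSpace S] [MetricSpace S] in
lemma Lop_hasDerivAt {κ : ℝ} {R : ι → S → S} {F F1 : ℝ → S → ℝ}
    (hF : ∀ t θ, HasDerivAt (fun s => F s θ) (F1 t θ) t) (t : ℝ) (θ : S) :
    HasDerivAt (fun s => Lop κ R (F s) θ) (Lop κ R (F1 t) θ) t := by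
  unfold Lop
  refine HasDerivAt.const_mul κ ?_
  have := HasDerivAt.fun_sum (u := Finset.univ) (x := t)
    (A := fun (i : ι) (s : ℝ) => F s (R i θ) - F s θ) (A' := fun i => F1 t (R i θ) - F1 t θ)
    (fun i _ => (hF t (R i θ)).sub (hF t θ))
  exact this

omit [CompactSpace S] [MeasurableSpace S] [BorelSpace S] in
lemma Lop_cont {κ : ℝ} {R : ι → S → S} (hR : ∀ i, Continuous (R i)) {F : ℝ → S → ℝ}
    (hF : Continuous (uncurry F)) : Continuous (uncurry fun t θ => Lop κ R (F t) θ) := by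
  unfold Lop
  have h1 : ∀ i, Continuous fun x : ℝ × S => F x.1 (R i x.2) := fun i =>
    hF.comp (continuous_fst.prodMk ((hR i).comp continuous_snd))
  have : (uncurry fun t θ => κ * ∑ i, (F t (R i θ) - F t θ)) =
      fun x : ℝ × S => κ * ∑ i, (F x.1 (R i x.2) - F x.1 x.2) := by
    ext ⟨t, θ⟩; rfl
  rw [this]
  exact continuous_const.mul (continuous_finsetSum _ fun i _ => (h1 i).sub hF)

end

/-- Data of a solution on the cylinder, with the exponential change of unknowns. -/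
structure Dat (S : Type*) [MetricSpace S] (p q d lam w1 w2 : ℝ) where
  X : ℝ → S → ℝ
  X1 : ℝ → S → ℝ
  X2 : ℝ → S → ℝ
  SX : ℝ → S → ℝ
  Y : ℝ → S → ℝ
  Y1 : ℝ → S → ℝ
  Y2 : ℝ → S → ℝ
  SY : ℝ → S → ℝ
  hX : ∀ t θ, HasDerivAt (fun s => X s θ) (X1 t θ) t
  hX1 : ∀ t θ, HasDerivAt (fun s => X1 s θ) (X2 t θ) t
  hY : ∀ t θ, HasDerivAt (fun s => Y s θ) (Y1 t θ) t
  hY1 : ∀ t θ, HasDerivAt (fun s => Y1 s θ) (Y2 t θ) t
  cX : Continuous (uncurry X)
  cX1 : Continuous (uncurry X1)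
  cX2 : Continuous (uncurry X2)
  cSX : Continuous (uncurry SX)
  cY : Continuous (uncurry Y)
  cY1 : Continuous (uncurry Y1)
  cY2 : Continuous (uncurry Y2)
  cSY : Continuous (uncurry SY)
  pX : ∀ t θ, 0 < X t θ
  pY : ∀ t θ, 0 < Y t θ
  eX : ∀ t θ, X2 t θ - 2 * d * X1 t θ + SX t θ - lam * X t θ + exp (w1 * t) * Y t θ ^ p = 0
  eY : ∀ t θ, Y2 t θ + 2 * d * Y1 t θ + SY t θ - lam * Y t θ + exp (w2 * t) * X t θ ^ q = 0

namespace Dat

variable {p q d lam w1 w2 : ℝ}

/-- The first potential term. -/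
noncomputable def P (D : Dat S p q d lam w1 w2) (t : ℝ) (θ : S) : ℝ :=
  exp (w1 * t) * D.Y t θ ^ (p + 1) / (p + 1)

/-- The second potential term. -/
noncomputable def Q (D : Dat S p q d lam w1 w2) (t : ℝ) (θ : S) : ℝ :=
  exp (w2 * t) * D.X t θ ^ (q + 1) / (q + 1)

/-- The Hamiltonian density. -/
noncomputable def dens (D : Dat S p q d lam w1 w2) (t : ℝ) (θ : S) : ℝ :=
  D.X1 t θ * D.Y1 t θ + D.SX t θ * D.Y t θ - lam * (D.X t θ * D.Y t θ) + D.P t θ + D.Q t θ

/-- The Hamiltonian. -/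
noncomputable def H (sg : Measure S) (D : Dat S p q d lam w1 w2) (t : ℝ) : ℝ :=
  ∫ θ, D.dens t θ ∂sg

/-- The growth density. -/
noncomputable def G (D : Dat S p q d lam w1 w2) (t : ℝ) (θ : S) : ℝ :=
  w1 * D.P t θ + w2 * D.Q t θ

lemma hasDerivAt_P (D : Dat S p q d lam w1 w2) (hp : 0 < p) (t : ℝ) (θ : S) :
    HasDerivAt (fun s => D.P s θ)
      (w1 * D.P t θ + exp (w1 * t) * D.Y t θ ^ p * D.Y1 t θ) t := by
  have h1 : HasDerivAt (fun s : ℝ => exp (w1 * s)) (exp (w1 * t) * (w1 * 1)) t :=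
    ((hasDerivAt_id t).const_mul w1).exp
  have h2 : HasDerivAt (fun s => D.Y s θ ^ (p + 1))
      (D.Y1 t θ * (p + 1) * D.Y t θ ^ (p + 1 - 1)) t :=
    (D.hY t θ).rpow_const (Or.inl (D.pY t θ).ne')
  have h3 := (h1.fun_mul h2).div_const (p + 1)
  refine h3.congr_deriv ?_
  have hp1 : p + 1 ≠ 0 := by positivity
  unfold P
  rw [show p + 1 - 1 = p by ring]
  field_simp

lemma hasDerivAt_Q (D : Dat S p q d lam w1 w2) (hq : 0 < q) (t : ℝ) (θ : S) :
    HasDerivAt (fun s => D.Q s θ)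
      (w2 * D.Q t θ + exp (w2 * t) * D.X t θ ^ q * D.X1 t θ) t := by
  have h1 : HasDerivAt (fun s : ℝ => exp (w2 * s)) (exp (w2 * t) * (w2 * 1)) t :=
    ((hasDerivAt_id t).const_mul w2).exp
  have h2 : HasDerivAt (fun s => D.X s θ ^ (q + 1))
      (D.X1 t θ * (q + 1) * D.X t θ ^ (q + 1 - 1)) t :=
    (D.hX t θ).rpow_const (Or.inl (D.pX t θ).ne')
  have h3 := (h1.fun_mul h2).div_const (q + 1)
  refine h3.congr_deriv ?_
  have hq1 : q + 1 ≠ 0 := by positivity
  unfold Q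
  rw [show q + 1 - 1 = q by ring]
  field_simp

lemma cont_P (D : Dat S p q d lam w1 w2) (hp : 0 < p) : Continuous (uncurry D.P) := by
  have h1 : Continuous fun x : ℝ × S => D.Y x.1 x.2 ^ (p + 1) :=
    D.cY.rpow_const fun x => Or.inr (by linarith only [hp])
  have h2 : Continuous fun x : ℝ × S => exp (w1 * x.1) := by fun_prop
  exact (h2.mul h1).div_const _

lemma cont_Q (D : Dat S p q d lam w1 w2) (hq : 0 < q) : Continuous (uncurry D.Q) := by
  have h1 : Continuous fun x : ℝ × S => D.X x.1 x.2 ^ (q + 1) :=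
    D.cX.rpow_const fun x => Or.inr (by linarith only [hq])
  have h2 : Continuous fun x : ℝ × S => exp (w2 * x.1) := by fun_prop
  exact (h2.mul h1).div_const _

lemma cont_Yp (D : Dat S p q d lam w1 w2) (hp : 0 < p) :
    Continuous fun x : ℝ × S => exp (w1 * x.1) * D.Y x.1 x.2 ^ p := by
  have h1 : Continuous fun x : ℝ × S => D.Y x.1 x.2 ^ p :=
    D.cY.rpow_const fun x => Or.inr hp.le
  have h2 : Continuous fun x : ℝ × S => exp (w1 * x.1) := by fun_prop
  exact h2.mul h1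

lemma cont_Xq (D : Dat S p q d lam w1 w2) (hq : 0 < q) :
    Continuous fun x : ℝ × S => exp (w2 * x.1) * D.X x.1 x.2 ^ q := by
  have h1 : Continuous fun x : ℝ × S => D.X x.1 x.2 ^ q :=
    D.cX.rpow_const fun x => Or.inr hq.le
  have h2 : Continuous fun x : ℝ × S => exp (w2 * x.1) := by fun_prop
  exact h2.mul h1

/-- Approximate Hamiltonian density. -/
noncomputable def hk (D : Dat S p q d lam w1 w2) {ι : Type*} [Fintype ι] (κ : ℝ) (R : ι → S → S)
    (t : ℝ) (θ : S) : ℝ :=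
  D.X1 t θ * D.Y1 t θ + Lop κ R (D.X t) θ * D.Y t θ - lam * (D.X t θ * D.Y t θ) + D.P t θ + D.Q t θ

/-- Its axial derivative. -/
noncomputable def hk1 (D : Dat S p q d lam w1 w2) {ι : Type*} [Fintype ι] (κ : ℝ) (R : ι → S → S)
    (t : ℝ) (θ : S) : ℝ :=
  (D.X2 t θ * D.Y1 t θ + D.X1 t θ * D.Y2 t θ) +
    (Lop κ R (D.X1 t) θ * D.Y t θ + Lop κ R (D.X t) θ * D.Y1 t θ) -
    lam * (D.X1 t θ * D.Y t θ + D.X t θ * D.Y1 t θ) +
    (w1 * D.P t θ + exp (w1 * t) * D.Y t θ ^ p * D.Y1 t θ) +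
    (w2 * D.Q t θ + exp (w2 * t) * D.X t θ ^ q * D.X1 t θ)

section

variable {ι : Type*} [Fintype ι]

lemma hasDerivAt_hk (D : Dat S p q d lam w1 w2) (hp : 0 < p) (hq : 0 < q) (κ : ℝ) (R : ι → S → S)
    (t : ℝ) (θ : S) : HasDerivAt (fun s => D.hk κ R s θ) (D.hk1 κ R t θ) t := by
  unfold hk hk1
  exact ((((((D.hX1 t θ).fun_mul (D.hY1 t θ))).fun_add
    ((Lop_hasDerivAt D.hX t θ).fun_mul (D.hY t θ))).fun_sub
    (((D.hX t θ).fun_mul (D.hY t θ)).const_mul lam)).fun_add (D.hasDerivAt_P hp t θ)).fun_add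
    (D.hasDerivAt_Q hq t θ)

lemma cont_hk (D : Dat S p q d lam w1 w2) (hp : 0 < p) (hq : 0 < q) {κ : ℝ} {R : ι → S → S}
    (hR : ∀ i, Continuous (R i)) : Continuous (uncurry (D.hk κ R)) := by
  have h1 := Lop_cont (κ := κ) hR D.cX
  exact ((((D.cX1.mul D.cY1).add (h1.mul D.cY)).sub (continuous_const.mul (D.cX.mul D.cY))).add
    (D.cont_P hp)).add (D.cont_Q hq)

lemma cont_hk1 (D : Dat S p q d lam w1 w2) (hp : 0 < p) (hq : 0 < q) {κ : ℝ} {R : ι → S → S}
    (hR : ∀ i, Continuous (R i)) : Continuous (uncurry (D.hk1 κ R)) := by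
  have h1 := Lop_cont (κ := κ) hR D.cX
  have h2 := Lop_cont (κ := κ) hR D.cX1
  exact (((((D.cX2.mul D.cY1).add (D.cX1.mul D.cY2)).add ((h2.mul D.cY).add (h1.mul D.cY1))).sub
    (continuous_const.mul ((D.cX1.mul D.cY).add (D.cX.mul D.cY1)))).add
    ((continuous_const.mul (D.cont_P hp)).add ((D.cont_Yp hp).mul D.cY1))).add
    ((continuous_const.mul (D.cont_Q hq)).add ((D.cont_Xq hq).mul D.cX1))

lemma cont_dens (D : Dat S p q d lam w1 w2) (hp : 0 < p) (hq : 0 < q) :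
    Continuous (uncurry D.dens) :=
  ((((D.cX1.mul D.cY1).add (D.cSX.mul D.cY)).sub (continuous_const.mul (D.cX.mul D.cY))).add
    (D.cont_P hp)).add (D.cont_Q hq)

lemma cont_G (D : Dat S p q d lam w1 w2) (hp : 0 < p) (hq : 0 < q) :
    Continuous (uncurry D.G) :=
  (continuous_const.mul (D.cont_P hp)).add (continuous_const.mul (D.cont_Q hq))

/-- The slice integral of the derivative of the approximate density. -/
lemma int_hk1 (D : Dat S p q d lam w1 w2) (hp : 0 < p) (hq : 0 < q) {κ : ℝ} {R : ι → S → S}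
    (hR : ∀ i, Continuous (R i))
    (hsymm : ∀ F G : S → ℝ, Continuous F → Continuous G →
      ∫ θ, Lop κ R F θ * G θ ∂sg = ∫ θ, F θ * Lop κ R G θ ∂sg) (t : ℝ) :
    ∫ θ, D.hk1 κ R t θ ∂sg = ∫ θ, (D.G t θ + (D.Y1 t θ * (Lop κ R (D.X t) θ - D.SX t θ) +
      D.X1 t θ * (Lop κ R (D.Y t) θ - D.SY t θ))) ∂sg := by
  have e := hsymm (D.X1 t) (D.Y t) (cont_slice D.cX1 t) (cont_slice D.cY t)
  have cLX := cont_slice (Lop_cont (κ := κ) hR D.cX) t
  have cLX1 := cont_slice (Lop_cont (κ := κ) hR D.cX1) t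
  have cLY := cont_slice (Lop_cont (κ := κ) hR D.cY) t
  have cY := cont_slice D.cY t
  have cX1 := cont_slice D.cX1 t
  have i1 : Integrable (fun θ => Lop κ R (D.X1 t) θ * D.Y t θ) sg := integrable_cont (cLX1.mul cY)
  have i2 : Integrable (fun θ => D.X1 t θ * Lop κ R (D.Y t) θ) sg := integrable_cont (cX1.mul cLY)
  have i0 : Integrable (fun θ => D.hk1 κ R t θ) sg := integrable_cont (cont_slice (D.cont_hk1 hp hq hR) t)
  have h1 : ∫ θ, D.hk1 κ R t θ ∂sg = ∫ θ, (D.hk1 κ R t θ - Lop κ R (D.X1 t) θ * D.Y t θ +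
      D.X1 t θ * Lop κ R (D.Y t) θ) ∂sg := by
    have i3 : Integrable (fun θ => D.hk1 κ R t θ - Lop κ R (D.X1 t) θ * D.Y t θ) sg := i0.sub i1
    rw [integral_add i3 i2, integral_sub i0 i1, e]
    ring
  rw [h1]
  congr 1
  ext θ
  have e1 := D.eX t θ
  have e2 := D.eY t θ
  unfold hk1 G
  linear_combination (D.Y1 t θ) * e1 + (D.X1 t θ) * e2

end

/-- **Growth identity.** `R k` is a sequence of families of maps such that the jump operators are
symmetric and converge uniformly to the spherical Laplacian. -/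
theorem growth (D : Dat S p q d lam w1 w2) (hp : 0 < p) (hq : 0 < q) {ι : Type*} [Fintype ι]
    (κ : ℕ → ℝ) (R : ℕ → ι → S → S) (hR : ∀ k i, Continuous (R k i))
    (hsymm : ∀ k, ∀ F G : S → ℝ, Continuous F → Continuous G →
      ∫ θ, Lop (κ k) (R k) F θ * G θ ∂sg = ∫ θ, F θ * Lop (κ k) (R k) G θ ∂sg)
    (hunifX : ∀ L : ℝ, ∀ e > 0, ∀ᶠ k in atTop, ∀ s, |s| ≤ L → ∀ θ,
      |Lop (κ k) (R k) (D.X s) θ - D.SX s θ| ≤ e)
    (hunifY : ∀ L : ℝ, ∀ e > 0, ∀ᶠ k in atTop, ∀ s, |s| ≤ L → ∀ θ,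
      |Lop (κ k) (R k) (D.Y s) θ - D.SY s θ| ≤ e) {a b : ℝ} (hab : a ≤ b) :
    D.H sg b - D.H sg a = ∫ s in a..b, (∫ θ, D.G s θ ∂sg) := by
  set L : ℝ := max |a| |b| with hL
  have hs : ∀ s ∈ Icc a b, |s| ≤ L := fun s hs => abs_le_max_abs_abs hs.1 hs.2
  -- bounds for the derivatives
  obtain ⟨M1, hM1⟩ := ((isCompact_Icc (a := a) (b := b)).prod
    (isCompact_univ (X := S))).exists_bound_of_continuousOn D.cX1.continuousOn
  obtain ⟨M2, hM2⟩ := ((isCompact_Icc (a := a) (b := b)).prod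
    (isCompact_univ (X := S))).exists_bound_of_continuousOn D.cY1.continuousOn
  obtain ⟨M3, hM3⟩ := ((isCompact_Icc (a := a) (b := b)).prod
    (isCompact_univ (X := S))).exists_bound_of_continuousOn D.cY.continuousOn
  set M : ℝ := |M1| + |M2| + |M3| with hM
  set W : ℝ := sg.real univ with hW
  have hW0 : 0 ≤ W := measureReal_nonneg
  have key : ∀ e > 0, |(D.H sg b - D.H sg a) - ∫ s in a..b, (∫ θ, D.G s θ ∂sg)| ≤
      e * (M * W * 2 + 2 * M * W * (b - a)) := by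
    intro e he
    obtain ⟨k, hkX, hkY⟩ := ((hunifX L e he).and (hunifY L e he)).exists
    have hf := slice_ftc (sg := sg) (D.hasDerivAt_hk hp hq (κ k) (R k)) (D.cont_hk hp hq (hR k))
      (D.cont_hk1 hp hq (hR k)) a b
    have hdiff : ∀ t ∈ Icc a b, |(∫ θ, D.hk (κ k) (R k) t θ ∂sg) - D.H sg t| ≤ e * (M * W) := by
      intro t ht
      unfold H
      rw [← integral_sub (integrable_cont (cont_slice (D.cont_hk hp hq (hR k)) t))
        (integrable_cont (cont_slice (D.cont_dens hp hq) t))]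
      have : ∀ θ, |D.hk (κ k) (R k) t θ - D.dens t θ| ≤ e * M := by
        intro θ
        have h1 : D.hk (κ k) (R k) t θ - D.dens t θ =
            (Lop (κ k) (R k) (D.X t) θ - D.SX t θ) * D.Y t θ := by
          unfold hk dens; ring
        rw [h1, abs_mul]
        have h2 := hkX t (hs t ht) θ
        have h3 : |D.Y t θ| ≤ M3 := hM3 (t, θ) ⟨ht, mem_univ _⟩
        have h4 : |D.Y t θ| ≤ M := h3.trans ((le_abs_self _).trans (by
          rw [hM]; have := abs_nonneg M1; have := abs_nonneg M2; linarith))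
        exact mul_le_mul h2 h4 (abs_nonneg _) he.le
      have h5 := norm_integral_le_of_norm_le_const (μ := sg) (f := fun θ =>
        D.hk (κ k) (R k) t θ - D.dens t θ) (Eventually.of_forall this)
      rw [Real.norm_eq_abs] at h5
      calc _ ≤ e * M * sg.real univ := h5
        _ = _ := by rw [← hW]; ring
    have hcr : ∀ s ∈ Icc a b, |(∫ θ, D.hk1 (κ k) (R k) s θ ∂sg) - ∫ θ, D.G s θ ∂sg| ≤
        2 * e * M * W := by
      intro s hs'
      rw [D.int_hk1 hp hq (hR k) (hsymm k) s]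
      have cLX := cont_slice (Lop_cont (κ := κ k) (hR k) D.cX) s
      have cLY := cont_slice (Lop_cont (κ := κ k) (hR k) D.cY) s
      have c1 : Continuous fun θ => (D.Y1 s θ * (Lop (κ k) (R k) (D.X s) θ - D.SX s θ) +
          D.X1 s θ * (Lop (κ k) (R k) (D.Y s) θ - D.SY s θ)) :=
        ((cont_slice D.cY1 s).mul (cLX.sub (cont_slice D.cSX s))).add
          ((cont_slice D.cX1 s).mul (cLY.sub (cont_slice D.cSY s)))
      rw [integral_add (integrable_cont (cont_slice (D.cont_G hp hq) s)) (integrable_cont c1),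
        add_sub_cancel_left]
      have : ∀ θ, |D.Y1 s θ * (Lop (κ k) (R k) (D.X s) θ - D.SX s θ) +
          D.X1 s θ * (Lop (κ k) (R k) (D.Y s) θ - D.SY s θ)| ≤ 2 * e * M := by
        intro θ
        have h1 : |D.X1 s θ| ≤ M := (hM1 (s, θ) ⟨hs', mem_univ _⟩).trans ((le_abs_self _).trans (by
          rw [hM]; have := abs_nonneg M2; have := abs_nonneg M3; linarith))
        have h2 : |D.Y1 s θ| ≤ M := (hM2 (s, θ) ⟨hs', mem_univ _⟩).trans ((le_abs_self _).trans (by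
          rw [hM]; have := abs_nonneg M1; have := abs_nonneg M3; linarith))
        have h3 := hkX s (hs s hs') θ
        have h4 := hkY s (hs s hs') θ
        have h5 : |D.Y1 s θ * (Lop (κ k) (R k) (D.X s) θ - D.SX s θ)| ≤ M * e := by
          rw [abs_mul]; exact mul_le_mul h2 h3 (abs_nonneg _) ((abs_nonneg _).trans h2)
        have h6 : |D.X1 s θ * (Lop (κ k) (R k) (D.Y s) θ - D.SY s θ)| ≤ M * e := by
          rw [abs_mul]; exact mul_le_mul h1 h4 (abs_nonneg _) ((abs_nonneg _).trans h1)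
        calc _ ≤ _ := abs_add_le _ _
          _ ≤ 2 * e * M := by linarith only [h5, h6]
      have h5 := norm_integral_le_of_norm_le_const (μ := sg) (f := fun θ =>
        D.Y1 s θ * (Lop (κ k) (R k) (D.X s) θ - D.SX s θ) +
          D.X1 s θ * (Lop (κ k) (R k) (D.Y s) θ - D.SY s θ)) (Eventually.of_forall this)
      rw [Real.norm_eq_abs] at h5
      exact h5
    have hint : |(∫ s in a..b, (∫ θ, D.hk1 (κ k) (R k) s θ ∂sg)) -
        ∫ s in a..b, (∫ θ, D.G s θ ∂sg)| ≤ 2 * e * M * W * (b - a) := by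
      rw [← intervalIntegral.integral_sub
        ((cont_int (D.cont_hk1 hp hq (hR k))).intervalIntegrable _ _)
        ((cont_int (D.cont_G hp hq)).intervalIntegrable _ _)]
      have := intervalIntegral.norm_integral_le_of_norm_le_const (a := a) (b := b)
        (C := 2 * e * M * W) (f := fun s => (∫ θ, D.hk1 (κ k) (R k) s θ ∂sg) - ∫ θ, D.G s θ ∂sg) (by
          intro s hs'
          rw [uIoc_of_le hab] at hs'
          exact hcr s (Ioc_subset_Icc_self hs'))
      rwa [abs_of_nonneg (by linarith : 0 ≤ b - a)] at this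
    have h1 := hdiff a (left_mem_Icc.2 hab)
    have h2 := hdiff b (right_mem_Icc.2 hab)
    have e1 : (D.H sg b - D.H sg a) - ∫ s in a..b, (∫ θ, D.G s θ ∂sg) =
        -((∫ θ, D.hk (κ k) (R k) b θ ∂sg) - D.H sg b) +
        ((∫ θ, D.hk (κ k) (R k) a θ ∂sg) - D.H sg a) +
        ((∫ s in a..b, (∫ θ, D.hk1 (κ k) (R k) s θ ∂sg)) - ∫ s in a..b, (∫ θ, D.G s θ ∂sg)) := by
      rw [← hf]; ring
    rw [e1]
    have h3 := abs_add_le (-((∫ θ, D.hk (κ k) (R k) b θ ∂sg) - D.H sg b) +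
        ((∫ θ, D.hk (κ k) (R k) a θ ∂sg) - D.H sg a))
        ((∫ s in a..b, (∫ θ, D.hk1 (κ k) (R k) s θ ∂sg)) - ∫ s in a..b, (∫ θ, D.G s θ ∂sg))
    have h4 := abs_add_le (-((∫ θ, D.hk (κ k) (R k) b θ ∂sg) - D.H sg b))
        ((∫ θ, D.hk (κ k) (R k) a θ ∂sg) - D.H sg a)
    rw [abs_neg] at h4
    linarith only [hint, h1, h2, h3, h4]
  have hM0 : 0 ≤ M := by rw [hM]; (clear * -; positivity)
  have hC0 : 0 ≤ M * W * 2 + 2 * M * W * (b - a) := by
    have : 0 ≤ b - a := by linarith only [hab]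
    (clear * - hab; positivity)
  have hzero : |(D.H sg b - D.H sg a) - ∫ s in a..b, (∫ θ, D.G s θ ∂sg)| ≤ 0 := by
    apply le_of_forall_pos_le_add
    intro ε hε
    set C := M * W * 2 + 2 * M * W * (b - a) with hC
    have := key (ε / (C + 1)) (by (clear * - hε hab; positivity))
    refine this.trans ?_
    rw [zero_add, div_mul_eq_mul_div, div_le_iff₀ (by (clear * - hab; positivity))]
    nlinarith only [hε]
  have := abs_nonpos_iff.1 hzero
  linarith only [this]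

end Dat

end Vale.Agent.P100.RM
end
end

section

section

/-! P100-RM: bound of the jump form (abstract part). (helper488) -/

open MeasureTheory Set Filter Topology Real

namespace Vale.Agent.P100.RM

noncomputable section

/-- The bilinear form of a symmetric jump operator is bounded by increments. -/
theorem form_bound_abs {S K : Type*} [MeasurableSpace S] {μ : Measure S} [IsFiniteMeasure μ]
    [Fintype K] {R : K → S → S} {inv : K → K} (hinv : Function.Involutive inv)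
    (hR : ∀ k θ, R (inv k) (R k θ) = θ) (hmp : ∀ k, MeasurePreserving (R k) μ μ)
    {F G : S → ℝ} (hFm : AEStronglyMeasurable F μ) (hGm : AEStronglyMeasurable G μ)
    {CF CG : ℝ} (hF : ∀ θ, |F θ| ≤ CF) (hG : ∀ θ, |G θ| ≤ CG)
    {c a b : ℝ} (hc : 0 ≤ c) (ha : ∀ k θ, |F (R k θ) - F θ| ≤ a)
    (hb : ∀ k θ, |G (R k θ) - G θ| ≤ b) :
    |∫ θ, Lop c R F θ * G θ ∂μ| ≤ c * (Fintype.card K / 2 * (a * b)) * μ.real univ := by
  classical
  have hFk : ∀ k, AEStronglyMeasurable (fun θ => F (R k θ)) μ := fun k =>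
    hFm.comp_measurePreserving (hmp k)
  have hGk : ∀ k, AEStronglyMeasurable (fun θ => G (R k θ)) μ := fun k =>
    hGm.comp_measurePreserving (hmp k)
  have hprod : ∀ {f g : S → ℝ}, AEStronglyMeasurable f μ → AEStronglyMeasurable g μ →
      (∀ θ, |f θ| ≤ CF) → (∀ θ, |g θ| ≤ CG) → Integrable (fun θ => f θ * g θ) μ := by
    intro f g hf hg h1 h2
    refine Integrable.of_bound (hf.mul hg) (CF * CG) (Eventually.of_forall fun θ => ?_)
    rw [Real.norm_eq_abs, abs_mul]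
    exact mul_le_mul (h1 θ) (h2 θ) (abs_nonneg _) ((abs_nonneg _).trans (h1 θ))
  have iFG : Integrable (fun θ => F θ * G θ) μ := hprod hFm hGm hF hG
  have iFkG : ∀ k, Integrable (fun θ => F (R k θ) * G θ) μ := fun k =>
    hprod (hFk k) hGm (fun θ => hF _) hG
  have iFGk : ∀ k, Integrable (fun θ => F θ * G (R k θ)) μ := fun k =>
    hprod hFm (hGk k) hF (fun θ => hG _)
  have iFkGk : ∀ k, Integrable (fun θ => F (R k θ) * G (R k θ)) μ := fun k =>
    hprod (hFk k) (hGk k) (fun θ => hF _) (fun θ => hG _)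
  -- change of variables
  have e1 : ∀ k, ∫ θ, F (R k θ) * G (R k θ) ∂μ = ∫ θ, F θ * G θ ∂μ := by
    intro k
    have hme : AEStronglyMeasurable (fun θ => F θ * G θ) (Measure.map (R k) μ) := by
      rw [(hmp k).map_eq]; exact hFm.mul hGm
    have h := integral_map (hmp k).measurable.aemeasurable hme
    rw [(hmp k).map_eq] at h
    exact h.symm
  have e2 : ∀ k, ∫ θ, F (R k θ) * G θ ∂μ = ∫ θ, F θ * G (R (inv k) θ) ∂μ := by
    intro k
    have hme : AEStronglyMeasurable (fun θ => F (R k θ) * G θ)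
        (Measure.map (R (inv k)) μ) := by
      rw [(hmp (inv k)).map_eq]; exact (hFk k).mul hGm
    have h := integral_map (hmp (inv k)).measurable.aemeasurable hme
    rw [(hmp (inv k)).map_eq] at h
    rw [h]
    refine integral_congr_ae (Eventually.of_forall fun θ => ?_)
    have := hR (inv k) θ
    rw [hinv k] at this
    simp only [this]
  have e3 : ∑ k, ∫ θ, F θ * G (R (inv k) θ) ∂μ = ∑ k, ∫ θ, F θ * G (R k θ) ∂μ :=
    Equiv.sum_comp (Function.Involutive.toPerm inv hinv) (fun k => ∫ θ, F θ * G (R k θ) ∂μ)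
  have key : ∑ k, ∫ θ, (F (R k θ) - F θ) * (G (R k θ) - G θ) ∂μ =
      -2 * ∑ k, ∫ θ, (F (R k θ) - F θ) * G θ ∂μ := by
    have s1 : ∀ k, ∫ θ, (F (R k θ) - F θ) * (G (R k θ) - G θ) ∂μ =
        2 * (∫ θ, F θ * G θ ∂μ) - (∫ θ, F (R k θ) * G θ ∂μ) - ∫ θ, F θ * G (R k θ) ∂μ := by
      intro k
      have : (fun θ => (F (R k θ) - F θ) * (G (R k θ) - G θ)) = fun θ =>
          F (R k θ) * G (R k θ) - F (R k θ) * G θ - (F θ * G (R k θ) - F θ * G θ) := by
        funext θ; ring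
      have i1 : Integrable (fun θ => F (R k θ) * G (R k θ) - F (R k θ) * G θ) μ :=
        (iFkGk k).sub (iFkG k)
      have i2 : Integrable (fun θ => F θ * G (R k θ) - F θ * G θ) μ := (iFGk k).sub iFG
      rw [this, integral_sub i1 i2, integral_sub (iFkGk k) (iFkG k), integral_sub (iFGk k) iFG,
        e1 k]
      ring
    have s2 : ∀ k, ∫ θ, (F (R k θ) - F θ) * G θ ∂μ =
        (∫ θ, F (R k θ) * G θ ∂μ) - ∫ θ, F θ * G θ ∂μ := by
      intro k
      have : (fun θ => (F (R k θ) - F θ) * G θ) = fun θ => F (R k θ) * G θ - F θ * G θ := by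
        funext θ; ring
      rw [this, integral_sub (iFkG k) iFG]
    simp only [s1, s2, Finset.sum_sub_distrib]
    rw [← e3]
    simp only [← e2]
    simp only [Finset.sum_const, nsmul_eq_mul]
    ring
  have hL : ∫ θ, Lop c R F θ * G θ ∂μ = c * ∑ k, ∫ θ, (F (R k θ) - F θ) * G θ ∂μ := by
    unfold Lop
    have : (fun θ => c * ∑ k, (F (R k θ) - F θ) * G θ) = fun θ =>
        (c * ∑ k, (F (R k θ) - F θ)) * G θ := by
      funext θ; rw [← Finset.sum_mul]; ring
    rw [← this, integral_const_mul, integral_finsetSum]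
    intro k _
    have h2 : (fun θ => (F (R k θ) - F θ) * G θ) = fun θ => F (R k θ) * G θ - F θ * G θ := by
      funext θ; ring
    rw [h2]
    exact (iFkG k).sub iFG
  have hkey : ∫ θ, Lop c R F θ * G θ ∂μ =
      -(c / 2) * ∑ k, ∫ θ, (F (R k θ) - F θ) * (G (R k θ) - G θ) ∂μ := by
    rw [hL, key]; ring
  rw [hkey, abs_mul, abs_neg, abs_of_nonneg (by (clear * - hc; positivity))]
  have hsum : |∑ k, ∫ θ, (F (R k θ) - F θ) * (G (R k θ) - G θ) ∂μ| ≤
      ∑ _k : K, (a * b) * μ.real univ := by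
    refine (Finset.abs_sum_le_sum_abs _ _).trans (Finset.sum_le_sum fun k _ => ?_)
    have := norm_integral_le_of_norm_le_const (μ := μ)
      (f := fun θ => (F (R k θ) - F θ) * (G (R k θ) - G θ)) (C := a * b)
      (Eventually.of_forall fun θ => by
        rw [Real.norm_eq_abs, abs_mul]
        exact mul_le_mul (ha k θ) (hb k θ) (abs_nonneg _) ((abs_nonneg _).trans (ha k θ)))
    rwa [Real.norm_eq_abs] at this
  rw [Finset.sum_const, nsmul_eq_mul, Finset.card_univ] at hsum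
  calc c / 2 * |∑ k, ∫ θ, (F (R k θ) - F θ) * (G (R k θ) - G θ) ∂μ|
      ≤ c / 2 * (Fintype.card K * ((a * b) * μ.real univ)) :=
        mul_le_mul_of_nonneg_left hsum (by (clear * - hc; positivity))
    _ = c * (Fintype.card K / 2 * (a * b)) * μ.real univ := by ring

variable {n : ℕ}

/-- Increment of `cy0` along a curve of speed at most one on the sphere. -/
theorem cy0_curve_bound {u : E n → ℝ} (hu : ContDiffOn ℝ 2 u {0}ᶜ) (g s : ℝ) {M : ℝ}
    (h1 : ∀ x : E n, ‖x‖ = exp s → ‖fderiv ℝ u x‖ * exp s ≤ M) {γ : ℝ → Sph n} {w : ℝ → E n}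
    (hγ : ∀ t, HasDerivAt (fun t => (γ t : E n)) (w t) t) (hw : ∀ t, ‖w t‖ ≤ 1) {ε : ℝ}
    (hε : 0 ≤ ε) : |cy0 g u s (γ ε) - cy0 g u s (γ 0)| ≤ exp (g * s) * M * ε := by
  have hne : ∀ t, exp s • (γ t : E n) ≠ 0 := by
    intro t h0
    have h2 := smul_eq_zero.1 h0
    rcases h2 with h2 | h2
    · exact (exp_pos s).ne' h2
    · have h3 : ‖(γ t : E n)‖ = 1 := by simp only [norm_eq_of_mem_sphere]
      rw [h2, norm_zero] at h3
      exact zero_ne_one h3
  have hnorm : ∀ t, ‖exp s • (γ t : E n)‖ = exp s := by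
    intro t
    have h3 : ‖(γ t : E n)‖ = 1 := by simp
    rw [norm_smul, h3, mul_one, Real.norm_eq_abs, abs_of_pos (exp_pos s)]
  have hd : ∀ t, HasDerivAt (fun t => cy0 g u s (γ t))
      (exp (g * s) * fderiv ℝ u (exp s • (γ t : E n)) (exp s • w t)) t := by
    intro t
    have hdu : HasFDerivAt u (fderiv ℝ u (exp s • (γ t : E n))) (exp s • (γ t : E n)) := by
      have hca : ContDiffAt ℝ 2 u (exp s • (γ t : E n)) :=
        hu.contDiffAt (isOpen_compl_singleton.mem_nhds (hne t))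
      exact (hca.differentiableAt (by norm_num)).hasFDerivAt
    have hc := ((hγ t).const_smul (exp s))
    exact (hdu.comp_hasDerivAt t hc).const_mul (exp (g * s))
  have hb : ∀ t ∈ (univ : Set ℝ),
      ‖exp (g * s) * fderiv ℝ u (exp s • (γ t : E n)) (exp s • w t)‖ ≤ exp (g * s) * M := by
    intro t _
    rw [norm_mul, Real.norm_eq_abs, abs_of_pos (exp_pos _)]
    refine mul_le_mul_of_nonneg_left ?_ (exp_pos _).le
    calc ‖fderiv ℝ u (exp s • (γ t : E n)) (exp s • w t)‖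
        ≤ ‖fderiv ℝ u (exp s • (γ t : E n))‖ * ‖exp s • w t‖ := ContinuousLinearMap.le_opNorm _ _
      _ ≤ ‖fderiv ℝ u (exp s • (γ t : E n))‖ * exp s := by
          refine mul_le_mul_of_nonneg_left ?_ (norm_nonneg _)
          rw [norm_smul, Real.norm_eq_abs, abs_of_pos (exp_pos s)]
          exact mul_le_of_le_one_right (exp_pos s).le (hw t)
      _ ≤ M := h1 _ (hnorm t)
  have := convex_univ.norm_image_sub_le_of_norm_hasDerivWithin_le
    (f := fun t => cy0 g u s (γ t)) (C := exp (g * s) * M) (x := 0) (y := ε)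
    (fun t _ => (hd t).hasDerivWithinAt) hb (mem_univ _) (mem_univ _)
  simpa only [ge_iff_le, norm_eq_abs, sub_zero, abs_of_nonneg hε] using this

/-- `Lop_form_bound` against an abstract rotation family. -/
theorem form_bound_rot {K : Type*} [Fintype K] (hK : (Fintype.card K : ℝ) ≤ (n : ℝ) ^ 2)
    {R : ℝ → K → Sph n → Sph n} {inv : K → K} (hinv : Function.Involutive inv)
    (hR : ∀ t k θ, R t (inv k) (R t k θ) = θ)
    (hmp : ∀ t k, MeasurePreserving (R t k) (sg n) (sg n)) (hR0 : ∀ k θ, R 0 k θ = θ)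
    {w : K → Sph n → ℝ → E n} (hder : ∀ k θ t, HasDerivAt (fun t => (R t k θ : E n)) (w k θ t) t)
    (hw : ∀ k θ t, ‖w k θ t‖ ≤ 1)
    {u v : E n → ℝ} (hu : ContDiffOn ℝ 2 u {0}ᶜ) (hv : ContDiffOn ℝ 2 v {0}ᶜ)
    (g h s : ℝ) {M1 M2 : ℝ} (h1 : ∀ x : E n, ‖x‖ = exp s → ‖fderiv ℝ u x‖ * exp s ≤ M1)
    (h2 : ∀ x : E n, ‖x‖ = exp s → ‖fderiv ℝ v x‖ * exp s ≤ M2) {ε : ℝ} (hε : 0 < ε) :
    |∫ θ, Lop ((ε ^ 2)⁻¹) (R ε) (cy0 g u s) θ * cy0 h v s θ ∂(sg n)| ≤
      (n : ℝ) ^ 2 * exp ((g + h) * s) * (M1 * M2) * (sg n).real univ := by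
  rcases isEmpty_or_nonempty (Sph n) with hS | ⟨⟨θ0⟩⟩
  · have h0 : (sg n) = 0 := by
      ext A _
      rw [Set.eq_empty_of_isEmpty A]; simp
    simp only [h0, integral_zero_measure, abs_zero, measureReal_zero, Pi.zero_apply, mul_zero, Std.le_refl]
  · have hnz : ∀ θ : Sph n, exp s • (θ : E n) ∈ ({0}ᶜ : Set (E n)) := by
      intro θ h0
      rcases smul_eq_zero.1 h0 with h2 | h2
      · exact (exp_pos s).ne' h2
      · have h3 : ‖(θ : E n)‖ = 1 := by simp only [norm_eq_of_mem_sphere]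
        rw [h2, norm_zero] at h3
        exact zero_ne_one h3
    have hcont : ∀ {f : E n → ℝ}, ContDiffOn ℝ 2 f {0}ᶜ → ∀ g : ℝ, Continuous (cy0 g f s) := by
      intro f hf g
      unfold cy0
      exact continuous_const.mul (hf.continuousOn.comp_continuous
        (continuous_subtype_val.const_smul (exp s)) hnz)
    have hbd : ∀ {f : Sph n → ℝ}, Continuous f → ∃ C, ∀ θ, |f θ| ≤ C := by
      intro f hf
      obtain ⟨C, hC⟩ := (isCompact_range hf.abs).bddAbove
      exact ⟨C, fun θ => hC ⟨θ, rfl⟩⟩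
    obtain ⟨CF, hCF⟩ := hbd (hcont hu g)
    obtain ⟨CG, hCG⟩ := hbd (hcont hv h)
    have hM1 : 0 ≤ M1 := le_trans (by (clear * -; positivity)) (h1 (exp s • (θ0 : E n)) (by
      have h3 : ‖(θ0 : E n)‖ = 1 := by simp only [norm_eq_of_mem_sphere]
      rw [norm_smul, h3, mul_one, Real.norm_eq_abs, abs_of_pos (exp_pos s)]))
    have hM2 : 0 ≤ M2 := le_trans (by positivity) (h2 (exp s • (θ0 : E n)) (by
      have h3 : ‖(θ0 : E n)‖ = 1 := by simp only [norm_eq_of_mem_sphere]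
      rw [norm_smul, h3, mul_one, Real.norm_eq_abs, abs_of_pos (exp_pos s)]))
    have hinc : ∀ {f : E n → ℝ} {M : ℝ}, ContDiffOn ℝ 2 f {0}ᶜ →
        (∀ x : E n, ‖x‖ = exp s → ‖fderiv ℝ f x‖ * exp s ≤ M) → ∀ (g : ℝ) (k : K) (θ : Sph n),
        |cy0 g f s (R ε k θ) - cy0 g f s θ| ≤ exp (g * s) * M * ε := by
      intro f M hf hM g k θ
      have := cy0_curve_bound hf g s hM (γ := fun t => R t k θ) (w := w k θ) (hder k θ)
        (hw k θ) hε.le
      rwa [hR0 k θ] at this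
    refine (form_bound_abs hinv (hR ε) (hmp ε) (hcont hu g).aestronglyMeasurable
      (hcont hv h).aestronglyMeasurable hCF hCG (by positivity : (0 : ℝ) ≤ (ε ^ 2)⁻¹)
      (hinc hu h1 g) (hinc hv h2 h)).trans ?_
    have e1 : (ε ^ 2)⁻¹ * ((Fintype.card K : ℝ) / 2 * (exp (g * s) * M1 * ε *
        (exp (h * s) * M2 * ε))) = (Fintype.card K : ℝ) / 2 * (exp ((g + h) * s) * (M1 * M2)) := by
      rw [show (g + h) * s = g * s + h * s by ring, exp_add]
      (clear * - hε; field_simp)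
    rw [e1]
    refine mul_le_mul_of_nonneg_right ?_ measureReal_nonneg
    have : (0 : ℝ) ≤ exp ((g + h) * s) * (M1 * M2) := by (clear * - hM1 hM2; positivity)
    nlinarith only [this, hK]

end

end Vale.Agent.P100.RM
end
end

section

section

/-! Bounds near the origin for the running-minimum proof (helper33). -/

open MeasureTheory Set Filter Topology Real

namespace Vale.Agent.P100.RM

noncomputable section

variable {n : ℕ}

namespace GrowL

open Vale.Agent.P100.TS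

/-- The coordinate map. -/
def eE (n : ℕ) : (Fin n → ℝ) ≃L[ℝ] EuclideanSpace ℝ (Fin n) := (EuclideanSpace.equiv (Fin n) ℝ).symm

lemma eE_single (i : Fin n) : eE n (Pi.single i 1) = EuclideanSpace.basisFun (Fin n) ℝ i := by
  ext j
  simp only [eE, EuclideanSpace.equiv, PiLp.continuousLinearEquiv_symm_apply, PiLp.toLp_single, PiLp.single_apply, EuclideanSpace.basisFun_apply]

lemma norm_eE (x : Fin n → ℝ) : ‖eE n x‖ = TS.en x := by
  rw [EuclideanSpace.norm_eq]
  unfold TS.en nsq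
  congr 1
  refine Finset.sum_congr rfl fun i _ => ?_
  rw [Real.norm_eq_abs, sq_abs]
  rfl

lemma pd_eE (u : EuclideanSpace ℝ (Fin n) → ℝ) (i : Fin n) (x : Fin n → ℝ) :
    pd i (fun y => u (eE n y)) x =
      fderiv ℝ u (eE n x) (EuclideanSpace.basisFun (Fin n) ℝ i) := by
  unfold pd
  have h := (eE n).comp_right_fderiv (f := u) (x := x)
  have h2 : fderiv ℝ (fun y => u (eE n y)) x = _ := h
  rw [h2, ContinuousLinearMap.comp_apply]
  congr 1
  exact eE_single i

lemma lap_eE {u : EuclideanSpace ℝ (Fin n) → ℝ} (hu : ContDiffOn ℝ 2 u {0}ᶜ) {x : Fin n → ℝ}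
    (hx : x ≠ 0) : lap (fun y => u (eE n y)) x = Laplacian.laplacian u (eE n x) := by
  have hex : eE n x ≠ 0 := fun h => hx ((eE n).map_eq_zero_iff.1 h)
  have hc : ContDiffAt ℝ 2 u (eE n x) := hu.contDiffAt (isOpen_compl_singleton.mem_nhds hex)
  have hd : DifferentiableAt ℝ (fderiv ℝ u) (eE n x) :=
    (hc.fderiv_right (m := 1) (by norm_num)).differentiableAt (by simp)
  have hL := congrFun (InnerProductSpace.laplacian_eq_iteratedFDeriv_orthonormalBasis u
    (EuclideanSpace.basisFun (Fin n) ℝ)) (eE n x)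
  rw [hL]
  unfold lap
  refine Finset.sum_congr rfl fun i _ => ?_
  rw [iteratedFDeriv_two_apply]
  have h1 : pd i (fun y => u (eE n y)) = fun y =>
      fderiv ℝ u (eE n y) (EuclideanSpace.basisFun (Fin n) ℝ i) := by
    funext y
    exact pd_eE u i y
  rw [h1]
  unfold pd
  have h2 : HasFDerivAt (fun y : Fin n → ℝ => fderiv ℝ u (eE n y))
      ((fderiv ℝ (fderiv ℝ u) (eE n x)).comp (eE n : (Fin n → ℝ) →L[ℝ] _)) x :=
    hd.hasFDerivAt.comp x (eE n).hasFDerivAt
  have h3 := h2.clm_apply (hasFDerivAt_const (EuclideanSpace.basisFun (Fin n) ℝ i) x)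
  have h4 : fderiv ℝ (fun y => fderiv ℝ u (eE n y) (EuclideanSpace.basisFun (Fin n) ℝ i)) x = _ :=
    h3.fderiv
  rw [h4]
  simp only [ContinuousLinearMap.comp_zero, zero_add, ContinuousLinearMap.flip_apply,
    ContinuousLinearMap.comp_apply, ContinuousLinearEquiv.coe_coe, eE_single]
  simp only [EuclideanSpace.basisFun_apply, Fin.isValue, Matrix.cons_val_zero, Matrix.cons_val_one, Matrix.cons_val_fin_one]

lemma toPSol {p q A B : ℝ} {u v : EuclideanSpace ℝ (Fin n) → ℝ}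
    (h : IsPositiveEntireSolution n p q A B u v) :
    PSol n p q A B (fun x => u (eE n x)) (fun x => v (eE n x)) := by
  have hmaps : MapsTo (eE n) {0}ᶜ {0}ᶜ := fun x hx h => hx ((eE n).map_eq_zero_iff.1 h)
  refine ⟨h.continuous_u.comp (eE n).continuous, h.continuous_v.comp (eE n).continuous,
    h.contDiffOn_u.comp (eE n).contDiff.contDiffOn hmaps,
    h.contDiffOn_v.comp (eE n).contDiff.contDiffOn hmaps,
    fun x => h.pos_u _, fun x => h.pos_v _, fun x hx => ?_, fun x hx => ?_⟩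
  · have hex : eE n x ≠ 0 := fun h => hx ((eE n).map_eq_zero_iff.1 h)
    have := h.eq_u _ hex
    rw [lap_eE h.contDiffOn_u hx, ← norm_eE]
    linarith
  · have hex : eE n x ≠ 0 := fun h => hx ((eE n).map_eq_zero_iff.1 h)
    have := h.eq_v _ hex
    rw [lap_eE h.contDiffOn_v hx, ← norm_eE]
    linarith only [this]

lemma swap_sol {p q A B : ℝ} {u v : EuclideanSpace ℝ (Fin n) → ℝ}
    (h : IsPositiveEntireSolution n p q A B u v) : IsPositiveEntireSolution n q p B A v u :=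
  ⟨h.contDiffOn_v, h.contDiffOn_u, h.continuous_v, h.continuous_u, h.pos_v, h.pos_u, h.eq_v, h.eq_u⟩

/-- Gradient bound near the origin. -/
lemma grad_near (hn : 3 ≤ n) {p q A B : ℝ} (hA : -2 < A) (hp : 0 < p) {u v : E n → ℝ}
    (hs : IsPositiveEntireSolution n p q A B u v) :
    ∃ C : ℝ, 0 ≤ C ∧ ∀ x : E n, x ≠ 0 → ‖x‖ ≤ 1 → ‖fderiv ℝ u x‖ * ‖x‖ ≤ C := by
  have : NeZero n := ⟨by (clear * - hn; omega)⟩
  obtain ⟨C, hC, hb⟩ := (toPSol hs).grad_bound hn hA hp
  refine ⟨n * (C * n), by (clear * - hn hC; positivity), fun x hx hx1 => ?_⟩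
  obtain ⟨y, hy⟩ : ∃ y, y = (eE n).symm x := ⟨_, rfl⟩
  have hxy : eE n y = x := by rw [hy]; exact (eE n).apply_symm_apply x
  have hx0 : 0 < ‖x‖ := norm_pos_iff.2 hx
  have hen : TS.en y = ‖x‖ := by rw [← norm_eE, hxy]
  have hy0 : y ≠ 0 := by
    rintro rfl
    exact hx (by rw [← hxy]; exact (eE n).map_zero)
  have hyn : 0 < ‖y‖ := norm_pos_iff.2 hy0
  have h1 : ‖y‖ ≤ 1 := (norm_le_en y).trans (hen.trans_le hx1)
  have h2 : ‖x‖ ≤ n * ‖y‖ := hen ▸ en_le y
  have hj : ∀ j, |fderiv ℝ u x (EuclideanSpace.basisFun (Fin n) ℝ j)| * ‖x‖ ≤ C * n := by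
    intro j
    have h3 := hb y hy0 h1 j
    rw [pd_eE, hxy] at h3
    calc |fderiv ℝ u x (EuclideanSpace.basisFun (Fin n) ℝ j)| * ‖x‖
        ≤ (C * ‖y‖⁻¹) * (n * ‖y‖) := mul_le_mul h3 h2 hx0.le (by positivity)
      _ = C * n := by field_simp
  have hop : ‖fderiv ℝ u x‖ ≤
      ∑ j, |fderiv ℝ u x (EuclideanSpace.basisFun (Fin n) ℝ j)| := by
    apply ContinuousLinearMap.opNorm_le_bound _ (Finset.sum_nonneg fun j _ => abs_nonneg _)
    intro z
    have hz : z = ∑ j, z j • EuclideanSpace.basisFun (Fin n) ℝ j := by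
      have := (EuclideanSpace.basisFun (Fin n) ℝ).sum_repr z
      simpa only [EuclideanSpace.basisFun_apply, EuclideanSpace.basisFun_repr] using this.symm
    have hzj : ∀ j, |z j| ≤ ‖z‖ := fun j => by
      have := PiLp.norm_apply_le z j
      simpa only [ge_iff_le, norm_eq_abs] using this
    calc ‖fderiv ℝ u x z‖ = ‖fderiv ℝ u x (∑ j, z j • EuclideanSpace.basisFun (Fin n) ℝ j)‖ := by
          rw [← hz]
      _ = ‖∑ j, z j * fderiv ℝ u x (EuclideanSpace.basisFun (Fin n) ℝ j)‖ := by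
          rw [map_sum]
          simp only [map_smul, smul_eq_mul]
      _ ≤ ∑ j, |z j * fderiv ℝ u x (EuclideanSpace.basisFun (Fin n) ℝ j)| :=
          norm_sum_le _ _
      _ ≤ ∑ j, |fderiv ℝ u x (EuclideanSpace.basisFun (Fin n) ℝ j)| * ‖z‖ := by
          refine Finset.sum_le_sum fun j _ => ?_
          rw [abs_mul, mul_comm]
          exact mul_le_mul_of_nonneg_left (hzj j) (abs_nonneg _)
      _ = _ := by rw [Finset.sum_mul]
  calc ‖fderiv ℝ u x‖ * ‖x‖
      ≤ (∑ j, |fderiv ℝ u x (EuclideanSpace.basisFun (Fin n) ℝ j)|) * ‖x‖ :=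
        mul_le_mul_of_nonneg_right hop hx0.le
    _ = ∑ j, |fderiv ℝ u x (EuclideanSpace.basisFun (Fin n) ℝ j)| * ‖x‖ := by
        rw [Finset.sum_mul]
    _ ≤ ∑ _j : Fin n, C * n := Finset.sum_le_sum fun j _ => hj j
    _ = n * (C * n) := by simp only [Finset.sum_const, Finset.card_univ, Fintype.card_fin, nsmul_eq_mul]

end GrowL

/-- Bounds near the origin. -/
lemma near_bound (hn : 3 ≤ n) {p q A B : ℝ} (hA : -2 < A) (hp : 0 < p) {u v : E n → ℝ}
    (hs : IsPositiveEntireSolution n p q A B u v) :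
    ∃ C : ℝ, 0 ≤ C ∧ ∀ x : E n, x ≠ 0 → ‖x‖ ≤ 1 → |u x| ≤ C ∧ |fderiv ℝ u x x| ≤ C := by
  obtain ⟨C, hC, hb⟩ := GrowL.grad_near hn hA hp hs
  obtain ⟨M, hM⟩ := (isCompact_closedBall (0 : E n) 1).exists_bound_of_continuousOn
    hs.continuous_u.continuousOn
  refine ⟨max C M, hC.trans (le_max_left _ _), fun x hx hx1 => ⟨?_, ?_⟩⟩
  · exact (hM x (by simpa only [Metric.mem_closedBall, dist_zero_right] using hx1)).trans (le_max_right _ _)
  · have h1 := (fderiv ℝ u x).le_opNorm x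
    exact (h1.trans (hb x hx hx1)).trans (le_max_left _ _)

end

end Vale.Agent.P100.RM
end
end

section

section

/-!
# The skeleton statements of POL: `rotS`, `Lsym`, `Lop_unif`
-/

set_option linter.all false

open MeasureTheory Set Filter Topology Real

namespace Vale.Agent.P100.RM

noncomputable section

variable {n : ℕ}

/-- Index set of the rotations. -/
abbrev Kn (n : ℕ) := {k : Fin n × Fin n // k.1 ≠ k.2}

/-- Rotation by the angle `ε` in the plane `(k.1, k.2)`, acting on the sphere. -/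
def rotS (n : ℕ) (ε : ℝ) (k : Kn n) : Sph n → Sph n := act ε k

lemma rotS_eq (ε : ℝ) : rotS n ε = act ε := rfl

lemma continuous_rotS (ε : ℝ) (k : Kn n) : Continuous (rotS n ε k) := continuous_act ε k

/-- Symmetry of the jump operator. -/
lemma Lsym (c ε : ℝ) {F G : Sph n → ℝ} (hF : Continuous F) (hG : Continuous G) :
    ∫ θ, Lop c (rotS n ε) F θ * G θ ∂(sg n) = ∫ θ, F θ * Lop c (rotS n ε) G θ ∂(sg n) :=
  integral_Lop_symm c ε hF hG

lemma Lop_const_mul {S K : Type*} [Fintype K] (c a : ℝ) (R : K → S → S) (F : S → ℝ) (θ : S) :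
    Lop c R (fun θ => a * F θ) θ = a * Lop c R F θ := by
  unfold Lop
  simp only [← mul_sub]
  rw [← Finset.mul_sum]
  ring

/-- Uniform consistency. -/
lemma Lop_unif {u : E n → ℝ} (hu : ContDiffOn ℝ 2 u {0}ᶜ) (g L : ℝ) : ∀ e > 0, ∃ ε0 > 0,
    ∀ ε, 0 < ε → ε < ε0 → ∀ s, |s| ≤ L → ∀ θ,
      |Lop ((ε ^ 2)⁻¹) (rotS n ε) (cy0 g u s) θ - cyS g u s θ| ≤ e := by
  intro e he
  obtain ⟨ε0, h0, h1⟩ := Lop_conv hu L (ω := e / exp (|g| * |L|)) (by (clear * - he; positivity))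
  refine ⟨ε0, h0, fun ε hε hε2 s hs θ => ?_⟩
  have h2 := h1 ε hε hε2.le s hs θ
  have h3 : Lop ((ε ^ 2)⁻¹) (rotS n ε) (cy0 g u s) θ = exp (g * s) *
      Lop ((ε ^ 2)⁻¹) (act ε) (fun θ => u (exp s • (θ : E n))) θ :=
    Lop_const_mul _ (exp (g * s)) _ (fun θ : Sph n => u (exp s • (θ : E n))) θ
  rw [h3, cyS, ← mul_sub, abs_mul, abs_of_pos (exp_pos _)]
  have h4 : g * s ≤ |g| * |L| := by
    refine (le_abs_self _).trans ?_
    rw [abs_mul]
    exact mul_le_mul_of_nonneg_left (hs.trans (le_abs_self L)) (abs_nonneg g)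
  calc exp (g * s) * |Lop (ε ^ 2)⁻¹ (act ε) (fun θ : Sph n => u (exp s • (θ : E n))) θ -
        sph u (exp s • (θ : E n))| ≤ exp (|g| * |L|) * (e / exp (|g| * |L|)) :=
        mul_le_mul (exp_le_exp.2 h4) h2 (abs_nonneg _) (exp_pos _).le
    _ = e := by field_simp

end

end Vale.Agent.P100.RM
end
end

section

section

/-!
# Derivatives, continuity and the equation of the cylinder functions `cy0, cy1, cy2, cyS`
-/

set_option linter.all false

open MeasureTheory Set Filter Topology Real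

namespace Vale.Agent.P100.RM

noncomputable section

variable {n : ℕ}

lemma hasDerivAt_cy0 {u : E n → ℝ} (hu : ContDiffOn ℝ 2 u {0}ᶜ) (g s : ℝ) (θ : Sph n) :
    HasDerivAt (fun r => cy0 g u r θ) (cy1 g u s θ) s := by
  have h1 : HasDerivAt (fun r : ℝ => exp (g * r)) (exp (g * s) * g) s := by
    have := ((hasDerivAt_id s).const_mul g).exp
    simpa using this
  have h2 := (toCyl u hu).hf s θ
  have h3 := h1.mul h2
  refine h3.congr_deriv ?_
  show exp (g * s) * g * u (exp s • (θ : E n)) + exp (g * s) *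
    fderiv ℝ u (exp s • (θ : E n)) (exp s • (θ : E n)) = _
  unfold cy1
  ring

lemma hasDerivAt_cy1 {u : E n → ℝ} (hu : ContDiffOn ℝ 2 u {0}ᶜ) (g s : ℝ) (θ : Sph n) :
    HasDerivAt (fun r => cy1 g u r θ) (cy2 g u s θ) s := by
  have h1 : HasDerivAt (fun r : ℝ => exp (g * r)) (exp (g * s) * g) s := by
    have := ((hasDerivAt_id s).const_mul g).exp
    simpa using this
  have h2 := (toCyl u hu).hf s θ
  have h2' := (toCyl u hu).hf1 s θ
  have h3 := h1.mul ((h2.const_mul g).add h2')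
  refine h3.congr_deriv ?_
  show exp (g * s) * g * (g * u (exp s • (θ : E n)) +
    fderiv ℝ u (exp s • (θ : E n)) (exp s • (θ : E n))) + exp (g * s) *
    (g * fderiv ℝ u (exp s • (θ : E n)) (exp s • (θ : E n)) +
      (fderiv ℝ (fderiv ℝ u) (exp s • (θ : E n)) (exp s • (θ : E n)) (exp s • (θ : E n)) +
      fderiv ℝ u (exp s • (θ : E n)) (exp s • (θ : E n)))) = _
  unfold cy2
  ring

lemma continuous_expsmul : Continuous (fun x : ℝ × Sph n => exp x.1 • (x.2 : E n)) := by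
  fun_prop

lemma continuous_comp_expsmul {F : Type*} [TopologicalSpace F] {w : E n → F}
    (hw : ContinuousOn w {0}ᶜ) : Continuous (fun x : ℝ × Sph n => w (exp x.1 • (x.2 : E n))) :=
  hw.comp_continuous continuous_expsmul fun x => expsmul_ne_zero x.1 x.2

lemma continuous_cy0 {u : E n → ℝ} (hu : ContDiffOn ℝ 2 u {0}ᶜ) (g : ℝ) :
    Continuous (fun x : ℝ × Sph n => cy0 g u x.1 x.2) := by
  unfold cy0
  exact (by fun_prop : Continuous (fun x : ℝ × Sph n => exp (g * x.1))).mul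
    (continuous_comp_expsmul hu.continuousOn)

lemma continuous_cy1 {u : E n → ℝ} (hu : ContDiffOn ℝ 2 u {0}ᶜ) (g : ℝ) :
    Continuous (fun x : ℝ × Sph n => cy1 g u x.1 x.2) := by
  unfold cy1
  have h0 := continuous_comp_expsmul (n := n) hu.continuousOn
  have h1 := (continuous_comp_expsmul (n := n) (continuousOn_fderiv hu)).clm_apply
    continuous_expsmul
  exact (by fun_prop : Continuous (fun x : ℝ × Sph n => exp (g * x.1))).mul
    ((continuous_const.mul h0).add h1)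

lemma continuous_cy2 {u : E n → ℝ} (hu : ContDiffOn ℝ 2 u {0}ᶜ) (g : ℝ) :
    Continuous (fun x : ℝ × Sph n => cy2 g u x.1 x.2) := by
  unfold cy2
  have h0 := continuous_comp_expsmul (n := n) hu.continuousOn
  have h1 := (continuous_comp_expsmul (n := n) (continuousOn_fderiv hu)).clm_apply
    continuous_expsmul
  have h2 := ((continuous_comp_expsmul (n := n) (continuousOn_fderiv2 hu)).clm_apply
    continuous_expsmul).clm_apply continuous_expsmul
  exact (by fun_prop : Continuous (fun x : ℝ × Sph n => exp (g * x.1))).mul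
    (((continuous_const.mul h0).add (continuous_const.mul h1)).add (h2.add h1))

lemma continuousOn_laplacian {u : E n → ℝ} (hu : ContDiffOn ℝ 2 u {0}ᶜ) :
    ContinuousOn (Laplacian.laplacian u) {0}ᶜ := by
  have h : (Laplacian.laplacian u : E n → ℝ) = fun x => ∑ i,
      fderiv ℝ (fderiv ℝ u) x (ev n i) (ev n i) := by
    rw [InnerProductSpace.laplacian_eq_iteratedFDeriv_orthonormalBasis u (ev n)]
    funext x
    simp only [iteratedFDeriv_two_apply, Fin.isValue, Matrix.cons_val_zero, Matrix.cons_val_one, Matrix.cons_val_fin_one]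
  rw [h]
  refine continuousOn_finset_sum _ fun i _ => ?_
  exact ((continuousOn_fderiv2 hu).clm_apply continuousOn_const).clm_apply continuousOn_const

lemma continuousOn_sph {u : E n → ℝ} (hu : ContDiffOn ℝ 2 u {0}ᶜ) :
    ContinuousOn (sph u) {0}ᶜ := by
  unfold sph
  have h1 := (continuousOn_fderiv hu).clm_apply (continuousOn_id (s := ({0}ᶜ : Set (E n))))
  have h2 := ((continuousOn_fderiv2 hu).clm_apply (continuousOn_id (s := ({0}ᶜ : Set (E n))))).clm_apply
    (continuousOn_id (s := ({0}ᶜ : Set (E n))))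
  exact (((by (clear * -; fun_prop) : ContinuousOn (fun x : E n => ‖x‖ ^ 2) {0}ᶜ).mul
    (continuousOn_laplacian hu)).sub h2).sub (continuousOn_const.mul h1)

lemma continuous_cyS {u : E n → ℝ} (hu : ContDiffOn ℝ 2 u {0}ᶜ) (g : ℝ) :
    Continuous (fun x : ℝ × Sph n => cyS g u x.1 x.2) := by
  unfold cyS
  exact (by fun_prop : Continuous (fun x : ℝ × Sph n => exp (g * x.1))).mul
    (continuous_comp_expsmul (continuousOn_sph hu))

/-- the equation on the cylinder in terms of the Laplacian -/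
lemma cy_lap {u : E n → ℝ} (hu : ContDiffOn ℝ 2 u {0}ᶜ) (g s : ℝ) (θ : Sph n) :
    cy2 g u s θ + ((n : ℝ) - 2 - 2 * g) * cy1 g u s θ + cyS g u s θ
      - g * ((n : ℝ) - 2 - g) * cy0 g u s θ =
      exp ((g + 2) * s) * Laplacian.laplacian u (exp s • (θ : E n)) := by
  have h := toCyl_eq u hu s θ
  have hf : (Module.finrank ℝ (E n) : ℝ) = n := by simp only [finrank_euclideanSpace, Fintype.card_fin]
  rw [hf] at h
  have e : exp ((g + 2) * s) = exp (g * s) * exp (2 * s) := by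
    rw [← exp_add]; ring_nf
  rw [e, mul_assoc (exp (g * s)) (exp (2 * s)), ← h]
  show _ = exp (g * s) * (fderiv ℝ (fderiv ℝ u) (exp s • (θ : E n)) (exp s • (θ : E n))
      (exp s • (θ : E n)) + fderiv ℝ u (exp s • (θ : E n)) (exp s • (θ : E n))
      + ((n : ℝ) - 2) * fderiv ℝ u (exp s • (θ : E n)) (exp s • (θ : E n))
      + sph u (exp s • (θ : E n)))
  unfold cy2 cy1 cyS cy0
  ring

/-- The equation on the cylinder; `Y = cy0 h v`. -/
lemma cy_eq {p q A B : ℝ} {u v : E n → ℝ} (hs : IsPositiveEntireSolution n p q A B u v)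
    (g h s : ℝ) (θ : Sph n) :
    cy2 g u s θ + ((n : ℝ) - 2 - 2 * g) * cy1 g u s θ + cyS g u s θ
      - g * ((n : ℝ) - 2 - g) * cy0 g u s θ + exp ((g + 2 + A - p * h) * s) * (cy0 h v s θ) ^ p
      = 0 := by
  rw [cy_lap hs.contDiffOn_u]
  have h1 := hs.eq_u (exp s • (θ : E n)) (expsmul_ne_zero s θ)
  have h2 : Laplacian.laplacian u (exp s • (θ : E n)) =
      -(‖exp s • (θ : E n)‖ ^ A * v (exp s • (θ : E n)) ^ p) := by linarith only [h1]
  rw [h2, norm_expsmul]
  unfold cy0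
  rw [mul_rpow (exp_pos _).le (hs.pos_v _).le, ← exp_mul, ← exp_mul, mul_neg, ← mul_assoc,
    ← mul_assoc, ← exp_add, ← exp_add]
  ring_nf

end

end Vale.Agent.P100.RM
end
end

section

section

/-!
# P100 / RM / LimA : the discrete inequality for integrals (helper602)
-/

open MeasureTheory Set Filter Topology Real

namespace Vale.Agent.P100.RM

section

variable {S K : Type*} [TopologicalSpace S] [CompactSpace S] [MeasurableSpace S] [BorelSpace S]
  [Fintype K]

theorem int_cont (σ : Measure S) [IsFiniteMeasure σ] {f : S → ℝ} (hf : Continuous f) :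
    Integrable f σ :=
  hf.integrable_of_hasCompactSupport (HasCompactSupport.of_compactSpace f)

/-- Integration as a linear functional. -/
noncomputable def Iσ (σ : Measure S) [IsFiniteMeasure σ] : C(S, ℝ) →ₗ[ℝ] ℝ where
  toFun f := ∫ θ, f θ ∂σ
  map_add' f g := integral_add (int_cont σ f.continuous) (int_cont σ g.continuous)
  map_smul' c _ := integral_const_mul c _

omit [CompactSpace S] [MeasurableSpace S] [BorelSpace S] in
theorem continuous_Lop (κ : ℝ) {R : K → S → S} (hR : ∀ k, Continuous (R k)) {F : S → ℝ}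
    (hF : Continuous F) : Continuous (Lop κ R F) := by
  unfold Lop
  exact continuous_const.mul (continuous_finsetSum _ fun k _ => (hF.comp (hR k)).sub hF)

/-- The operator `Lop - lam`. -/
noncomputable def Lk (κ lam : ℝ) (R : K → S → S) (hR : ∀ k, Continuous (R k)) :
    C(S, ℝ) →ₗ[ℝ] C(S, ℝ) where
  toFun F := ⟨fun θ => Lop κ R F θ - lam * F θ,
    (continuous_Lop κ hR F.continuous).sub (continuous_const.mul F.continuous)⟩
  map_add' F G := by
    ext θ
    simp only [Lop, ContinuousMap.coe_mk, ContinuousMap.coe_add, Pi.add_apply]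
    have : ∑ k, (F (R k θ) + G (R k θ) - (F θ + G θ)) =
        ∑ k, (F (R k θ) - F θ) + ∑ k, (G (R k θ) - G θ) := by
      rw [← Finset.sum_add_distrib]
      exact Finset.sum_congr rfl fun k _ => by ring
    rw [this]; ring
  map_smul' c F := by
    ext θ
    simp only [Lop, ContinuousMap.coe_mk, ContinuousMap.coe_smul, Pi.smul_apply, smul_eq_mul,
      RingHom.id_apply]
    have : ∑ k, (c * F (R k θ) - c * F θ) = c * ∑ k, (F (R k θ) - F θ) := by
      rw [Finset.mul_sum]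
      exact Finset.sum_congr rfl fun k _ => by ring
    rw [this]; ring

/-- Truncated running minimum. -/
noncomputable def cminN (X : ℤ → C(S, ℝ)) (N k : ℕ) : C(S, ℝ) := cmin X (min k N)

omit [CompactSpace S] [MeasurableSpace S] [BorelSpace S] in
theorem cminN_of_le {X : ℤ → C(S, ℝ)} {N k : ℕ} (h : k ≤ N) : cminN X N k = cmin X k := by
  rw [cminN, min_eq_left h]

omit [CompactSpace S] [MeasurableSpace S] [BorelSpace S] in
theorem cminN_anti (X : ℤ → C(S, ℝ)) (N k : ℕ) (θ : S) : cminN X N (k + 1) θ ≤ cminN X N k θ := by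
  rcases Nat.lt_or_ge k N with h | h
  · rw [cminN_of_le h.le, cminN_of_le h]; exact cmin_anti X k θ
  · rw [cminN, cminN, min_eq_right h, min_eq_right (by omega)]

omit [CompactSpace S] [MeasurableSpace S] [BorelSpace S] in
theorem cminN_le_zero (X : ℤ → C(S, ℝ)) (N k : ℕ) (θ : S) : cminN X N k θ ≤ X 0 θ :=
  cmin_le X θ _ 0 (by simp only [abs_zero, Nat.cast_min, le_inf_iff, Nat.cast_nonneg, and_self])

omit [CompactSpace S] [MeasurableSpace S] [BorelSpace S] in
theorem cminN_pos {X : ℤ → C(S, ℝ)} (hX : ∀ i θ, 0 < X i θ) (N k : ℕ) (θ : S) :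
    0 < cminN X N k θ :=
  cmin_pos X θ _ fun j _ => hX j θ

/-- The discrete inequality. -/
theorem disc_int (σ : Measure S) [IsFiniteMeasure σ] {κ lam a b p q h om rho Lam : ℝ} {N : ℕ}
    {R : K → S → S} (hR : ∀ k, Continuous (R k)) (hκ : 0 ≤ κ)
    (hsym : ∀ F G : S → ℝ, Continuous F → Continuous G →
      ∫ θ, Lop κ R F θ * G θ ∂σ = ∫ θ, F θ * Lop κ R G θ ∂σ)
    (hp : 0 < p) (hq : 0 < q) (hpq : 1 / (p + 1) + 1 / (q + 1) ≤ 1) (ha : 0 ≤ a) (hb : 0 ≤ b)
    (hN : 1 ≤ N) (hh : 0 < h) (hom : 0 ≤ om) (hrho0 : 0 ≤ rho) (hLam : 0 ≤ Lam)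
    {X Y : ℤ → C(S, ℝ)} (hX : ∀ i θ, 0 < X i θ) (hY : ∀ i θ, 0 < Y i θ)
    (hEX : ∀ (j : ℤ) (θ : S), |j| < (N : ℤ) → (X (j + 1) θ - 2 * X j θ + X (j - 1) θ) / h ^ 2
      + Lk κ lam R hR (X j) θ + a * (Y j θ) ^ p ≤ om)
    (hEY : ∀ (j : ℤ) (θ : S), |j| < (N : ℤ) → (Y (j + 1) θ - 2 * Y j θ + Y (j - 1) θ) / h ^ 2
      + Lk κ lam R hR (Y j) θ + b * (X j θ) ^ q ≤ om)
    (hrho : ∀ k < N, ∀ x, (cmin Y k x) ^ p - (cmin Y (k + 1) x) ^ p ≤ rho)
    (hrho' : ∀ k < N, ∀ x, (cmin X k x) ^ q - (cmin X (k + 1) x) ^ q ≤ rho)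
    (hL : ∀ F : C(S, ℝ), (∀ x, 0 ≤ F x) → ((∀ x, F x ≤ X 0 x) ∨ (∀ x, F x ≤ Y 0 x)) →
      ∀ x, |Lk κ lam R hR F x| ≤ Lam) :
    ((N - 1 : ℕ) * h / 2) * HH (Iσ σ) (Lk κ lam R hR) (cminN X N) (cminN Y N) (fun _ => a)
      (fun _ => b) p q hp hq h 0 ≤
      2 * KE (Iσ σ) (cminN X N) (cminN Y N) h (N - 1)
      + 1 / (((N - 1 : ℕ) + 1 : ℝ) * h) * ∫ θ, Y 0 θ * X 0 θ ∂σ
      + (om * ((N - 1 : ℕ) * h) + h * Lam / 2) * (∫ θ, Y 0 θ ∂σ + ∫ θ, X 0 θ ∂σ)
      + ((N - 1 : ℕ) * h / 2) * ((om + rho * max a b) * (∫ θ, Y 0 θ ∂σ + ∫ θ, X 0 θ ∂σ)) := by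
  have hmax : ∀ (f g : C(S, ℝ)) (θ : S), (∀ θ', f θ' ≤ g θ') → f θ = g θ →
      Lk κ lam R hR f θ ≤ Lk κ lam R hR g θ := by
    intro f g θ hfg he
    change κ * ∑ k, (f (R k θ) - f θ) - lam * f θ ≤ κ * ∑ k, (g (R k θ) - g θ) - lam * g θ
    rw [he]
    have : ∑ k, (f (R k θ) - g θ) ≤ ∑ k, (g (R k θ) - g θ) :=
      Finset.sum_le_sum fun k _ => by linarith only [hfg (R k θ)]
    have := mul_le_mul_of_nonneg_left this hκ
    linarith only [this]
  have hsup : Sup (Iσ σ) (Lk κ lam R hR) (cminN X N) (cminN Y N) (fun _ => a) (fun _ => b)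
      p q h om N := by
    refine ⟨fun f hf => integral_nonneg hf, fun f g => ?_, hp, hq, hh, hom, fun _ => ha,
      fun _ => hb, cminN_pos hX N, cminN_pos hY N, cminN_anti X N, cminN_anti Y N, ?_, ?_⟩
    · change ∫ θ, f θ * (Lop κ R g θ - lam * g θ) ∂σ = ∫ θ, g θ * (Lop κ R f θ - lam * f θ) ∂σ
      have h1 := hsym f g f.continuous g.continuous
      have i1 : Integrable (fun θ => f θ * Lop κ R g θ) σ :=
        int_cont σ (f.continuous.mul (continuous_Lop κ hR g.continuous))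
      have i2 : Integrable (fun θ => Lop κ R f θ * g θ) σ :=
        int_cont σ ((continuous_Lop κ hR f.continuous).mul g.continuous)
      have i3 : Integrable (fun θ => f θ * (lam * g θ)) σ :=
        int_cont σ (f.continuous.mul (continuous_const.mul g.continuous))
      have e1 : ∫ θ, f θ * (Lop κ R g θ - lam * g θ) ∂σ =
          ∫ θ, f θ * Lop κ R g θ ∂σ - ∫ θ, f θ * (lam * g θ) ∂σ := by
        rw [← integral_sub i1 i3]
        exact integral_congr_ae (Eventually.of_forall fun θ => by ring)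
      have e2 : ∫ θ, g θ * (Lop κ R f θ - lam * f θ) ∂σ =
          ∫ θ, Lop κ R f θ * g θ ∂σ - ∫ θ, f θ * (lam * g θ) ∂σ := by
        rw [← integral_sub i2 i3]
        exact integral_congr_ae (Eventually.of_forall fun θ => by ring)
      rw [e1, e2, h1]
    · intro k hk x
      rw [cminN_of_le (show k + 2 ≤ N by omega), cminN_of_le (show k + 1 ≤ N by omega),
        cminN_of_le (show k ≤ N by omega), cminN_of_le (show k + 1 ≤ N by omega)]
      exact disc1 (A := fun _ => a) (a := fun _ => a) hmax hh hp (fun _ => ha)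
        (fun _ _ _ => le_rfl) (fun j θ _ => hY j θ) (fun j θ hj => hEX j θ hj) k hk x
    · intro k hk x
      rw [cminN_of_le (show k + 2 ≤ N by omega), cminN_of_le (show k + 1 ≤ N by omega),
        cminN_of_le (show k ≤ N by omega), cminN_of_le (show k + 1 ≤ N by omega)]
      exact disc1 (A := fun _ => b) (a := fun _ => b) hmax hh hq (fun _ => hb)
        (fun _ _ _ => le_rfl) (fun j θ _ => hX j θ) (fun j θ hj => hEY j θ hj) k hk x
  have hr : ∀ {Z : ℤ → C(S, ℝ)} {r : ℝ}, (∀ k < N, ∀ x, (cmin Z k x) ^ r -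
      (cmin Z (k + 1) x) ^ r ≤ rho) → ∀ k x, (cminN Z N k x) ^ r - (cminN Z N (k + 1) x) ^ r ≤ rho := by
    intro Z r hZ k x
    rcases Nat.lt_or_ge k N with h1 | h1
    · rw [cminN_of_le h1.le, cminN_of_le h1]; exact hZ k h1 x
    · rw [cminN, cminN, min_eq_right h1, min_eq_right (by omega), sub_self]; exact hrho0
  have key := disc_main hsup (rho := rho) (C1 := 0) (abar := max a b) (Lam := Lam) (n := N - 1)
    (by omega) hpq hrho0 le_rfl (ha.trans (le_max_left _ _)) hLam (hr hrho) (hr hrho')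
    (fun _ => le_max_left _ _) (fun _ => le_max_right _ _) (fun _ => by simp) (fun _ => by simp)
    (fun _ => le_rfl) (fun _ => le_rfl)
    (fun k x => hL _ (fun x => (cminN_pos hY N k x).le) (Or.inr (cminN_le_zero Y N k)) x)
    (fun k x => hL _ (fun x => (cminN_pos hX N k x).le) (Or.inl (cminN_le_zero X N k)) x)
  have z1 : cminN X N 0 = X 0 := by rw [cminN_of_le (Nat.zero_le _)]; rfl
  have z2 : cminN Y N 0 = Y 0 := by rw [cminN_of_le (Nat.zero_le _)]; rfl
  rw [z1, z2, zero_mul, add_zero] at key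
  exact key

end

end Vale.Agent.P100.RM
end
end

section

section

/-!
# P100 / RM / LimB : lemmas for the passage to the limit (helper602)
-/

open MeasureTheory Set Filter Topology Real

namespace Vale.Agent.P100.RM

section gen

variable {S : Type*} [TopologicalSpace S] [CompactSpace S]

/-- Uniform modulus of continuity in time. -/
theorem unif_mod {F : ℝ → S → ℝ} (hF : Continuous (fun z : ℝ × S => F z.1 z.2)) (T : ℝ) {ω : ℝ}
    (hω : 0 < ω) : ∃ δ > 0, ∀ s s', |s| ≤ T → |s'| ≤ T → |s - s'| ≤ δ → ∀ θ,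
      |F s θ - F s' θ| ≤ ω := by
  let Φ : ℝ → C(S, ℝ) := fun s => ⟨F s, hF.comp (Continuous.prodMk_right s)⟩
  have hΦ : Continuous Φ := ContinuousMap.continuous_of_continuous_uncurry Φ hF
  have hu := (isCompact_Icc (a := -T) (b := T)).uniformContinuousOn_of_continuous hΦ.continuousOn
  rw [Metric.uniformContinuousOn_iff] at hu
  obtain ⟨δ, hδ, h⟩ := hu ω hω
  refine ⟨δ / 2, by positivity, fun s s' hs hs' hss θ => ?_⟩
  have h1 := h s (abs_le.1 hs) s' (abs_le.1 hs') (by rw [Real.dist_eq]; linarith only [hδ, hss])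
  have h2 := ContinuousMap.dist_apply_le_dist (f := Φ s) (g := Φ s') θ
  rw [Real.dist_eq] at h2
  exact h2.trans h1.le

/-- Bound on a compact window. -/
theorem exists_bound {F : ℝ → S → ℝ} (hF : Continuous (fun z : ℝ × S => F z.1 z.2)) (T : ℝ) :
    ∃ B : ℝ, ∀ s, |s| ≤ T → ∀ θ, |F s θ| ≤ B := by
  obtain ⟨B, hB⟩ := ((isCompact_Icc (a := -T) (b := T)).prod (isCompact_univ (X := S))).bddAbove_image
    (f := fun z : ℝ × S => |F z.1 z.2|) hF.abs.continuousOn
  exact ⟨B, fun s hs θ => hB ⟨(s, θ), ⟨abs_le.1 hs, mem_univ _⟩, rfl⟩⟩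

omit [TopologicalSpace S] [CompactSpace S] in
/-- Second differences. -/
theorem snd_diff {f f1 f2 : ℝ → ℝ} {T ω t h : ℝ} (hh : 0 < h) (h1 : |t + h| ≤ T)
    (h2 : |t - h| ≤ T) (hf : ∀ s, |s| ≤ T → HasDerivAt f (f1 s) s)
    (hf1 : ∀ s, |s| ≤ T → HasDerivAt f1 (f2 s) s)
    (hω : ∀ s s', |s| ≤ T → |s'| ≤ T → |s - s'| ≤ h → |f2 s - f2 s'| ≤ ω) :
    |(f (t + h) - 2 * f t + f (t - h)) / h ^ 2 - f2 t| ≤ 2 * ω := by
  rw [abs_le] at h1 h2
  have ht : |t| ≤ T := by rw [abs_le]; constructor <;> linarith only [hh, h1, h2]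
  have key := Convex.norm_image_sub_le_of_norm_hasDerivWithin_le
    (f := fun s => f (t + s) - 2 * f t + f (t - s) - f2 t * s ^ 2)
    (f' := fun s => f1 (t + s) - f1 (t - s) - f2 t * (2 * s)) (C := 2 * ω * h) (s := Icc 0 h)
    (x := 0) (y := h) (fun s hs => ?_) (fun s hs => ?_) (convex_Icc _ _)
    (left_mem_Icc.2 hh.le) (right_mem_Icc.2 hh.le)
  · simp only [Real.norm_eq_abs, add_zero, sub_zero] at key
    have e1 : (f (t + h) - 2 * f t + f (t - h)) / h ^ 2 - f2 t =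
        (f (t + h) - 2 * f t + f (t - h) - f2 t * h ^ 2) / h ^ 2 := by
      (clear * - hh; field_simp)
    rw [e1, abs_div, abs_of_pos (by positivity : (0 : ℝ) < h ^ 2), div_le_iff₀ (by positivity)]
    have e2 : f (t + h) - 2 * f t + f (t - h) - f2 t * h ^ 2
        - (f t - 2 * f t + f t - f2 t * 0 ^ 2) =
        f (t + h) - 2 * f t + f (t - h) - f2 t * h ^ 2 := by ring
    rw [e2, abs_of_pos hh] at key
    calc _ ≤ _ := key
      _ = _ := by ring
  · have hs1 : |t + s| ≤ T := by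
      rw [abs_le]; constructor <;> linarith only [h1, hs.2, hh, h2, hs.1]
    have hs2 : |t - s| ≤ T := by
      rw [abs_le]; constructor <;> linarith only [h2, hs.2, hh, h1, hs.1]
    have a1 : HasDerivAt (fun s => f (t + s)) (f1 (t + s)) s := (hf _ hs1).comp_const_add t s
    have a2 : HasDerivAt (fun s => f (t - s)) (-f1 (t - s)) s := (hf _ hs2).comp_const_sub t s
    have a3 : HasDerivAt (fun s : ℝ => f2 t * s ^ 2) (f2 t * (2 * s)) s := by
      have := (hasDerivAt_pow 2 s).const_mul (f2 t)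
      simpa only [Nat.cast_ofNat, Nat.add_one_sub_one, pow_one] using this
    have a4 := ((a1.sub_const (2 * f t)).add a2).sub a3
    exact (a4.congr_deriv (by ring)).hasDerivWithinAt
  · have hs1 : |t + s| ≤ T := by
      rw [abs_le]; constructor <;> linarith only [h1, hs.2, hh, h2, hs.1]
    have hs2 : |t - s| ≤ T := by
      rw [abs_le]; constructor <;> linarith only [h2, hs.2, hh, h1, hs.1]
    have hss : |s| ≤ h := by rw [abs_of_nonneg hs.1]; exact hs.2
    have b1 := mvt_bound (f := f1) (f' := f2) (s := t + s) (s' := t) (h := h) hs1 ht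
      (by simpa only [add_sub_cancel_left] using hss) hf1 hω
    have b2 := mvt_bound (f := f1) (f' := f2) (s := t - s) (s' := t) (h := h) hs2 ht
      (by simpa only [sub_sub_cancel_left, abs_neg] using hss) hf1 hω
    have hω0 : 0 ≤ ω := (abs_nonneg _).trans (hω t t ht ht (by simpa only [sub_self, abs_zero] using hh.le))
    rw [show t + s - t = s by ring] at b1
    rw [show t - s - t = -s by ring, abs_neg] at b2
    have hb1 := b1.trans (mul_le_mul_of_nonneg_left hss hω0)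
    have hb2 := b2.trans (mul_le_mul_of_nonneg_left hss hω0)
    rw [Real.norm_eq_abs]
    rw [abs_le] at hb1 hb2 ⊢
    constructor <;> linarith

end gen

section meas

variable {S : Type*} [TopologicalSpace S] [CompactSpace S] [MeasurableSpace S] [BorelSpace S]

/-- Samples as continuous functions. -/
def smpC (X : ℝ → S → ℝ) (hX : Continuous (fun z : ℝ × S => X z.1 z.2)) (h : ℝ) (i : ℤ) : C(S, ℝ) :=
  ⟨smp X h i, hX.comp (Continuous.prodMk_right _)⟩

omit [CompactSpace S] [MeasurableSpace S] [BorelSpace S] in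
theorem cmin_smpC (X : ℝ → S → ℝ) (hX : Continuous (fun z : ℝ × S => X z.1 z.2)) (h : ℝ) (k : ℕ)
    (θ : S) : cmin (smpC X hX h) k θ = rmin (smp X h) k θ := by
  induction k with
  | zero => rfl
  | succ k ih => rw [cmin_succ, rmin_succ, ih]; rfl

/-- Upper bound of the kinetic energy. -/
theorem ke_le' (σ : Measure S) [IsFiniteMeasure σ] {X Y X' : ℝ → S → ℝ} {T ω h B : ℝ} {N : ℕ}
    (hN1 : 1 ≤ N) (hh : 0 < h) (hN : h * N = T)
    (hXc : Continuous (fun z : ℝ × S => X z.1 z.2)) (hYc : Continuous (fun z : ℝ × S => Y z.1 z.2))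
    (hX : ∀ t θ, |t| ≤ T → HasDerivAt (fun t => X t θ) (X' t θ) t)
    (hω : ∀ t t', |t| ≤ T → |t'| ≤ T → |t - t'| ≤ h → ∀ θ, |X' t θ - X' t' θ| ≤ ω) (hω0 : 0 ≤ ω)
    (hY0 : ∀ t θ, 0 < Y t θ) (hYB : ∀ θ, Y 0 θ ≤ B)
    {G : S → ℝ} (hG0 : ∀ θ, 0 ≤ G θ) (hGi : Integrable G σ)
    (hG : ∀ᵐ θ ∂σ, ∀ t, |t| ≤ T → X t θ ≤ X 0 θ → |X' t θ| ≤ G θ) :
    KE (Iσ σ) (cminN (smpC X hXc h) N) (cminN (smpC Y hYc h) N) h (N - 1) ≤
      ∫ θ, G θ * Y 0 θ ∂σ + ω * (B * σ.real univ) := by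
  have hm : ∀ k, Continuous (rmin (smp X h) k) :=
    continuous_rmin fun i => hXc.comp (Continuous.prodMk_right _)
  have hμ : ∀ k, Continuous (rmin (smp Y h) k) :=
    continuous_rmin fun i => hYc.comp (Continuous.prodMk_right _)
  have hb : ∀ f : S → ℝ, Continuous f → Integrable (fun θ => (G θ + ω) * f θ) σ := by
    intro f hf
    have h1 : Integrable (fun θ => G θ + ω) σ := hGi.add (integrable_const _)
    obtain ⟨C, hC⟩ := (isCompact_univ (X := S)).bddAbove_image hf.abs.continuousOn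
    have h2 := h1.bdd_mul (c := C) hf.aestronglyMeasurable
      (Eventually.of_forall fun θ => by
        rw [Real.norm_eq_abs]; exact hC ⟨θ, mem_univ _, rfl⟩)
    exact h2.congr (Eventually.of_forall fun θ => mul_comm _ _)
  have hterm : ∀ k ∈ Finset.range N,
      (Iσ σ) ((cminN (smpC X hXc h) N (k + 1) - cminN (smpC X hXc h) N k) *
        (cminN (smpC Y hYc h) N (k + 1) - cminN (smpC Y hYc h) N k)) ≤
      h * ∫ θ, (G θ + ω) * (rmin (smp Y h) k θ - rmin (smp Y h) (k + 1) θ) ∂σ := by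
    intro k hk
    have hk' := Finset.mem_range.1 hk
    rw [cminN_of_le (show k + 1 ≤ N by omega), cminN_of_le (show k ≤ N by omega),
      cminN_of_le (show k + 1 ≤ N by omega), cminN_of_le (show k ≤ N by omega)]
    have e : (Iσ σ) ((cmin (smpC X hXc h) (k + 1) - cmin (smpC X hXc h) k) *
        (cmin (smpC Y hYc h) (k + 1) - cmin (smpC Y hYc h) k)) =
        ∫ θ, (rmin (smp X h) (k + 1) θ - rmin (smp X h) k θ) *
        (rmin (smp Y h) (k + 1) θ - rmin (smp Y h) k θ) ∂σ := by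
      refine integral_congr_ae (Eventually.of_forall fun θ => ?_)
      simp only [ContinuousMap.coe_mul, ContinuousMap.coe_sub, Pi.mul_apply, Pi.sub_apply,
        cmin_smpC]
    rw [e, ← integral_const_mul]
    refine integral_mono_ae (int_cont σ (((hm _).sub (hm _)).mul ((hμ _).sub (hμ _))))
      ((hb (fun θ => rmin (smp Y h) k θ - rmin (smp Y h) (k + 1) θ)
        ((hμ _).sub (hμ _))).const_mul h) ?_
    filter_upwards [hG] with θ hθ
    have h1 := rmin_slope hh (le_of_eq hN) (fun t ht => hX t θ ht)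
      (fun t t' a b c => hω t t' a b c θ) hω0 (hG0 θ) hθ hk'
    have h2 := rmin_succ_le (smp Y h) k θ
    have h3 : 0 ≤ rmin (smp Y h) k θ - rmin (smp Y h) (k + 1) θ := by linarith only [h2]
    have h4 := mul_le_mul_of_nonneg_right h1 h3
    linarith
  have hsum := Finset.sum_le_sum hterm
  have hKE : KE (Iσ σ) (cminN (smpC X hXc h) N) (cminN (smpC Y hYc h) N) h (N - 1) ≤
      ∑ k ∈ Finset.range N, ∫ θ, (G θ + ω) *
        (rmin (smp Y h) k θ - rmin (smp Y h) (k + 1) θ) ∂σ := by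
    rw [KE, Nat.sub_add_cancel hN1, div_le_iff₀ hh, mul_comm, Finset.mul_sum]
    exact hsum
  refine hKE.trans ?_
  have hbk : ∀ k : ℕ, Integrable (fun θ => (G θ + ω) *
      (rmin (smp Y h) k θ - rmin (smp Y h) (k + 1) θ)) σ := fun k =>
    hb (fun θ => rmin (smp Y h) k θ - rmin (smp Y h) (k + 1) θ) ((hμ _).sub (hμ _))
  rw [← integral_finsetSum _ fun k _ => hbk k]
  have e : ∀ θ, ∑ k ∈ Finset.range N, (G θ + ω) *
      (rmin (smp Y h) k θ - rmin (smp Y h) (k + 1) θ) =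
      (G θ + ω) * (rmin (smp Y h) 0 θ - rmin (smp Y h) N θ) := by
    intro θ
    rw [← Finset.mul_sum, Finset.sum_range_sub']
  simp_rw [e]
  have hy0 : rmin (smp Y h) 0 = Y 0 := by
    funext θ; rw [rmin_zero]; simp [smp]
  have hle : ∀ θ, (G θ + ω) * (rmin (smp Y h) 0 θ - rmin (smp Y h) N θ) ≤
      G θ * Y 0 θ + ω * B := by
    intro θ
    have h1 : 0 < rmin (smp Y h) N θ := rmin_pos fun i _ => hY0 _ θ
    rw [hy0]
    have h2 := hG0 θ
    have h3 := hYB θ
    have h4 := hY0 0 θ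
    nlinarith only [h2, h1, hω0, h3]
  have hY0c : Continuous (Y 0) := hYc.comp (Continuous.prodMk_right _)
  have hGY : Integrable (fun θ => G θ * Y 0 θ) σ := by
    have h1 := (hb _ hY0c).sub ((int_cont σ hY0c).const_mul ω)
    refine h1.congr (Eventually.of_forall fun θ => ?_)
    simp only [Pi.sub_apply]; ring
  calc _ ≤ ∫ θ, (G θ * Y 0 θ + ω * B) ∂σ :=
        integral_mono (hb _ ((hμ _).sub (hμ _))) (hGY.add (integrable_const _)) hle
    _ = _ := by
        rw [integral_add hGY (integrable_const _), integral_const, smul_eq_mul]; ring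

omit [TopologicalSpace S] [CompactSpace S] [BorelSpace S] in
/-- `f` minus a constant is integrable from below: `∫ f - c V ≤ ∫ g` if `f - c ≤ g`. -/
theorem int_le_add (σ : Measure S) [IsFiniteMeasure σ] {f g : S → ℝ} {c : ℝ} (hf : Integrable f σ)
    (hg : Integrable g σ) (h : ∀ x, f x - c ≤ g x) :
    ∫ x, f x ∂σ - c * σ.real univ ≤ ∫ x, g x ∂σ := by
  have h1 : ∫ x, (f x - c) ∂σ = ∫ x, f x ∂σ - c * σ.real univ := by
    rw [integral_sub hf (integrable_const _), integral_const, smul_eq_mul]; ring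
  rw [← h1]
  exact integral_mono (hf.sub (integrable_const _)) hg h

/-- Lower bound of the first Hamiltonian. -/
theorem hh_ge {K : Type*} [Fintype K] (σ : Measure S) [IsFiniteMeasure σ]
    {κ lam a b p q h w ω e B Λ : ℝ}
    {R : K → S → S} (hR : ∀ k, Continuous (R k))
    (hsym : ∀ F G : S → ℝ, Continuous F → Continuous G →
      ∫ θ, Lop κ R F θ * G θ ∂σ = ∫ θ, F θ * Lop κ R G θ ∂σ)
    (hp : 0 < p) (hq : 0 < q) (ha : 0 ≤ a) (hb : 0 ≤ b) (hlam : 0 ≤ lam)
    (hω : 0 ≤ ω) (he0 : 0 ≤ e)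
    {m mu : ℕ → C(S, ℝ)} (hm1 : ∀ x, 0 < m 1 x) (hmu1 : ∀ x, 0 < mu 1 x)
    (hm : ∀ x, m 1 x ≤ m 0 x ∧ m 0 x - m 1 x ≤ w)
    (hmu : ∀ x, mu 1 x ≤ mu 0 x ∧ mu 0 x - mu 1 x ≤ w)
    (hB : ∀ x, m 0 x ≤ B ∧ mu 0 x ≤ B)
    {X1 Y1 SX : S → ℝ} (hX1c : Continuous X1) (hY1c : Continuous Y1) (hSXc : Continuous SX)
    (hX1 : ∀ x, |X1 x| ≤ B) (hY1 : ∀ x, |Y1 x| ≤ B)
    (hprod : ∀ x, X1 x * Y1 x - ω * (|X1 x| + |Y1 x|) ≤
      (m 1 x - m 0 x) * (mu 1 x - mu 0 x) / h ^ 2)
    (hΛ : ∀ x, |Lop κ R (m 0) x| ≤ Λ ∧ |Lop κ R (mu 0) x| ≤ Λ)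
    (he : ∀ x, |Lop κ R (m 0) x - SX x| ≤ e) :
    ∫ x, X1 x * Y1 x ∂σ + ∫ x, SX x * mu 0 x ∂σ - lam * ∫ x, m 0 x * mu 0 x ∂σ
      + a / (p + 1) * ∫ x, mu 0 x ^ (p + 1) ∂σ + b / (q + 1) * ∫ x, m 0 x ^ (q + 1) ∂σ
      - (2 * ω * B + e * B + w * Λ + a / 2 * (w * B ^ p) + b / 2 * (w * B ^ q)) * σ.real univ
      ≤ HH (Iσ σ) (Lk κ lam R hR) m mu (fun _ => a) (fun _ => b) p q hp hq h 0 := by
  have cL : ∀ F : C(S, ℝ), Continuous (Lop κ R F) := fun F => continuous_Lop κ hR F.continuous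
  -- the kinetic term
  have k1 : ∫ x, X1 x * Y1 x ∂σ - (2 * ω * B) * σ.real univ ≤
      (Iσ σ) ((m 1 - m 0) * (mu 1 - mu 0)) / h ^ 2 := by
    have e1 : (Iσ σ) ((m 1 - m 0) * (mu 1 - mu 0)) / h ^ 2 =
        ∫ x, (m 1 x - m 0 x) * (mu 1 x - mu 0 x) / h ^ 2 ∂σ := by
      rw [integral_div]; rfl
    rw [e1]
    refine int_le_add σ (int_cont σ (hX1c.mul hY1c)) (int_cont σ ?_) fun x => ?_
    · exact (((m 1).continuous.sub (m 0).continuous).mul
        ((mu 1).continuous.sub (mu 0).continuous)).div_const _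
    · have h1 := hprod x
      have h2 := hX1 x
      have h3 := hY1 x
      nlinarith only [h1, hω, h2, h3]
  have sym0 : ∫ x, m 0 x * Lop κ R (mu 0) x ∂σ = ∫ x, Lop κ R (m 0) x * mu 0 x ∂σ :=
    (hsym _ _ (m 0).continuous (mu 0).continuous).symm
  have s0 : ∫ x, SX x * mu 0 x ∂σ - (e * B) * σ.real univ ≤
      ∫ x, Lop κ R (m 0) x * mu 0 x ∂σ := by
    refine int_le_add σ (int_cont σ (hSXc.mul (mu 0).continuous))
      (int_cont σ ((cL _).mul (mu 0).continuous)) fun x => ?_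
    have h1 := (abs_le.1 (he x)).1
    have h2 := (hmu1 x).le.trans (hmu x).1
    have h3 := (hB x).2
    nlinarith only [he0, h3, h1, h2]
  have iX : Integrable (fun x => m 0 x * mu 0 x) σ :=
    int_cont σ ((m 0).continuous.mul (mu 0).continuous)
  have iA : ∀ F G : C(S, ℝ), Integrable (fun x => F x * Lop κ R G x) σ := fun F G =>
    int_cont σ (F.continuous.mul (cL G))
  have iB : ∀ F G : C(S, ℝ), Integrable (fun x => Lop κ R F x * G x) σ := fun F G =>
    int_cont σ ((cL F).mul G.continuous)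
  have iP : ∀ F G : C(S, ℝ), Integrable (fun x => lam * (F x * G x)) σ := fun F G =>
    int_cont σ (continuous_const.mul (F.continuous.mul G.continuous))
  have k2 : ∫ x, m 0 x * Lop κ R (mu 0) x ∂σ - lam * ∫ x, m 0 x * mu 0 x ∂σ
      - (w * Λ) * σ.real univ ≤ (Iσ σ) (m 1 * Lk κ lam R hR (mu 0)) := by
    have e1 : ∫ x, m 0 x * Lop κ R (mu 0) x ∂σ - lam * ∫ x, m 0 x * mu 0 x ∂σ =
        ∫ x, (m 0 x * Lop κ R (mu 0) x - lam * (m 0 x * mu 0 x)) ∂σ := by
      rw [integral_sub (iA _ _) (iP _ _), integral_const_mul]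
    rw [e1]
    refine int_le_add σ ?_ (int_cont σ (m 1 * Lk κ lam R hR (mu 0)).continuous) fun x => ?_
    · exact (iA _ _).sub (iP _ _)
    · change m 0 x * Lop κ R (mu 0) x - lam * (m 0 x * mu 0 x) - w * Λ ≤
        m 1 x * (Lop κ R (mu 0) x - lam * mu 0 x)
      have h1 := (hm x).1
      have h2 := (hm x).2
      have h3 := (abs_le.1 (hΛ x).2)
      have h4 := (hmu1 x).le.trans (hmu x).1
      have h5 : (m 0 x - m 1 x) * Lop κ R (mu 0) x ≤ w * Λ := by
        have h6 : (m 0 x - m 1 x) * Lop κ R (mu 0) x ≤ (m 0 x - m 1 x) * Λ :=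
          mul_le_mul_of_nonneg_left h3.2 (by linarith only [h1])
        have h7 : (m 0 x - m 1 x) * Λ ≤ w * Λ :=
          mul_le_mul_of_nonneg_right h2 (by linarith only [h3])
        linarith only [h6, h7]
      have h8 : 0 ≤ lam * ((m 0 x - m 1 x) * mu 0 x) :=
        mul_nonneg hlam (mul_nonneg (by linarith only [h1]) h4)
      nlinarith only [h5, h8]
  have k3 : ∫ x, Lop κ R (m 0) x * mu 0 x ∂σ - lam * ∫ x, m 0 x * mu 0 x ∂σ
      - (w * Λ) * σ.real univ ≤ (Iσ σ) (m 0 * Lk κ lam R hR (mu 1)) := by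
    have e0 : (Iσ σ) (m 0 * Lk κ lam R hR (mu 1)) =
        ∫ x, (Lop κ R (m 0) x * mu 1 x - lam * (m 0 x * mu 1 x)) ∂σ := by
      rw [integral_sub (iB _ _) (iP _ _), hsym _ _ (m 0).continuous (mu 1).continuous,
        ← integral_sub (iA _ _) (iP _ _)]
      refine integral_congr_ae (Eventually.of_forall fun x => ?_)
      change m 0 x * (Lop κ R (mu 1) x - lam * mu 1 x) = _
      ring
    have e1 : ∫ x, Lop κ R (m 0) x * mu 0 x ∂σ - lam * ∫ x, m 0 x * mu 0 x ∂σ =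
        ∫ x, (Lop κ R (m 0) x * mu 0 x - lam * (m 0 x * mu 0 x)) ∂σ := by
      rw [integral_sub (iB _ _) (iP _ _), integral_const_mul]
    rw [e0, e1]
    refine int_le_add σ ?_ ?_ fun x => ?_
    · exact (iB _ _).sub (iP _ _)
    · exact (iB _ _).sub (iP _ _)
    · have h1 := (hmu x).1
      have h2 := (hmu x).2
      have h3 := (abs_le.1 (hΛ x).1)
      have h4 := (hm1 x).le.trans (hm x).1
      have h5 : (mu 0 x - mu 1 x) * Lop κ R (m 0) x ≤ w * Λ := by
        have h6 : (mu 0 x - mu 1 x) * Lop κ R (m 0) x ≤ (mu 0 x - mu 1 x) * Λ :=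
          mul_le_mul_of_nonneg_left h3.2 (by linarith only [h1])
        have h7 : (mu 0 x - mu 1 x) * Λ ≤ w * Λ :=
          mul_le_mul_of_nonneg_right h2 (by linarith only [h3])
        linarith only [h6, h7]
      have h8 : 0 ≤ lam * ((mu 0 x - mu 1 x) * m 0 x) :=
        mul_nonneg hlam (mul_nonneg (by linarith only [h1]) h4)
      nlinarith only [h5, h8]
  -- the potential terms
  have pt : ∀ {r c : ℝ} (hr : 0 < r) (hc : 0 ≤ c) {g : ℕ → C(S, ℝ)}, (∀ x, 0 < g 1 x) →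
      (∀ x, g 1 x ≤ g 0 x ∧ g 0 x - g 1 x ≤ w) → (∀ x, g 0 x ≤ B) →
      c / (r + 1) * ∫ x, g 0 x ^ (r + 1) ∂σ - c / 2 * (w * B ^ r) * σ.real univ ≤
        pot (Iσ σ) r hr (fun _ => c) g 0 := by
    intro r c hr hc g hg1 hg hgB
    have cont : ∀ k, Continuous fun x => g k x ^ (r + 1) := fun k =>
      (g k).continuous.rpow_const fun _ => Or.inr (by linarith only [hr])
    have h1 : ∫ x, g 0 x ^ (r + 1) ∂σ - ((r + 1) * (w * B ^ r)) * σ.real univ ≤
        ∫ x, g 1 x ^ (r + 1) ∂σ := by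
      refine int_le_add σ (int_cont σ (cont 0)) (int_cont σ (cont 1)) fun x => ?_
      have g0 := (hg1 x).trans_le (hg x).1
      have h2 := rpow_convex hr g0 (hg1 x)
      have h3 : (g 0 x - g 1 x) * g 0 x ^ r ≤ w * B ^ r :=
        mul_le_mul (hg x).2 (rpow_le_rpow g0.le (hgB x) hr.le) (rpow_nonneg g0.le _)
          (by linarith only [(hg x).1, (hg x).2])
      nlinarith only [h2, h3, hr]
    have h2 : pot (Iσ σ) r hr (fun _ => c) g 0 =
        (c * ∫ x, g 0 x ^ (r + 1) ∂σ + c * ∫ x, g 1 x ^ (r + 1) ∂σ) / (2 * (r + 1)) := rfl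
    rw [h2, le_div_iff₀ (by (clear * - hr; positivity))]
    have h3 := mul_le_mul_of_nonneg_left h1 hc
    have h4 : (c / (r + 1) * ∫ x, g 0 x ^ (r + 1) ∂σ - c / 2 * (w * B ^ r) * σ.real univ)
        * (2 * (r + 1)) = 2 * (c * ∫ x, g 0 x ^ (r + 1) ∂σ)
          - c * (((r + 1) * (w * B ^ r)) * σ.real univ) := by
      (clear * - hr; field_simp)
    rw [h4]
    linarith only [h3]
  have p1 := pt hp ha hmu1 hmu fun x => (hB x).2
  have p2 := pt hq hb hm1 hm fun x => (hB x).1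
  have hHH : HH (Iσ σ) (Lk κ lam R hR) m mu (fun _ => a) (fun _ => b) p q hp hq h 0 =
      (Iσ σ) ((m 1 - m 0) * (mu 1 - mu 0)) / h ^ 2
      + ((Iσ σ) (m 1 * Lk κ lam R hR (mu 0)) + (Iσ σ) (m 0 * Lk κ lam R hR (mu 1))) / 2
      + pot (Iσ σ) p hp (fun _ => a) mu 0 + pot (Iσ σ) q hq (fun _ => b) m 0 := rfl
  rw [hHH]
  rw [sym0] at k2
  linarith

end meas

end Vale.Agent.P100.RM
end
end

section

section

/-!
# P100 / RM / LimC : the limit `h → 0`, then `ε → 0` (helper602)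
-/

open MeasureTheory Set Filter Topology Real

namespace Vale.Agent.P100.RM

/-- Modulus of continuity of powers. -/
theorem rpow_mod {r B rho : ℝ} (hr : 0 < r) (hrho : 0 < rho) : ∃ δ > 0, ∀ y y' : ℝ,
    y ∈ Icc 0 B → y' ∈ Icc 0 B → |y - y'| ≤ δ → y ^ r - y' ^ r ≤ rho := by
  have hc : ContinuousOn (fun y : ℝ => y ^ r) (Icc 0 B) :=
    (Real.continuous_rpow_const hr.le).continuousOn
  have hu := (isCompact_Icc (a := (0 : ℝ)) (b := B)).uniformContinuousOn_of_continuous hc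
  rw [Metric.uniformContinuousOn_iff] at hu
  obtain ⟨δ, hδ, h⟩ := hu rho hrho
  refine ⟨δ / 2, by positivity, fun y y' hy hy' hyy => ?_⟩
  have h1 := h y hy y' hy' (by rw [Real.dist_eq]; linarith)
  rw [Real.dist_eq] at h1
  exact (le_abs_self _).trans h1.le

section

variable {S K : Type*} [TopologicalSpace S] [CompactSpace S] [MeasurableSpace S] [BorelSpace S]
  [Fintype K]

/-- A window function with its moduli (data at a fixed step). -/
structure Win (X X1 X2 SX : ℝ → S → ℝ) (T B ω e h κ : ℝ) (R : K → S → S) : Prop where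
  c0 : Continuous (fun z : ℝ × S => X z.1 z.2)
  c1 : Continuous (fun z : ℝ × S => X1 z.1 z.2)
  cS : Continuous (fun z : ℝ × S => SX z.1 z.2)
  pos : ∀ s θ, 0 < X s θ
  d0 : ∀ s θ, HasDerivAt (fun t => X t θ) (X1 s θ) s
  d1 : ∀ s θ, HasDerivAt (fun t => X1 t θ) (X2 s θ) s
  b0 : ∀ s, |s| ≤ T → ∀ θ, |X s θ| ≤ B
  b1 : ∀ s, |s| ≤ T → ∀ θ, |X1 s θ| ≤ B
  m1 : ∀ s s', |s| ≤ T → |s'| ≤ T → |s - s'| ≤ h → ∀ θ, |X1 s θ - X1 s' θ| ≤ ω
  m2 : ∀ s s', |s| ≤ T → |s'| ≤ T → |s - s'| ≤ h → ∀ θ, |X2 s θ - X2 s' θ| ≤ ω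
  u : ∀ s, |s| ≤ T → ∀ θ, |Lop κ R (X s) θ - SX s θ| ≤ e

omit [CompactSpace S] [MeasurableSpace S] [BorelSpace S] in
theorem lop_bound {κ B : ℝ} (hκ : 0 ≤ κ) {R : K → S → S} {F : S → ℝ} (h0 : ∀ x, 0 ≤ F x)
    (hB : ∀ x, F x ≤ B) (x : S) : |Lop κ R F x| ≤ κ * (Fintype.card K * B) := by
  rw [Lop, abs_mul, abs_of_nonneg hκ]
  refine mul_le_mul_of_nonneg_left ?_ hκ
  calc |∑ k, (F (R k x) - F x)| ≤ ∑ k, |F (R k x) - F x| := Finset.abs_sum_le_sum_abs _ _
    _ ≤ ∑ _k : K, B := by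
        refine Finset.sum_le_sum fun k _ => ?_
        rw [abs_le]
        constructor <;> linarith [h0 (R k x), h0 x, hB (R k x), hB x]
    _ = Fintype.card K * B := by rw [Finset.sum_const, Finset.card_univ, nsmul_eq_mul]

omit [CompactSpace S] [MeasurableSpace S] [BorelSpace S] in
/-- The approximate discrete equation. -/
theorem Win.disc_eq {X X1 X2 SX Y : ℝ → S → ℝ} {T B ω e h κ lam a p : ℝ} {R : K → S → S}
    (W : Win X X1 X2 SX T B ω e h κ R) (hR : ∀ k, Continuous (R k)) (hh : 0 < h) {N : ℕ}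
    (hN : h * N = T) (hYc : Continuous (fun z : ℝ × S => Y z.1 z.2))
    (eq : ∀ s θ, |s| ≤ T → X2 s θ + SX s θ - lam * X s θ + a * Y s θ ^ p ≤ 0)
    (j : ℤ) (θ : S) (hj : |j| < (N : ℤ)) :
    (smpC X W.c0 h (j + 1) θ - 2 * smpC X W.c0 h j θ + smpC X W.c0 h (j - 1) θ) / h ^ 2
      + Lk κ lam R hR (smpC X W.c0 h j) θ + a * (smpC Y hYc h j θ) ^ p ≤ 2 * ω + e := by
  have hjN : (|(j : ℝ)| + 1) ≤ N := by
    have h1 : |j| + 1 ≤ (N : ℤ) := by omega
    have h2 : ((|j| + 1 : ℤ) : ℝ) ≤ ((N : ℤ) : ℝ) := by exact_mod_cast h1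
    push_cast at h2
    exact h2
  set t : ℝ := j * h with ht
  have habs : |t| + h ≤ T := by
    rw [ht, abs_mul, abs_of_pos hh, ← hN]
    nlinarith only [hh, hjN]
  have ht0 : |t| ≤ T := by linarith only [hh, habs]
  have ht1 : |t + h| ≤ T := (abs_add_le _ _).trans (by rw [abs_of_pos hh]; exact habs)
  have ht2 : |t - h| ≤ T := (abs_sub _ _).trans (by rw [abs_of_pos hh]; exact habs)
  have e1 : smpC X W.c0 h (j + 1) θ = X (t + h) θ := by
    change X (((j + 1 : ℤ) : ℝ) * h) θ = _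
    congr 1; rw [ht]; push_cast; ring
  have e2 : smpC X W.c0 h (j - 1) θ = X (t - h) θ := by
    change X (((j - 1 : ℤ) : ℝ) * h) θ = _
    congr 1; rw [ht]; push_cast; ring
  have e3 : smpC X W.c0 h j θ = X t θ := rfl
  have e4 : smpC Y hYc h j θ = Y t θ := rfl
  have e5 : Lk κ lam R hR (smpC X W.c0 h j) θ = Lop κ R (X t) θ - lam * X t θ := rfl
  rw [e1, e2, e3, e4, e5]
  have s1 := (abs_le.1 (snd_diff (f := fun s => X s θ) (f1 := fun s => X1 s θ)
    (f2 := fun s => X2 s θ) (t := t) hh ht1 ht2 (fun s _ => W.d0 s θ) (fun s _ => W.d1 s θ)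
    (fun s s' a b c => W.m2 s s' a b c θ))).2
  have s2 := (abs_le.1 (W.u t ht0 θ)).2
  have s3 := eq t θ ht0
  linarith only [s1, s2, s3]

omit [CompactSpace S] [MeasurableSpace S] [BorelSpace S] in
theorem Win.slope {X X1 X2 SX : ℝ → S → ℝ} {T B ω e h κ : ℝ} {R : K → S → S}
    (W : Win X X1 X2 SX T B ω e h κ R) (hh : 0 < h) (hω0 : 0 ≤ ω) (hω1 : ω ≤ 1) (hB : 0 ≤ B)
    {N : ℕ} (hN : h * N = T) {k : ℕ} (hk : k < N) (θ : S) :
    cmin (smpC X W.c0 h) k θ - cmin (smpC X W.c0 h) (k + 1) θ ≤ h * (B + 1) := by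
  rw [cmin_smpC, cmin_smpC]
  have h1 := rmin_slope hh (le_of_eq hN) (fun t _ => W.d0 t θ)
    (fun t t' a b c => W.m1 t t' a b c θ) hω0 hB (fun t ht _ => W.b1 t ht θ) hk
  have h2 : h * (B + ω) ≤ h * (B + 1) := by (clear * - hω1 hh; gcongr)
  linarith only [h1, h2]

omit [CompactSpace S] [MeasurableSpace S] [BorelSpace S] in
theorem Win.range {X X1 X2 SX : ℝ → S → ℝ} {T B ω e h κ : ℝ} {R : K → S → S}
    (W : Win X X1 X2 SX T B ω e h κ R) (hT : 0 ≤ T) (k : ℕ) (θ : S) :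
    cmin (smpC X W.c0 h) k θ ∈ Icc 0 B := by
  constructor
  · exact (cmin_pos _ θ k fun j _ => W.pos _ _).le
  · refine (cmin_le (smpC X W.c0 h) θ k 0 (by simp only [abs_zero, Nat.cast_nonneg])).trans ?_
    have : smpC X W.c0 h 0 θ = X 0 θ := by
      change X (((0 : ℤ) : ℝ) * h) θ = _
      simp
    rw [this]
    exact (le_abs_self _).trans (W.b0 0 (by rwa [abs_zero]) θ)

omit [CompactSpace S] [MeasurableSpace S] [BorelSpace S] in
theorem Win.zero {X X1 X2 SX : ℝ → S → ℝ} {T B ω e h κ : ℝ} {R : K → S → S}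
    (W : Win X X1 X2 SX T B ω e h κ R) (θ : S) : smpC X W.c0 h 0 θ = X 0 θ := by
  change X (((0 : ℤ) : ℝ) * h) θ = _
  simp

omit [CompactSpace S] [MeasurableSpace S] [BorelSpace S] in
/-- Product of the first slopes. -/
theorem Win.prod {X X1 X2 SX Y Y1 Y2 SY : ℝ → S → ℝ} {T B ω e h κ : ℝ} {R : K → S → S}
    (W : Win X X1 X2 SX T B ω e h κ R) (W' : Win Y Y1 Y2 SY T B ω e h κ R) (hh : 0 < h)
    (hω0 : 0 ≤ ω) (hhT : h ≤ T) (θ : S) :
    X1 0 θ * Y1 0 θ - ω * (|X1 0 θ| + |Y1 0 θ|) ≤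
      (cmin (smpC X W.c0 h) 1 θ - cmin (smpC X W.c0 h) 0 θ) *
        (cmin (smpC Y W'.c0 h) 1 θ - cmin (smpC Y W'.c0 h) 0 θ) / h ^ 2 := by
  rw [cmin_smpC, cmin_smpC, cmin_smpC, cmin_smpC, rmin_zero, rmin_zero]
  have z1 : smp X h 0 θ = X 0 θ := by simp [smp]
  have z2 : smp Y h 0 θ = Y 0 θ := by simp [smp]
  rw [z1, z2]
  have f1 := rmin_first hh hhT (fun t _ => W.d0 t θ) (fun t t' a b c => W.m1 t t' a b c θ)
  have f2 := rmin_first hh hhT (fun t _ => W'.d0 t θ) (fun t t' a b c => W'.m1 t t' a b c θ)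
  have g1 : 0 ≤ (X 0 θ - rmin (smp X h) 1 θ) / h := by
    have := rmin_le_zero (smp X h) 1 θ
    rw [z1] at this
    exact div_nonneg (by linarith only [this]) hh.le
  have g2 : 0 ≤ (Y 0 θ - rmin (smp Y h) 1 θ) / h := by
    have := rmin_le_zero (smp Y h) 1 θ
    rw [z2] at this
    exact div_nonneg (by linarith only [this]) hh.le
  have h1 := mul_ge_of_slopes g1 g2 hω0 f1 f2
  refine h1.trans (le_of_eq ?_)
  field_simp
  ring

/-- The inequality at a fixed step. -/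
theorem fixed_step (σ : Measure S) [IsFiniteMeasure σ] {lam a b p q T B ω e h κ rho : ℝ}
    (hT : 0 < T) (hlam : 0 ≤ lam) (ha : 0 ≤ a) (hb : 0 ≤ b) (hp : 0 < p) (hq : 0 < q)
    (hpq : 1 / (p + 1) + 1 / (q + 1) ≤ 1) (hκ : 0 ≤ κ) (hB : 0 ≤ B) (he : 0 ≤ e)
    (hω0 : 0 ≤ ω) (hω1 : ω ≤ 1) (hrho : 0 ≤ rho) (hh : 0 < h)
    {R : K → S → S} (hR : ∀ k, Continuous (R k))
    (hsym : ∀ F G : S → ℝ, Continuous F → Continuous G →
      ∫ θ, Lop κ R F θ * G θ ∂σ = ∫ θ, F θ * Lop κ R G θ ∂σ)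
    {X X1 X2 SX Y Y1 Y2 SY : ℝ → S → ℝ} (W : Win X X1 X2 SX T B ω e h κ R)
    (W' : Win Y Y1 Y2 SY T B ω e h κ R)
    (eX : ∀ s θ, |s| ≤ T → X2 s θ + SX s θ - lam * X s θ + a * Y s θ ^ p ≤ 0)
    (eY : ∀ s θ, |s| ≤ T → Y2 s θ + SY s θ - lam * Y s θ + b * X s θ ^ q ≤ 0)
    {N : ℕ} (hN1 : 1 ≤ N) (hN : h * N = T)
    (hmp : ∀ y y' : ℝ, y ∈ Icc 0 B → y' ∈ Icc 0 B → |y - y'| ≤ h * (B + 1) →
      y ^ p - y' ^ p ≤ rho)
    (hmq : ∀ y y' : ℝ, y ∈ Icc 0 B → y' ∈ Icc 0 B → |y - y'| ≤ h * (B + 1) →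
      y ^ q - y' ^ q ≤ rho)
    {G : S → ℝ} (hG0 : ∀ θ, 0 ≤ G θ) (hGi : Integrable G σ)
    (hG : ∀ᵐ θ ∂σ, ∀ t, |t| ≤ T → X t θ ≤ X 0 θ → |X1 t θ| ≤ G θ) :
    (T - h) / 2 * (∫ x, X1 0 x * Y1 0 x ∂σ + ∫ x, SX 0 x * Y 0 x ∂σ - lam * ∫ x, X 0 x * Y 0 x ∂σ
      + a / (p + 1) * ∫ x, Y 0 x ^ (p + 1) ∂σ + b / (q + 1) * ∫ x, X 0 x ^ (q + 1) ∂σ
      - (2 * ω * B + e * B + h * (B + 1) * (κ * (Fintype.card K * B) + lam * B)
        + a / 2 * (h * (B + 1) * B ^ p) + b / 2 * (h * (B + 1) * B ^ q)) * σ.real univ) ≤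
      2 * (∫ θ, G θ * Y 0 θ ∂σ + ω * (B * σ.real univ)) + 1 / T * ∫ θ, Y 0 θ * X 0 θ ∂σ
      + ((2 * ω + e) * T + h * (κ * (Fintype.card K * B) + lam * B) / 2) *
        (2 * (B * σ.real univ))
      + T / 2 * (((2 * ω + e) + rho * max a b) * (2 * (B * σ.real univ))) := by
  set Lam : ℝ := κ * (Fintype.card K * B) + lam * B with hLam
  have hLam0 : 0 ≤ Lam := by (clear * - hκ hB hlam; positivity)
  have hN0 : (1 : ℝ) ≤ N := by exact_mod_cast hN1
  have hhT : h ≤ T := by rw [← hN]; nlinarith only [hh, hN0]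
  have hNh : ((N - 1 : ℕ) : ℝ) * h = T - h := by
    rw [Nat.cast_sub hN1, Nat.cast_one, ← hN]; ring
  have hNh' : (((N - 1 : ℕ) : ℝ) + 1) * h = T := by
    rw [Nat.cast_sub hN1, Nat.cast_one, ← hN]; ring
  have x0 : ∀ θ, smpC X W.c0 h 0 θ = X 0 θ := W.zero
  have y0 : ∀ θ, smpC Y W'.c0 h 0 θ = Y 0 θ := W'.zero
  have hT0 : |(0 : ℝ)| ≤ T := by rw [abs_zero]; exact hT.le
  have XB : ∀ θ, X 0 θ ≤ B := fun θ => (le_abs_self _).trans (W.b0 0 hT0 θ)
  have YB : ∀ θ, Y 0 θ ≤ B := fun θ => (le_abs_self _).trans (W'.b0 0 hT0 θ)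
  have hL : ∀ F : C(S, ℝ), (∀ x, 0 ≤ F x) → ((∀ x, F x ≤ smpC X W.c0 h 0 x) ∨
      (∀ x, F x ≤ smpC Y W'.c0 h 0 x)) → ∀ x, |Lk κ lam R hR F x| ≤ Lam := by
    intro F hF hF' x
    have hFB : ∀ x, F x ≤ B := by
      rcases hF' with h1 | h1
      · exact fun x => (h1 x).trans (by rw [x0]; exact XB x)
      · exact fun x => (h1 x).trans (by rw [y0]; exact YB x)
    have e5 : Lk κ lam R hR F x = Lop κ R F x - lam * F x := rfl
    rw [e5]
    refine (abs_sub _ _).trans ?_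
    rw [abs_mul, abs_of_nonneg hlam, abs_of_nonneg (hF x)]
    exact add_le_add (lop_bound hκ hF hFB x) (mul_le_mul_of_nonneg_left (hFB x) hlam)
  have key := disc_int (σ := σ) (κ := κ) (lam := lam) (a := a) (b := b) (p := p) (q := q) (h := h)
    (om := 2 * ω + e) (rho := rho) (Lam := Lam) (N := N) hR hκ hsym hp hq hpq ha hb hN1 hh
    (by (clear * - hω0 he; positivity)) hrho hLam0 (X := smpC X W.c0 h) (Y := smpC Y W'.c0 h)
    (fun i θ => W.pos _ _) (fun i θ => W'.pos _ _)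
    (fun j θ hj => W.disc_eq hR hh hN W'.c0 eX j θ hj)
    (fun j θ hj => W'.disc_eq hR hh hN W.c0 eY j θ hj)
    (fun k hk x => hmp _ _ (W'.range hT.le k x) (W'.range hT.le (k + 1) x) (by
      have h1 := W'.slope hh hω0 hω1 hB hN hk x
      have h2 := cmin_anti (smpC Y W'.c0 h) k x
      rw [abs_of_nonneg (by linarith only [h2])]; exact h1))
    (fun k hk x => hmq _ _ (W.range hT.le k x) (W.range hT.le (k + 1) x) (by
      have h1 := W.slope hh hω0 hω1 hB hN hk x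
      have h2 := cmin_anti (smpC X W.c0 h) k x
      rw [abs_of_nonneg (by linarith only [h2])]; exact h1)) hL
  rw [hNh, hNh'] at key
  simp_rw [x0, y0] at key
  have hKE := ke_le' σ (B := B) hN1 hh hN W.c0 W'.c0 (fun t θ _ => W.d0 t θ) W.m1 hω0
    W'.pos YB hG0 hGi hG
  have hm01 : cminN (smpC X W.c0 h) N 0 = smpC X W.c0 h 0 := by
    rw [cminN_of_le (Nat.zero_le _)]; rfl
  have hmu01 : cminN (smpC Y W'.c0 h) N 0 = smpC Y W'.c0 h 0 := by
    rw [cminN_of_le (Nat.zero_le _)]; rfl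
  have f0 : ∀ x, cminN (smpC X W.c0 h) N 0 x = X 0 x := fun x => by rw [hm01, x0]
  have g0 : ∀ x, cminN (smpC Y W'.c0 h) N 0 x = Y 0 x := fun x => by rw [hmu01, y0]
  have f0' : (cminN (smpC X W.c0 h) N 0 : S → ℝ) = X 0 := funext f0
  have g0' : (cminN (smpC Y W'.c0 h) N 0 : S → ℝ) = Y 0 := funext g0
  have hge := hh_ge (σ := σ) (κ := κ) (lam := lam) (a := a) (b := b) (p := p) (q := q) (h := h)
    (w := h * (B + 1)) (ω := ω) (e := e) (B := B) (Λ := Lam) hR hsym hp hq ha hb hlam hω0 he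
    (m := cminN (smpC X W.c0 h) N) (mu := cminN (smpC Y W'.c0 h) N)
    (fun x => cminN_pos (fun i θ => W.pos _ _) N 1 x)
    (fun x => cminN_pos (fun i θ => W'.pos _ _) N 1 x)
    (fun x => ⟨cminN_anti _ N 0 x, by
      rw [cminN_of_le (Nat.zero_le _), cminN_of_le hN1]
      exact W.slope hh hω0 hω1 hB hN (k := 0) hN1 x⟩)
    (fun x => ⟨cminN_anti _ N 0 x, by
      rw [cminN_of_le (Nat.zero_le _), cminN_of_le hN1]
      exact W'.slope hh hω0 hω1 hB hN (k := 0) hN1 x⟩)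
    (fun x => ⟨by rw [f0]; exact XB x, by rw [g0]; exact YB x⟩)
    (X1 := X1 0) (Y1 := Y1 0) (SX := SX 0)
    (W.c1.comp (Continuous.prodMk_right _)) (W'.c1.comp (Continuous.prodMk_right _))
    (W.cS.comp (Continuous.prodMk_right _)) (W.b1 0 hT0) (W'.b1 0 hT0)
    (fun x => by
      rw [cminN_of_le (Nat.zero_le _), cminN_of_le hN1, cminN_of_le (Nat.zero_le _),
        cminN_of_le hN1]
      exact W.prod W' hh hω0 hhT x)
    (fun x => ⟨by
      rw [f0']
      exact (lop_bound hκ (fun x => (W.pos 0 x).le) XB x).trans (by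
        rw [hLam]; have := mul_nonneg hlam hB; linarith only [this]), by
      rw [g0']
      exact (lop_bound hκ (fun x => (W'.pos 0 x).le) YB x).trans (by
        rw [hLam]; have := mul_nonneg hlam hB; linarith only [this])⟩)
    (fun x => by rw [f0']; exact W.u 0 hT0 x)
  simp_rw [f0, g0] at hge
  have hTh : 0 ≤ (T - h) / 2 := by linarith only [hhT]
  have h1 := mul_le_mul_of_nonneg_left hge hTh
  refine h1.trans (key.trans ?_)
  have hV : 0 ≤ σ.real univ := measureReal_nonneg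
  have iXle : ∫ θ, X 0 θ ∂σ ≤ B * σ.real univ := by
    calc ∫ θ, X 0 θ ∂σ ≤ ∫ _θ, B ∂σ := integral_mono
          (int_cont σ (W.c0.comp (Continuous.prodMk_right _))) (integrable_const _) XB
      _ = B * σ.real univ := by rw [integral_const, smul_eq_mul]; ring
  have iYle : ∫ θ, Y 0 θ ∂σ ≤ B * σ.real univ := by
    calc ∫ θ, Y 0 θ ∂σ ≤ ∫ _θ, B ∂σ := integral_mono
          (int_cont σ (W'.c0.comp (Continuous.prodMk_right _))) (integrable_const _) YB
      _ = B * σ.real univ := by rw [integral_const, smul_eq_mul]; ring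
  have iX0 : 0 ≤ ∫ θ, X 0 θ ∂σ := integral_nonneg fun θ => (W.pos 0 θ).le
  have iY0 : 0 ≤ ∫ θ, Y 0 θ ∂σ := integral_nonneg fun θ => (W'.pos 0 θ).le
  have hsum : ∫ θ, Y 0 θ ∂σ + ∫ θ, X 0 θ ∂σ ≤ 2 * (B * σ.real univ) := by linarith only [iXle, iYle]
  have hsum0 : 0 ≤ ∫ θ, Y 0 θ ∂σ + ∫ θ, X 0 θ ∂σ := by linarith only [iX0, iY0]
  have t1 : ((2 * ω + e) * (T - h) + h * Lam / 2) * (∫ θ, Y 0 θ ∂σ + ∫ θ, X 0 θ ∂σ) ≤
      ((2 * ω + e) * T + h * Lam / 2) * (2 * (B * σ.real univ)) := by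
    refine mul_le_mul ?_ hsum hsum0 (by (clear * - hω0 he hT hh hκ hB hlam; positivity))
    have : (2 * ω + e) * (T - h) ≤ (2 * ω + e) * T := by
      refine mul_le_mul_of_nonneg_left (by linarith only [hh]) (by (clear * - hω0 he; positivity))
    linarith only [this]
  have hmax : 0 ≤ max a b := ha.trans (le_max_left _ _)
  have t2 : (T - h) / 2 * (((2 * ω + e) + rho * max a b) * (∫ θ, Y 0 θ ∂σ + ∫ θ, X 0 θ ∂σ)) ≤
      T / 2 * (((2 * ω + e) + rho * max a b) * (2 * (B * σ.real univ))) := by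
    refine mul_le_mul (by linarith only [hh]) ?_ (by (clear * - hω0 he hrho ha iY0 iX0; positivity)) (by positivity)
    exact mul_le_mul_of_nonneg_left hsum (by (clear * - hω0 he hrho ha; positivity))
  (clear p q hb hp hq hpq hω1 hR hsym eX eY hmp hmq hLam hLam0 hN0 hhT hNh hNh' x0 y0 hL key hm01 hmu01 f0 g0 f0' g0' hge hTh h1 hV hmax; linarith)

end

end Vale.Agent.P100.RM
end
end

section

section

/-!
# P100 / RM / LimD : the smooth inequality, abstract form (helper602)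
-/

open MeasureTheory Set Filter Topology Real

namespace Vale.Agent.P100.RM

variable {S K : Type*} [TopologicalSpace S] [CompactSpace S] [MeasurableSpace S] [BorelSpace S]
  [Fintype K]

/-- Choice of a fine subdivision. -/
theorem exists_step {T δ : ℝ} (hT : 0 < T) (hδ : 0 < δ) :
    ∃ (h : ℝ) (N : ℕ), 0 < h ∧ 1 ≤ N ∧ h * N = T ∧ h ≤ δ := by
  obtain ⟨N, hN⟩ := exists_nat_gt (T / δ)
  have hNpos : (0 : ℝ) < N := lt_trans (by positivity) hN
  have hN0 : 0 < N := by exact_mod_cast hNpos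
  refine ⟨T / N, N, by (clear * - hT hN0; positivity), hN0, by field_simp, ?_⟩
  rw [div_le_iff₀ hNpos]
  rw [div_lt_iff₀ hδ] at hN
  linarith only [hN]

/-- The final arithmetic. -/
theorem lim_arith {T h H0 ω e rho mab B V C3 Lam I1 I2 : ℝ} (hT : 0 ≤ T) (hh : 0 ≤ h)
    (hω : 0 ≤ ω) (he : 0 ≤ e) (hB : 0 ≤ B) (hV : 0 ≤ V) (hC3 : 0 ≤ C3)
    (key : (T - h) / 2 * (H0 - (2 * ω * B + e * B + h * C3) * V) ≤
      2 * (I1 + ω * (B * V)) + 1 / T * I2
      + ((2 * ω + e) * T + h * Lam / 2) * (2 * (B * V))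
      + T / 2 * (((2 * ω + e) + rho * mab) * (2 * (B * V)))) :
    T / 2 * H0 ≤ 2 * I1 + 1 / T * I2 + (ω * ((7 * T + 2) * B * V) + rho * (T * mab * B * V)
      + h * (|H0| / 2 + T / 2 * C3 * V + Lam * B * V) + e * (4 * T * B * V)) := by
  have hE0 : 0 ≤ (2 * ω * B + e * B + h * C3) * V := by positivity
  have a1 : T / 2 * H0 - h / 2 * |H0| ≤ (T - h) / 2 * H0 := by
    have h1 : h / 2 * H0 ≤ h / 2 * |H0| := mul_le_mul_of_nonneg_left (le_abs_self _) (by positivity)
    linarith only [h1]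
  have a2 : (T - h) / 2 * ((2 * ω * B + e * B + h * C3) * V) ≤
      T / 2 * ((2 * ω * B + e * B + h * C3) * V) :=
    mul_le_mul_of_nonneg_right (by linarith only [hh]) hE0
  rw [mul_sub] at key
  have h2 : 0 ≤ e * (T * B * V) := by positivity
  have h6 : T / 2 * ((2 * ω * B + e * B + h * C3) * V) =
    ω * (T * B * V) + e * (T * B * V) / 2 + T / 2 * (h * C3 * V) := by ring
  have h7 : ((2 * ω + e) * T + h * Lam / 2) * (2 * (B * V)) =
    4 * (ω * (T * B * V)) + 2 * (e * (T * B * V)) + h * Lam * (B * V) := by ring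
  have h8 : T / 2 * (((2 * ω + e) + rho * mab) * (2 * (B * V))) =
    2 * (ω * (T * B * V)) + e * (T * B * V) + rho * mab * (T * B * V) := by ring
  have h9 : 2 * (I1 + ω * (B * V)) = 2 * I1 + ω * (B * V) * 2 := by ring
  rw [h7, h8, h9] at key
  rw [h6] at a2
  have h3 : ω * ((7 * T + 2) * B * V) = ω * (T * B * V) * 7 + ω * (B * V) * 2 := by ring
  have h4 : rho * (T * mab * B * V) = rho * mab * (T * B * V) := by ring
  have h5 : h * (|H0| / 2 + T / 2 * C3 * V + Lam * B * V) =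
      h / 2 * |H0| + T / 2 * (h * C3 * V) + h * Lam * (B * V) := by ring
  have h10 : e * (4 * T * B * V) = 4 * (e * (T * B * V)) := by ring
  rw [h3, h4, h5, h10]
  linarith only [key, a1, a2, h2]

theorem small_choice {η Q : ℝ} (hη : 0 < η) (hQ : 0 ≤ Q) {x : ℝ} (hx : x ≤ η / (6 * (Q + 1))) :
    x * Q ≤ η / 6 := by
  have h2 : η / (6 * (Q + 1)) * (Q + 1) = η / 6 := by field_simp
  have h3 : 0 < η / (6 * (Q + 1)) := by positivity
  have h4 : x * Q ≤ η / (6 * (Q + 1)) * Q := mul_le_mul_of_nonneg_right hx hQ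
  linarith

/-- **The limit inequality, abstract form.** -/
theorem lim_abs (σ : Measure S) [IsFiniteMeasure σ] {lam a b p q T : ℝ}
    (hT : 0 < T) (hlam : 0 ≤ lam) (ha : 0 ≤ a) (hb : 0 ≤ b) (hp : 0 < p) (hq : 0 < q)
    (hpq : 1 / (p + 1) + 1 / (q + 1) ≤ 1)
    {R : ℝ → K → S → S} (hR : ∀ ε k, Continuous (R ε k))
    (hsym : ∀ (c ε : ℝ) (F G : S → ℝ), Continuous F → Continuous G →
      ∫ θ, Lop c (R ε) F θ * G θ ∂σ = ∫ θ, F θ * Lop c (R ε) G θ ∂σ)
    {X X1 X2 SX Y Y1 Y2 SY : ℝ → S → ℝ}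
    (cX : Continuous (fun z : ℝ × S => X z.1 z.2)) (cX1 : Continuous (fun z : ℝ × S => X1 z.1 z.2))
    (cX2 : Continuous (fun z : ℝ × S => X2 z.1 z.2))
    (cSX : Continuous (fun z : ℝ × S => SX z.1 z.2))
    (cY : Continuous (fun z : ℝ × S => Y z.1 z.2)) (cY1 : Continuous (fun z : ℝ × S => Y1 z.1 z.2))
    (cY2 : Continuous (fun z : ℝ × S => Y2 z.1 z.2))
    (cSY : Continuous (fun z : ℝ × S => SY z.1 z.2))
    (dX : ∀ s θ, HasDerivAt (fun t => X t θ) (X1 s θ) s)
    (dX1 : ∀ s θ, HasDerivAt (fun t => X1 t θ) (X2 s θ) s)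
    (dY : ∀ s θ, HasDerivAt (fun t => Y t θ) (Y1 s θ) s)
    (dY1 : ∀ s θ, HasDerivAt (fun t => Y1 t θ) (Y2 s θ) s)
    (posX : ∀ s θ, 0 < X s θ) (posY : ∀ s θ, 0 < Y s θ)
    (uX : ∀ e > 0, ∃ ε0 > 0, ∀ ε, 0 < ε → ε < ε0 → ∀ s, |s| ≤ T → ∀ θ,
      |Lop ((ε ^ 2)⁻¹) (R ε) (X s) θ - SX s θ| ≤ e)
    (uY : ∀ e > 0, ∃ ε0 > 0, ∀ ε, 0 < ε → ε < ε0 → ∀ s, |s| ≤ T → ∀ θ,
      |Lop ((ε ^ 2)⁻¹) (R ε) (Y s) θ - SY s θ| ≤ e)
    (eX : ∀ s θ, |s| ≤ T → X2 s θ + SX s θ - lam * X s θ + a * Y s θ ^ p ≤ 0)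
    (eY : ∀ s θ, |s| ≤ T → Y2 s θ + SY s θ - lam * Y s θ + b * X s θ ^ q ≤ 0)
    {G : S → ℝ} (hG0 : ∀ θ, 0 ≤ G θ) (hGi : Integrable G σ)
    (hG : ∀ᵐ θ ∂σ, ∀ t, |t| ≤ T → X t θ ≤ X 0 θ → |X1 t θ| ≤ G θ) :
    T / 2 * (∫ x, X1 0 x * Y1 0 x ∂σ + ∫ x, SX 0 x * Y 0 x ∂σ - lam * ∫ x, X 0 x * Y 0 x ∂σ
      + a / (p + 1) * ∫ x, Y 0 x ^ (p + 1) ∂σ + b / (q + 1) * ∫ x, X 0 x ^ (q + 1) ∂σ) ≤
      2 * ∫ θ, G θ * Y 0 θ ∂σ + 1 / T * ∫ θ, Y 0 θ * X 0 θ ∂σ := by
  refine le_of_forall_pos_le_add fun η hη => ?_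
  obtain ⟨B0, hB0⟩ := exists_bound cX T
  obtain ⟨B1, hB1⟩ := exists_bound cY T
  obtain ⟨B2, hB2⟩ := exists_bound cX1 T
  obtain ⟨B3, hB3⟩ := exists_bound cY1 T
  obtain ⟨B, hB, hB0', hB1', hB2', hB3'⟩ : ∃ B : ℝ, 0 ≤ B ∧ B0 ≤ B ∧ B1 ≤ B ∧ B2 ≤ B ∧ B3 ≤ B :=
    ⟨max 0 (max (max B0 B1) (max B2 B3)), le_max_left _ _,
      (le_max_left _ _).trans ((le_max_left _ _).trans (le_max_right _ _)),
      (le_max_right _ _).trans ((le_max_left _ _).trans (le_max_right _ _)),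
      (le_max_left _ _).trans ((le_max_right _ _).trans (le_max_right _ _)),
      (le_max_right _ _).trans ((le_max_right _ _).trans (le_max_right _ _))⟩
  obtain ⟨V, hV, hVdef⟩ : ∃ V : ℝ, 0 ≤ V ∧ σ.real univ = V := ⟨_, measureReal_nonneg, rfl⟩
  generalize hH0 : ∫ x, X1 0 x * Y1 0 x ∂σ + ∫ x, SX 0 x * Y 0 x ∂σ - lam * ∫ x, X 0 x * Y 0 x ∂σ
      + a / (p + 1) * ∫ x, Y 0 x ^ (p + 1) ∂σ + b / (q + 1) * ∫ x, X 0 x ^ (q + 1) ∂σ = H0
  obtain ⟨e, he0, heQ⟩ : ∃ e : ℝ, 0 < e ∧ e * (4 * T * B * V) ≤ η / 6 :=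
    ⟨η / (6 * (4 * T * B * V + 1)), by (clear * - hη hT hB hV; positivity), small_choice hη (by (clear * - hT hB hV; positivity)) le_rfl⟩
  obtain ⟨ε1, hε1, hu1⟩ := uX e he0
  obtain ⟨ε2, hε2, hu2⟩ := uY e he0
  obtain ⟨ε, hε0, hε1', hε2'⟩ : ∃ ε : ℝ, 0 < ε ∧ ε < ε1 ∧ ε < ε2 := by
    refine ⟨min ε1 ε2 / 2, by (clear * - hε1 hε2; positivity), ?_, ?_⟩
    · have := min_le_left ε1 ε2
      have : 0 < min ε1 ε2 := lt_min hε1 hε2
      (clear lam a b p q T hT hlam ha hb hp hq hpq R hR hsym X X1 X2 SX Y Y1 Y2 SY cX cX1 cX2 cSX cY cY1 cY2 cSY dX dX1 dY dY1 posX posY uX uY eX eY G hG0 hGi hG η hη B0 hB0 B1 hB1 B2 hB2 B3 hB3 B hB hB0' hB1' hB2' hB3' V hV hVdef H0 hH0 e he0 heQ hu1 hε2 hu2 this; linarith)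
    · have := min_le_right ε1 ε2
      have : 0 < min ε1 ε2 := lt_min hε1 hε2
      (clear lam a b p q T hT hlam ha hb hp hq hpq R hR hsym X X1 X2 SX Y Y1 Y2 SY cX cX1 cX2 cSX cY cY1 cY2 cSY dX dX1 dY dY1 posX posY uX uY eX eY G hG0 hGi hG η hη B0 hB0 B1 hB1 B2 hB2 B3 hB3 B hB hB0' hB1' hB2' hB3' V hV hVdef H0 hH0 e he0 heQ hε1 hu1 hu2 this; linarith)
  obtain ⟨κ, hκ, hκe⟩ : ∃ κ : ℝ, 0 ≤ κ ∧ (ε ^ 2)⁻¹ = κ := ⟨_, by (clear * - hε0; positivity), rfl⟩
  obtain ⟨Lam, hLam0, hLam⟩ : ∃ Lam : ℝ, 0 ≤ Lam ∧ κ * (Fintype.card K * B) + lam * B = Lam :=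
    ⟨_, by (clear * - hκ hB hlam; positivity), rfl⟩
  obtain ⟨C3, hC30, hC3⟩ : ∃ C3 : ℝ, 0 ≤ C3 ∧
      (B + 1) * Lam + a / 2 * ((B + 1) * B ^ p) + b / 2 * ((B + 1) * B ^ q) = C3 :=
    ⟨_, by (clear * - hB hLam0 ha hb; positivity), rfl⟩
  have hmab : 0 ≤ max a b := ha.trans (le_max_left _ _)
  obtain ⟨ω, hω0, hω1, hωQ⟩ : ∃ ω : ℝ, 0 < ω ∧ ω ≤ 1 ∧ ω * ((7 * T + 2) * B * V) ≤ η / 6 :=
    ⟨min 1 (η / (6 * ((7 * T + 2) * B * V + 1))), lt_min one_pos (by (clear * - hη hT hB hV; positivity)),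
      min_le_left _ _, small_choice hη (by (clear * - hT hB hV; positivity)) (min_le_right _ _)⟩
  obtain ⟨rho, hrho0, hrhoQ⟩ : ∃ rho : ℝ, 0 < rho ∧ rho * (T * max a b * B * V) ≤ η / 6 :=
    ⟨η / (6 * (T * max a b * B * V + 1)), by (clear * - hη hT ha hB hV; positivity), small_choice hη (by (clear * - hT ha hB hV; positivity)) le_rfl⟩
  obtain ⟨δ1, hδ1, m1⟩ := unif_mod cX1 T hω0
  obtain ⟨δ2, hδ2, m2⟩ := unif_mod cX2 T hω0
  obtain ⟨δ3, hδ3, m3⟩ := unif_mod cY1 T hω0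
  obtain ⟨δ4, hδ4, m4⟩ := unif_mod cY2 T hω0
  obtain ⟨δ5, hδ5, m5⟩ := rpow_mod (B := B) hp hrho0
  obtain ⟨δ6, hδ6, m6⟩ := rpow_mod (B := B) hq hrho0
  obtain ⟨δ, hδ, e1, e2, e3, e4, e5, e6, e7⟩ : ∃ δ : ℝ, 0 < δ ∧ δ ≤ δ1 ∧ δ ≤ δ2 ∧ δ ≤ δ3 ∧
      δ ≤ δ4 ∧ δ ≤ δ5 / (B + 1) ∧ δ ≤ δ6 / (B + 1) ∧
      δ ≤ η / (6 * ((|H0| / 2 + T / 2 * C3 * V + Lam * B * V) + 1)) :=
    ⟨min (min (min δ1 δ2) (min δ3 δ4)) (min (min (δ5 / (B + 1)) (δ6 / (B + 1)))
        (η / (6 * ((|H0| / 2 + T / 2 * C3 * V + Lam * B * V) + 1)))), by (clear * - hδ1 hδ2 hδ3 hδ4 hδ5 hB hδ6 hη hT hC30 hV hLam0; positivity),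
      (min_le_left _ _).trans ((min_le_left _ _).trans (min_le_left _ _)),
      (min_le_left _ _).trans ((min_le_left _ _).trans (min_le_right _ _)),
      (min_le_left _ _).trans ((min_le_right _ _).trans (min_le_left _ _)),
      (min_le_left _ _).trans ((min_le_right _ _).trans (min_le_right _ _)),
      (min_le_right _ _).trans ((min_le_left _ _).trans (min_le_left _ _)),
      (min_le_right _ _).trans ((min_le_left _ _).trans (min_le_right _ _)),
      (min_le_right _ _).trans (min_le_right _ _)⟩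
  obtain ⟨h, N, hh, hN1, hN, hhδ⟩ := exists_step hT hδ
  have k5 : h * (B + 1) ≤ δ5 := by
    have : h ≤ δ5 / (B + 1) := hhδ.trans e5
    rwa [le_div_iff₀ (by (clear * - hB; positivity))] at this
  have k6 : h * (B + 1) ≤ δ6 := by
    have : h ≤ δ6 / (B + 1) := hhδ.trans e6
    rwa [le_div_iff₀ (by (clear * - hB; positivity))] at this
  have k7 : h * (|H0| / 2 + T / 2 * C3 * V + Lam * B * V) ≤ η / 6 :=
    small_choice hη (by (clear * - hT hC30 hV hLam0 hB; positivity)) (hhδ.trans e7)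
  have WX : Win X X1 X2 SX T B ω e h κ (R ε) :=
    { c0 := cX, c1 := cX1, cS := cSX, pos := posX, d0 := dX, d1 := dX1
      b0 := fun s hs θ => (hB0 s hs θ).trans hB0'
      b1 := fun s hs θ => (hB2 s hs θ).trans hB2'
      m1 := fun s s' hs hs' hss => m1 s s' hs hs' (hss.trans (hhδ.trans e1))
      m2 := fun s s' hs hs' hss => m2 s s' hs hs' (hss.trans (hhδ.trans e2))
      u := fun s hs θ => by rw [← hκe]; exact hu1 ε hε0 hε1' s hs θ }
  have WY : Win Y Y1 Y2 SY T B ω e h κ (R ε) :=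
    { c0 := cY, c1 := cY1, cS := cSY, pos := posY, d0 := dY, d1 := dY1
      b0 := fun s hs θ => (hB1 s hs θ).trans hB1'
      b1 := fun s hs θ => (hB3 s hs θ).trans hB3'
      m1 := fun s s' hs hs' hss => m3 s s' hs hs' (hss.trans (hhδ.trans e3))
      m2 := fun s s' hs hs' hss => m4 s s' hs hs' (hss.trans (hhδ.trans e4))
      u := fun s hs θ => by rw [← hκe]; exact hu2 ε hε0 hε2' s hs θ }
  have key := fixed_step σ hT hlam ha hb hp hq hpq hκ hB he0.le hω0.le hω1 hrho0.le hh (hR ε)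
    (hsym _ ε) WX WY eX eY hN1 hN (fun y y' hy hy' hyy => m5 y y' hy hy' (hyy.trans k5))
    (fun y y' hy hy' hyy => m6 y y' hy hy' (hyy.trans k6)) hG0 hGi hG
  rw [hH0, hVdef, hLam] at key
  have herr : 2 * ω * B + e * B + h * (B + 1) * Lam + a / 2 * (h * (B + 1) * B ^ p)
      + b / 2 * (h * (B + 1) * B ^ q) = 2 * ω * B + e * B + h * C3 := by
    rw [← hC3]; ring
  rw [herr] at key
  have hfin := lim_arith hT.le hh.le hω0.le he0.le hB hV hC30 key
  linarith only [hη, heQ, hωQ, hrhoQ, k7, hfin]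

end Vale.Agent.P100.RM
end
end

section

section

/-!
# P100 / RM / Lim : the limit inequality for solutions (helper602)
-/

open MeasureTheory Set Filter Topology Real

namespace Vale.Agent.P100.RM

variable {n : ℕ}

theorem sol_symm {p q A B : ℝ} {u v : E n → ℝ} (hs : IsPositiveEntireSolution n p q A B u v) :
    IsPositiveEntireSolution n q p B A v u :=
  { contDiffOn_u := hs.contDiffOn_v
    contDiffOn_v := hs.contDiffOn_u
    continuous_u := hs.continuous_v
    continuous_v := hs.continuous_u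
    pos_u := hs.pos_v
    pos_v := hs.pos_u
    eq_u := hs.eq_v
    eq_v := hs.eq_u }

theorem cy0_zero (g : ℝ) (u : E n → ℝ) (θ : Sph n) : cy0 g u 0 θ = u (θ : E n) := by
  simp [cy0]

theorem cy0_pos {u : E n → ℝ} (hu : ∀ x, 0 < u x) (g s : ℝ) (θ : Sph n) : 0 < cy0 g u s θ :=
  mul_pos (exp_pos _) (hu _)

/-- The inequality with the weight frozen. -/
theorem cy_sub {p q A B T : ℝ} {u v : E n → ℝ} (hs : IsPositiveEntireSolution n p q A B u v)
    (s : ℝ) (hsT : |s| ≤ T) (θ : Sph n) :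
    cy2 (((n : ℝ) - 2) / 2) u s θ + cyS (((n : ℝ) - 2) / 2) u s θ
      - ((((n : ℝ) - 2) / 2) ^ 2) * cy0 (((n : ℝ) - 2) / 2) u s θ
      + exp (-(|((n : ℝ) - 2) / 2 + 2 + A - p * (((n : ℝ) - 2) / 2)| * T)) *
        (cy0 (((n : ℝ) - 2) / 2) v s θ) ^ p ≤ 0 := by
  have h := cy_eq hs (((n : ℝ) - 2) / 2) (((n : ℝ) - 2) / 2) s θ
  set k : ℝ := ((n : ℝ) - 2) / 2 + 2 + A - p * (((n : ℝ) - 2) / 2) with hk
  have h1 : exp (-(|k| * T)) ≤ exp (k * s) := by
    apply exp_le_exp.2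
    have h2 : |k * s| ≤ |k| * T := by
      rw [abs_mul]; exact mul_le_mul_of_nonneg_left hsT (abs_nonneg _)
    have := (abs_le.1 h2).1
    linarith only [this]
  have h3 : 0 ≤ (cy0 (((n : ℝ) - 2) / 2) v s θ) ^ p :=
    (rpow_pos_of_pos (cy0_pos hs.pos_v _ _ _) _).le
  have h4 := mul_le_mul_of_nonneg_right h1 h3
  have h5 : (n : ℝ) - 2 - 2 * (((n : ℝ) - 2) / 2) = 0 := by ring
  have h6 : ((n : ℝ) - 2) / 2 * ((n : ℝ) - 2 - ((n : ℝ) - 2) / 2) = (((n : ℝ) - 2) / 2) ^ 2 := by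
    ring
  rw [h5, h6, zero_mul, add_zero] at h
  linarith only [h, h4]

theorem int5 {S : Type*} [MeasurableSpace S] {μ : Measure S} {f1 f2 f3 f4 f5 : S → ℝ} (c a b : ℝ)
    (h1 : Integrable f1 μ) (h2 : Integrable f2 μ) (h3 : Integrable f3 μ) (h4 : Integrable f4 μ)
    (h5 : Integrable f5 μ) :
    ∫ x, (f1 x + f2 x - c * f3 x + a * f4 x + b * f5 x) ∂μ =
      ∫ x, f1 x ∂μ + ∫ x, f2 x ∂μ - c * ∫ x, f3 x ∂μ + a * ∫ x, f4 x ∂μ + b * ∫ x, f5 x ∂μ := by
  have g1 : Integrable (fun x => f1 x + f2 x) μ := h1.add h2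
  have g2 : Integrable (fun x => c * f3 x) μ := h3.const_mul c
  have g3 : Integrable (fun x => f1 x + f2 x - c * f3 x) μ := g1.sub g2
  have g4 : Integrable (fun x => a * f4 x) μ := h4.const_mul a
  have g5 : Integrable (fun x => f1 x + f2 x - c * f3 x + a * f4 x) μ := g3.add g4
  have g6 : Integrable (fun x => b * f5 x) μ := h5.const_mul b
  rw [integral_add g5 g6, integral_add g3 g4, integral_sub g1 g2, integral_add h1 h2,
    integral_const_mul, integral_const_mul, integral_const_mul]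

theorem lim_ineq (hn : 3 ≤ n) {p q A B : ℝ} (hp : 0 < p) (hq : 0 < q) (hpq : 1 ≤ p * q) :
    ∃ C T0 : ℝ, 0 < C ∧ 0 < T0 ∧
    ∀ u v : E n → ℝ, IsPositiveEntireSolution n p q A B u v → ∀ T : ℝ, 0 < T → T ≤ T0 →
    ∀ G : Sph n → ℝ, (∀ θ, 0 ≤ G θ) → Integrable (fun θ => G θ * v (θ : E n)) (sg n) →
      (∀ᵐ θ ∂(sg n), ∀ s, |s| ≤ T → cy0 (((n : ℝ) - 2) / 2) u s θ ≤ cy0 (((n : ℝ) - 2) / 2) u 0 θ →
        |cy1 (((n : ℝ) - 2) / 2) u s θ| ≤ G θ) →
      Ham n p q 0 u v ≤ C / T * ∫ θ, G θ * v (θ : E n) ∂(sg n) +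
        C / T ^ 2 * ∫ θ : Sph n, u (θ : E n) * v (θ : E n) ∂(sg n) + C * T * En n p q u v := by
  set c : ℝ := ((n : ℝ) - 2) / 2 with hc
  set k1 : ℝ := c + 2 + A - p * c with hk1
  set k2 : ℝ := c + 2 + B - q * c with hk2
  have hp1 : 0 < p + 1 := by linarith only [hp]
  have hq1 : 0 < q + 1 := by linarith only [hq]
  refine ⟨4 + |k1| + |k2|, 1, by (clear * -; positivity), one_pos, ?_⟩
  intro u v hs T hT hT1 G hG0 hGv hG
  have hsig : 1 / (p + 1) + 1 / (q + 1) ≤ 1 := by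
    rw [div_add_div _ _ hp1.ne' hq1.ne', div_le_one (by positivity)]
    nlinarith only [hpq]
  have hu := hs.contDiffOn_u
  have hv := hs.contDiffOn_v
  -- `G` is integrable
  have cu : Continuous fun θ : Sph n => u (θ : E n) := hs.continuous_u.comp continuous_subtype_val
  have cv : Continuous fun θ : Sph n => v (θ : E n) := hs.continuous_v.comp continuous_subtype_val
  have hGi : Integrable G (sg n) := by
    have cinv : Continuous fun θ : Sph n => (v (θ : E n))⁻¹ := cv.inv₀ fun θ => (hs.pos_v _).ne'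
    obtain ⟨M, hM⟩ := (isCompact_univ (X := Sph n)).bddAbove_image cinv.abs.continuousOn
    have h1 := hGv.bdd_mul (c := M) cinv.aestronglyMeasurable
      (Eventually.of_forall fun θ => by
        rw [Real.norm_eq_abs]; exact hM ⟨θ, mem_univ _, rfl⟩)
    refine h1.congr (Eventually.of_forall fun θ => ?_)
    have := (hs.pos_v (θ : E n)).ne'
    field_simp
  have key := lim_abs (σ := sg n) (lam := c ^ 2) (a := exp (-(|k1| * T))) (b := exp (-(|k2| * T)))
    (p := p) (q := q) (T := T) hT (by (clear * -; positivity)) (exp_pos _).le (exp_pos _).le hp hq hsig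
    (R := rotS n) (fun ε k => continuous_rotS ε k) (fun c ε F G hF hG => Lsym c ε hF hG)
    (X := cy0 c u) (X1 := cy1 c u) (X2 := cy2 c u) (SX := cyS c u)
    (Y := cy0 c v) (Y1 := cy1 c v) (Y2 := cy2 c v) (SY := cyS c v)
    (continuous_cy0 hu c) (continuous_cy1 hu c) (continuous_cy2 hu c) (continuous_cyS hu c)
    (continuous_cy0 hv c) (continuous_cy1 hv c) (continuous_cy2 hv c) (continuous_cyS hv c)
    (fun s θ => hasDerivAt_cy0 hu c s θ) (fun s θ => hasDerivAt_cy1 hu c s θ)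
    (fun s θ => hasDerivAt_cy0 hv c s θ) (fun s θ => hasDerivAt_cy1 hv c s θ)
    (fun s θ => cy0_pos hs.pos_u c s θ) (fun s θ => cy0_pos hs.pos_v c s θ)
    (Lop_unif hu c T) (Lop_unif hv c T)
    (fun s θ hsT => cy_sub hs s hsT θ) (fun s θ hsT => cy_sub (sol_symm hs) s hsT θ)
    hG0 hGi hG
  simp only [cy0_zero] at key
  -- the Hamiltonian
  have i1 : Integrable (fun θ : Sph n => cy1 c u 0 θ * cy1 c v 0 θ) (sg n) :=
    int_cont _ (((continuous_cy1 hu c).comp (Continuous.prodMk_right _)).mul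
      ((continuous_cy1 hv c).comp (Continuous.prodMk_right _)))
  have i2 : Integrable (fun θ : Sph n => cyS c u 0 θ * v (θ : E n)) (sg n) :=
    int_cont _ (((continuous_cyS hu c).comp (Continuous.prodMk_right _)).mul cv)
  have i3 : Integrable (fun θ : Sph n => u (θ : E n) * v (θ : E n)) (sg n) :=
    int_cont _ (cu.mul cv)
  have i4 : Integrable (fun θ : Sph n => v (θ : E n) ^ (p + 1)) (sg n) :=
    int_cont _ (cv.rpow_const fun _ => Or.inr hp1.le)
  have i5 : Integrable (fun θ : Sph n => u (θ : E n) ^ (q + 1)) (sg n) :=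
    int_cont _ (cu.rpow_const fun _ => Or.inr hq1.le)
  have hHam : Ham n p q 0 u v = ∫ θ, cy1 c u 0 θ * cy1 c v 0 θ ∂(sg n)
      + ∫ θ : Sph n, cyS c u 0 θ * v (θ : E n) ∂(sg n)
      - c ^ 2 * ∫ θ : Sph n, u (θ : E n) * v (θ : E n) ∂(sg n)
      + 1 / (p + 1) * ∫ θ : Sph n, v (θ : E n) ^ (p + 1) ∂(sg n)
      + 1 / (q + 1) * ∫ θ : Sph n, u (θ : E n) ^ (q + 1) ∂(sg n) := by
    rw [← int5 (c ^ 2) (1 / (p + 1)) (1 / (q + 1)) i1 i2 i3 i4 i5]
    unfold Ham
    refine integral_congr_ae (Eventually.of_forall fun θ => ?_)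
    simp only [add_zero, sub_zero, cy0_zero, ← hc]
    ring
  have hEn : En n p q u v = ∫ θ : Sph n, v (θ : E n) ^ (p + 1) ∂(sg n)
      + ∫ θ : Sph n, u (θ : E n) ^ (q + 1) ∂(sg n) := by
    rw [En, integral_add i4 i5]
  have j4 : 0 ≤ ∫ θ : Sph n, v (θ : E n) ^ (p + 1) ∂(sg n) :=
    integral_nonneg fun θ => (rpow_pos_of_pos (hs.pos_v _) _).le
  have j5 : 0 ≤ ∫ θ : Sph n, u (θ : E n) ^ (q + 1) ∂(sg n) :=
    integral_nonneg fun θ => (rpow_pos_of_pos (hs.pos_u _) _).le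
  have j3 : 0 ≤ ∫ θ : Sph n, u (θ : E n) * v (θ : E n) ∂(sg n) :=
    integral_nonneg fun θ => mul_nonneg (hs.pos_u _).le (hs.pos_v _).le
  have j0 : 0 ≤ ∫ θ : Sph n, G θ * v (θ : E n) ∂(sg n) :=
    integral_nonneg fun θ => mul_nonneg (hG0 θ) (hs.pos_v _).le
  have hcomm : ∫ θ : Sph n, v (θ : E n) * u (θ : E n) ∂(sg n) =
      ∫ θ : Sph n, u (θ : E n) * v (θ : E n) ∂(sg n) := by
    simp_rw [mul_comm]
  rw [hcomm] at key
  rw [hHam, hEn]
  generalize ∫ θ, cy1 c u 0 θ * cy1 c v 0 θ ∂(sg n) = I1 at key ⊢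
  generalize ∫ θ : Sph n, cyS c u 0 θ * v (θ : E n) ∂(sg n) = I2 at key ⊢
  generalize ∫ θ : Sph n, u (θ : E n) * v (θ : E n) ∂(sg n) = I3 at key j3 ⊢
  generalize ∫ θ : Sph n, v (θ : E n) ^ (p + 1) ∂(sg n) = I4 at key j4 ⊢
  generalize ∫ θ : Sph n, u (θ : E n) ^ (q + 1) ∂(sg n) = I5 at key j5 ⊢
  generalize ∫ θ : Sph n, G θ * v (θ : E n) ∂(sg n) = I0 at key j0 ⊢
  have ex : ∀ k : ℝ, 1 - exp (-(|k| * T)) ≤ |k| * T := fun k => by
    have := add_one_le_exp (-(|k| * T)); linarith only [this]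
  have fr : ∀ {r k I : ℝ}, 0 < r → 0 ≤ I → 1 / (r + 1) * I ≤
      exp (-(|k| * T)) / (r + 1) * I + |k| * T * I := by
    intro r k I hr hI
    have h1 : (1 - exp (-(|k| * T))) / (r + 1) ≤ |k| * T := by
      rw [div_le_iff₀ (by linarith only [hr])]
      have h2 := ex k
      have h3 : 0 ≤ |k| * T := by (clear * - hT; positivity)
      nlinarith only [h2, hr, h3]
    have h4 := mul_le_mul_of_nonneg_right h1 hI
    have h5 : (1 - exp (-(|k| * T))) / (r + 1) * I =
      1 / (r + 1) * I - exp (-(|k| * T)) / (r + 1) * I := by ring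
    linarith only [h4, h5]
  have f4 := fr (k := k1) hp j4
  have f5 := fr (k := k2) hq j5
  have key2 : I1 + I2 - c ^ 2 * I3 + exp (-(|k1| * T)) / (p + 1) * I4
      + exp (-(|k2| * T)) / (q + 1) * I5 ≤ 4 / T * I0 + 2 / T ^ 2 * I3 := by
    have h2T : 0 < T / 2 := by positivity
    have h1 : T / 2 * (4 / T * I0 + 2 / T ^ 2 * I3) = 2 * I0 + 1 / T * I3 := by
      field_simp
      ring
    rw [← h1] at key
    exact le_of_mul_le_mul_left key h2T
  have hk1' := abs_nonneg k1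
  have hk2' := abs_nonneg k2
  have g0 : 4 / T * I0 ≤ (4 + |k1| + |k2|) / T * I0 := by gcongr; linarith only [hk1', hk2']
  have g3 : 2 / T ^ 2 * I3 ≤ (4 + |k1| + |k2|) / T ^ 2 * I3 := by gcongr; linarith only [hk1', hk2']
  have g4 : |k1| * T * I4 + |k2| * T * I5 ≤ (4 + |k1| + |k2|) * T * (I4 + I5) := by
    nlinarith only [hk1', hk2', mul_nonneg hT.le j4, mul_nonneg hT.le j5]
  linarith only [f4, f5, key2, g0, g3, g4]

end Vale.Agent.P100.RM
end
end

section

section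

/-!
# P100 / RM / Grow : the Pohozaev growth identity (helper252)
-/

open MeasureTheory Set Filter Topology Real Function

namespace Vale.Agent.P100.RM

noncomputable section

variable {n : ℕ}

lemma swap_pes {p q A B : ℝ} {u v : E n → ℝ} (h : IsPositiveEntireSolution n p q A B u v) :
    IsPositiveEntireSolution n q p B A v u :=
  ⟨h.contDiffOn_v, h.contDiffOn_u, h.continuous_v, h.continuous_u, h.pos_v, h.pos_u, h.eq_v, h.eq_u⟩

/-- The cylinder data of a solution, exponents `c + d` and `c - d`, `c = (n-2)/2`. -/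
def dat {p q A B : ℝ} {u v : E n → ℝ} (hs : IsPositiveEntireSolution n p q A B u v) (d : ℝ) :
    Dat (Sph n) p q d ((((n : ℝ) - 2) / 2) ^ 2 - d ^ 2)
      ((((n : ℝ) - 2) / 2 + d) + 2 + A - p * (((n : ℝ) - 2) / 2 - d))
      ((((n : ℝ) - 2) / 2 - d) + 2 + B - q * (((n : ℝ) - 2) / 2 + d)) where
  X := cy0 (((n : ℝ) - 2) / 2 + d) u
  X1 := cy1 (((n : ℝ) - 2) / 2 + d) u
  X2 := cy2 (((n : ℝ) - 2) / 2 + d) u
  SX := cyS (((n : ℝ) - 2) / 2 + d) u
  Y := cy0 (((n : ℝ) - 2) / 2 - d) v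
  Y1 := cy1 (((n : ℝ) - 2) / 2 - d) v
  Y2 := cy2 (((n : ℝ) - 2) / 2 - d) v
  SY := cyS (((n : ℝ) - 2) / 2 - d) v
  hX t θ := hasDerivAt_cy0 hs.contDiffOn_u _ t θ
  hX1 t θ := hasDerivAt_cy1 hs.contDiffOn_u _ t θ
  hY t θ := hasDerivAt_cy0 hs.contDiffOn_v _ t θ
  hY1 t θ := hasDerivAt_cy1 hs.contDiffOn_v _ t θ
  cX := continuous_cy0 hs.contDiffOn_u _
  cX1 := continuous_cy1 hs.contDiffOn_u _
  cX2 := continuous_cy2 hs.contDiffOn_u _
  cSX := continuous_cyS hs.contDiffOn_u _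
  cY := continuous_cy0 hs.contDiffOn_v _
  cY1 := continuous_cy1 hs.contDiffOn_v _
  cY2 := continuous_cy2 hs.contDiffOn_v _
  cSY := continuous_cyS hs.contDiffOn_v _
  pX t θ := mul_pos (exp_pos _) (hs.pos_u _)
  pY t θ := mul_pos (exp_pos _) (hs.pos_v _)
  eX t θ := by
    have := cy_eq hs (((n : ℝ) - 2) / 2 + d) (((n : ℝ) - 2) / 2 - d) t θ
    linear_combination this
  eY t θ := by
    have := cy_eq (swap_pes hs) (((n : ℝ) - 2) / 2 - d) (((n : ℝ) - 2) / 2 + d) t θ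
    linear_combination this

lemma scl_one_exp (α t : ℝ) (u : E n → ℝ) (θ : Sph n) :
    scl α t u (θ : E n) = exp (α * t) * u (exp t • (θ : E n)) := rfl

/-- The weight identity for the potential terms. -/
lemma pot_eq {p A α β δ c d t y : ℝ} (hy : 0 < y) (h1 : α + 2 + A = β * p)
    (hδ : δ = α + β - 2 * c) :
    exp (-δ * t) * ((exp (β * t) * y) ^ (p + 1)) =
      exp ((c + d + 2 + A - p * (c - d)) * t) * (exp ((c - d) * t) * y) ^ (p + 1) := by
  rw [mul_rpow (exp_pos _).le hy.le, mul_rpow (exp_pos _).le hy.le, ← exp_mul, ← exp_mul,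
    ← mul_assoc, ← mul_assoc, ← exp_add, ← exp_add]
  congr 2
  subst hδ
  linear_combination (-t) * h1

/-- The rescaled Hamiltonian is the Hamiltonian of the cylinder data. -/
lemma ham_eq {p q A B α β d : ℝ} (h1 : α + 2 + A = β * p) (h2 : β + 2 + B = α * q)
    {u v : E n → ℝ} (hs : IsPositiveEntireSolution n p q A B u v) (t : ℝ) :
    exp (-(α + β - ((n : ℝ) - 2)) * t) * Ham n p q d (scl α t u) (scl β t v) =
      (dat hs d).H (sg n) t := by
  unfold Ham Dat.H
  rw [← integral_const_mul]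
  congr 1
  ext θ
  obtain ⟨a0, a1, a2, aS⟩ := cy_scl hs.contDiffOn_u α (((n : ℝ) - 2) / 2 + d) t 0 θ
  obtain ⟨b0, b1, b2, bS⟩ := cy_scl hs.contDiffOn_v β (((n : ℝ) - 2) / 2 - d) t 0 θ
  rw [a0, a1, aS, b0, b1]
  rw [zero_add]
  have hc : exp (-(α + β - ((n : ℝ) - 2)) * t) * (exp ((α - (((n : ℝ) - 2) / 2 + d)) * t) *
      exp ((β - (((n : ℝ) - 2) / 2 - d)) * t)) = 1 := by
    rw [← exp_add, ← exp_add, exp_eq_one_iff]
    ring
  have p1 := pot_eq (p := p) (A := A) (d := d) (t := t) (hs.pos_v (exp t • (θ : E n))) h1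
    (δ := α + β - ((n : ℝ) - 2)) (c := ((n : ℝ) - 2) / 2) (by ring)
  have p2 := pot_eq (p := q) (A := B) (d := -d) (t := t) (hs.pos_u (exp t • (θ : E n))) h2
    (δ := α + β - ((n : ℝ) - 2)) (c := ((n : ℝ) - 2) / 2) (by ring)
  have p2' : exp (-(α + β - ((n : ℝ) - 2)) * t) *
      ((exp (α * t) * u (exp t • (θ : E n))) ^ (q + 1)) =
      exp (((((n : ℝ) - 2) / 2 - d) + 2 + B - q * (((n : ℝ) - 2) / 2 + d)) * t) *
        (exp ((((n : ℝ) - 2) / 2 + d) * t) * u (exp t • (θ : E n))) ^ (q + 1) := by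
    rw [p2]
    ring_nf
  have dP : (dat hs d).P t θ = exp (((((n : ℝ) - 2) / 2 + d) + 2 + A -
      p * (((n : ℝ) - 2) / 2 - d)) * t) *
      (exp ((((n : ℝ) - 2) / 2 - d) * t) * v (exp t • (θ : E n))) ^ (p + 1) / (p + 1) := rfl
  have dQ : (dat hs d).Q t θ = exp (((((n : ℝ) - 2) / 2 - d) + 2 + B -
      q * (((n : ℝ) - 2) / 2 + d)) * t) *
      (exp ((((n : ℝ) - 2) / 2 + d) * t) * u (exp t • (θ : E n))) ^ (q + 1) / (q + 1) := rfl
  have dd : (dat hs d).dens t θ = cy1 (((n : ℝ) - 2) / 2 + d) u t θ *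
      cy1 (((n : ℝ) - 2) / 2 - d) v t θ + cyS (((n : ℝ) - 2) / 2 + d) u t θ *
      cy0 (((n : ℝ) - 2) / 2 - d) v t θ - ((((n : ℝ) - 2) / 2) ^ 2 - d ^ 2) *
      (cy0 (((n : ℝ) - 2) / 2 + d) u t θ * cy0 (((n : ℝ) - 2) / 2 - d) v t θ) +
      (dat hs d).P t θ + (dat hs d).Q t θ := rfl
  rw [dd, dP, dQ, ← p1, ← p2', scl_one_exp, scl_one_exp]
  set e0 := exp (-(α + β - ((n : ℝ) - 2)) * t)
  set e1 := exp ((α - (((n : ℝ) - 2) / 2 + d)) * t)
  set e2 := exp ((β - (((n : ℝ) - 2) / 2 - d)) * t)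
  linear_combination (cy1 (((n : ℝ) - 2) / 2 + d) u t θ * cy1 (((n : ℝ) - 2) / 2 - d) v t θ +
    cyS (((n : ℝ) - 2) / 2 + d) u t θ * cy0 (((n : ℝ) - 2) / 2 - d) v t θ -
    ((((n : ℝ) - 2) / 2) ^ 2 - d ^ 2) *
    (cy0 (((n : ℝ) - 2) / 2 + d) u t θ * cy0 (((n : ℝ) - 2) / 2 - d) v t θ)) * hc

/-- A sequence of angles tending to zero. -/
def eps (k : ℕ) : ℝ := ((k : ℝ) + 1)⁻¹

lemma eps_pos (k : ℕ) : 0 < eps k := by unfold eps; positivity

lemma eps_tendsto : Tendsto eps atTop (𝓝 0) := by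
  unfold eps
  exact tendsto_inv_atTop_zero.comp (tendsto_atTop_add_const_right _ _ tendsto_natCast_atTop_atTop)

/-- The growth identity for the cylinder data. -/
lemma dat_growth {p q A B d : ℝ} (hp : 0 < p) (hq : 0 < q) {u v : E n → ℝ}
    (hs : IsPositiveEntireSolution n p q A B u v) {a b : ℝ} (hab : a ≤ b) :
    (dat hs d).H (sg n) b - (dat hs d).H (sg n) a =
      ∫ s in a..b, (∫ θ, (dat hs d).G s θ ∂(sg n)) := by
  have hunif : ∀ {w : E n → ℝ}, ContDiffOn ℝ 2 w {0}ᶜ → ∀ g : ℝ, ∀ L : ℝ, ∀ e > 0,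
      ∀ᶠ k in atTop, ∀ s, |s| ≤ L → ∀ θ,
      |Lop ((eps k ^ 2)⁻¹) (rotS n (eps k)) (cy0 g w s) θ - cyS g w s θ| ≤ e := by
    intro w hw g L e he
    obtain ⟨ε0, h0, h1⟩ := Lop_unif hw g L e he
    filter_upwards [eps_tendsto.eventually_lt_const h0] with k hk
    exact h1 (eps k) (eps_pos k) hk
  exact (dat hs d).growth hp hq (fun k => (eps k ^ 2)⁻¹) (fun k => rotS n (eps k))
    (fun k i => continuous_rotS _ _) (fun k F G hF hG => Lsym _ _ hF hG)
    (fun L e he => hunif hs.contDiffOn_u _ L e he) (fun L e he => hunif hs.contDiffOn_v _ L e he)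
    hab

theorem grow (_hn : 3 ≤ n) {p q A B α β d : ℝ} (hp : 0 < p) (hq : 0 < q) (_hA : -2 < A)
    (_hB : -2 < B) (h1 : α + 2 + A = β * p) (h2 : β + 2 + B = α * q)
    (_hd : |d| < ((n : ℝ) - 2) / 2)
    {u v : E n → ℝ} (hs : IsPositiveEntireSolution n p q A B u v) {t1 t2 : ℝ} (ht : t1 ≤ t2) :
    exp (-(α + β - ((n : ℝ) - 2)) * t2) * Ham n p q d (scl α t2 u) (scl β t2 v)
      - exp (-(α + β - ((n : ℝ) - 2)) * t1) * Ham n p q d (scl α t1 u) (scl β t1 v)
      = ∫ s in t1..t2, exp (-(α + β - ((n : ℝ) - 2)) * s) *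
        ∫ θ : Sph n, ((p * (β - ((n : ℝ) - 2) / 2 + d) - (α - ((n : ℝ) - 2) / 2 - d)) / (p + 1) *
            (scl β s v (θ : E n)) ^ (p + 1)
          + (q * (α - ((n : ℝ) - 2) / 2 - d) - (β - ((n : ℝ) - 2) / 2 + d)) / (q + 1) *
            (scl α s u (θ : E n)) ^ (q + 1)) ∂(sg n) := by
  rw [ham_eq h1 h2 hs, ham_eq h1 h2 hs, dat_growth hp hq hs ht]
  congr 1
  ext s
  rw [← integral_const_mul]
  congr 1
  ext θ
  have p1 := pot_eq (p := p) (A := A) (d := d) (t := s) (hs.pos_v (exp s • (θ : E n))) h1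
    (δ := α + β - ((n : ℝ) - 2)) (c := ((n : ℝ) - 2) / 2) (by ring)
  have p2 := pot_eq (p := q) (A := B) (d := -d) (t := s) (hs.pos_u (exp s • (θ : E n))) h2
    (δ := α + β - ((n : ℝ) - 2)) (c := ((n : ℝ) - 2) / 2) (by ring)
  have p2' : exp (-(α + β - ((n : ℝ) - 2)) * s) *
      ((exp (α * s) * u (exp s • (θ : E n))) ^ (q + 1)) =
      exp (((((n : ℝ) - 2) / 2 - d) + 2 + B - q * (((n : ℝ) - 2) / 2 + d)) * s) *
        (exp ((((n : ℝ) - 2) / 2 + d) * s) * u (exp s • (θ : E n))) ^ (q + 1) := by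
    rw [p2]
    ring_nf
  have dG : (dat hs d).G s θ = ((((n : ℝ) - 2) / 2 + d) + 2 + A - p * (((n : ℝ) - 2) / 2 - d)) *
      (exp (((((n : ℝ) - 2) / 2 + d) + 2 + A - p * (((n : ℝ) - 2) / 2 - d)) * s) *
      (exp ((((n : ℝ) - 2) / 2 - d) * s) * v (exp s • (θ : E n))) ^ (p + 1) / (p + 1)) +
      ((((n : ℝ) - 2) / 2 - d) + 2 + B - q * (((n : ℝ) - 2) / 2 + d)) *
      (exp (((((n : ℝ) - 2) / 2 - d) + 2 + B - q * (((n : ℝ) - 2) / 2 + d)) * s) *
      (exp ((((n : ℝ) - 2) / 2 + d) * s) * u (exp s • (θ : E n))) ^ (q + 1) / (q + 1)) := rfl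
  rw [dG, ← p1, ← p2', scl_one_exp, scl_one_exp]
  have w1 : (((n : ℝ) - 2) / 2 + d) + 2 + A - p * (((n : ℝ) - 2) / 2 - d) =
      p * (β - ((n : ℝ) - 2) / 2 + d) - (α - ((n : ℝ) - 2) / 2 - d) := by
    linear_combination h1
  have w2 : (((n : ℝ) - 2) / 2 - d) + 2 + B - q * (((n : ℝ) - 2) / 2 + d) =
      q * (α - ((n : ℝ) - 2) / 2 - d) - (β - ((n : ℝ) - 2) / 2 + d) := by
    linear_combination h2
  rw [w1, w2]
  ring

end

end Vale.Agent.P100.RM
end
end

section

section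

/-! P100-RM: bound of the jump form of the rotations of the sphere. (helper488) -/

open MeasureTheory Set Filter Topology Real

namespace Vale.Agent.P100.RM

noncomputable section

variable {n : ℕ}

/-- Lipschitz bound of the jump form: used for `H(-∞) = 0`. -/
theorem Lop_form_bound {u v : E n → ℝ} (hu : ContDiffOn ℝ 2 u {0}ᶜ) (hv : ContDiffOn ℝ 2 v {0}ᶜ)
    (g h s : ℝ) {M1 M2 : ℝ} (h1 : ∀ x : E n, ‖x‖ = exp s → ‖fderiv ℝ u x‖ * exp s ≤ M1)
    (h2 : ∀ x : E n, ‖x‖ = exp s → ‖fderiv ℝ v x‖ * exp s ≤ M2) {ε : ℝ} (hε : 0 < ε) :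
    |∫ θ, Lop ((ε ^ 2)⁻¹) (act (n := n) ε) (cy0 g u s) θ * cy0 h v s θ ∂(sg n)| ≤
      (n : ℝ) ^ 2 * exp ((g + h) * s) * (M1 * M2) * (sg n).real univ := by
  have hK : ((Fintype.card (Kp n) : ℕ) : ℝ) ≤ (n : ℝ) ^ 2 := by
    have h0 : Fintype.card (Kp n) ≤ Fintype.card (Fin n × Fin n) := Fintype.card_subtype_le _
    have h3 : Fintype.card (Fin n × Fin n) = n * n := by simp only [Fintype.card_prod, Fintype.card_fin]
    rw [h3] at h0
    have : ((Fintype.card (Kp n) : ℕ) : ℝ) ≤ ((n * n : ℕ) : ℝ) := by exact_mod_cast h0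
    rw [sq]; push_cast at this; exact this
  refine form_bound_rot (n := n) hK (R := fun t => act t) (inv := swapK) ?_
    (fun t k θ => act_swap t k θ) (fun t k => mp_act t k) (fun k θ => act_zero k θ)
    (fun k θ t => hasDerivAt_act k θ t) (fun k θ t => norm_gen_act_le k θ t) hu hv g h s h1 h2 hε
  intro k
  exact swapK.symm_apply_apply k

end

end Vale.Agent.P100.RM
end
end

section

section

/-! The Hamiltonian tends to `0` at `-∞` (helper33). -/

open MeasureTheory Set Filter Topology Real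

namespace Vale.Agent.P100.RM

noncomputable section

variable {n : ℕ}

namespace GrowL

lemma integrable_cont {f : Sph n → ℝ} (hf : Continuous f) : Integrable f (sg n) :=
  hf.integrable_of_hasCompactSupport (HasCompactSupport.of_compactSpace f)

lemma bd_cy {u : E n → ℝ} {C g t : ℝ} (hg : 0 ≤ g)
    (hb : ∀ x : E n, x ≠ 0 → ‖x‖ ≤ 1 → |u x| ≤ C ∧ |fderiv ℝ u x x| ≤ C) (ht : t ≤ 0)
    (θ : Sph n) : |cy0 g u t θ| ≤ exp (g * t) * C ∧ |cy1 g u t θ| ≤ exp (g * t) * ((g + 1) * C) := by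
  have hx := expsmul_ne_zero t θ
  have hx1 : ‖exp t • (θ : E n)‖ ≤ 1 := by
    rw [norm_expsmul]
    exact Real.exp_le_one_iff.2 ht
  obtain ⟨h1, h2⟩ := hb _ hx hx1
  have he := (exp_pos (g * t)).le
  constructor
  · unfold cy0
    rw [abs_mul, abs_of_nonneg he]
    exact mul_le_mul_of_nonneg_left h1 he
  · unfold cy1
    rw [abs_mul, abs_of_nonneg he]
    apply mul_le_mul_of_nonneg_left _ he
    refine (abs_add_le _ _).trans ?_
    rw [abs_mul, abs_of_nonneg hg, add_mul, one_mul]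
    exact add_le_add (mul_le_mul_of_nonneg_left h1 hg) h2

lemma form_bound {u v : E n → ℝ} (hu : ContDiffOn ℝ 2 u {0}ᶜ) (hv : ContDiffOn ℝ 2 v {0}ᶜ)
    (g h t : ℝ) {M1 M2 M0 : ℝ} (h1 : ∀ x : E n, ‖x‖ = exp t → ‖fderiv ℝ u x‖ * exp t ≤ M1)
    (h2 : ∀ x : E n, ‖x‖ = exp t → ‖fderiv ℝ v x‖ * exp t ≤ M2)
    (h0 : ∀ θ, |cy0 h v t θ| ≤ M0) :
    |∫ θ, cyS g u t θ * cy0 h v t θ ∂(sg n)| ≤
      (n : ℝ) ^ 2 * exp ((g + h) * t) * (M1 * M2) * (sg n).real univ := by
  have hct : Continuous fun θ : Sph n => ((t, θ) : ℝ × Sph n) := by fun_prop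
  have c0 : Continuous fun θ => cy0 g u t θ := (continuous_cy0 hu g).comp hct
  have c0v : Continuous fun θ => cy0 h v t θ := (continuous_cy0 hv h).comp hct
  have cS : Continuous fun θ => cyS g u t θ := (continuous_cyS hu g).comp hct
  have hS : 0 ≤ (sg n).real univ := measureReal_nonneg
  rcases isEmpty_or_nonempty (Sph n) with hE | hE
  · have : sg n = 0 := Measure.eq_zero_of_isEmpty _
    simp only [this, integral_zero_measure, abs_zero, measureReal_zero, Pi.zero_apply, mul_zero, Std.le_refl]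
  have hM0 : 0 ≤ M0 := (abs_nonneg _).trans (h0 hE.some)
  apply le_of_forall_pos_le_add
  intro e he
  obtain ⟨ε0, hε0, hL⟩ := Lop_unif hu g |t| (e / (M0 * (sg n).real univ + 1)) (by (clear * - he hM0; positivity))
  obtain ⟨ε, hε⟩ : ∃ ε, ε = ε0 / 2 := ⟨_, rfl⟩
  have hεp : 0 < ε := by rw [hε]; positivity
  have hL' := hL ε hεp (by rw [hε]; linarith only [hε0]) t le_rfl
  have cL : Continuous fun θ => Lop ((ε ^ 2)⁻¹) (rotS n ε) (cy0 g u t) θ := by
    unfold Lop
    apply continuous_const.mul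
    apply continuous_finsetSum
    intro k _
    exact (c0.comp (continuous_rotS ε k)).sub c0
  have hF := Lop_form_bound hu hv g h t h1 h2 hεp
  rw [← rotS_eq] at hF
  have hdiff : |∫ θ, (cyS g u t θ - Lop ((ε ^ 2)⁻¹) (rotS n ε) (cy0 g u t) θ) *
      cy0 h v t θ ∂(sg n)| ≤ e := by
    have h3 : ‖∫ θ, (cyS g u t θ - Lop ((ε ^ 2)⁻¹) (rotS n ε) (cy0 g u t) θ) *
        cy0 h v t θ ∂(sg n)‖ ≤ (e / (M0 * (sg n).real univ + 1) * M0) * (sg n).real univ := by
      apply norm_integral_le_of_norm_le_const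
      refine Filter.Eventually.of_forall fun θ => ?_
      rw [Real.norm_eq_abs, abs_mul]
      refine mul_le_mul ?_ (h0 θ) (abs_nonneg _) (by (clear * - he hM0; positivity))
      rw [abs_sub_comm]
      exact hL' θ
    refine h3.trans ?_
    have h4 : 0 < M0 * (sg n).real univ + 1 := by (clear * - hM0; positivity)
    rw [div_mul_eq_mul_div, div_mul_eq_mul_div, div_le_iff₀ h4]
    nlinarith only [he]
  have hsplit : ∫ θ, cyS g u t θ * cy0 h v t θ ∂(sg n) =
      (∫ θ, Lop ((ε ^ 2)⁻¹) (rotS n ε) (cy0 g u t) θ * cy0 h v t θ ∂(sg n)) +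
      ∫ θ, (cyS g u t θ - Lop ((ε ^ 2)⁻¹) (rotS n ε) (cy0 g u t) θ) * cy0 h v t θ ∂(sg n) := by
    have i1 : Integrable (fun θ => Lop ((ε ^ 2)⁻¹) (rotS n ε) (cy0 g u t) θ * cy0 h v t θ)
        (sg n) := integrable_cont (cL.mul c0v)
    have i2 : Integrable (fun θ => (cyS g u t θ - Lop ((ε ^ 2)⁻¹) (rotS n ε) (cy0 g u t) θ) *
        cy0 h v t θ) (sg n) := integrable_cont ((cS.sub cL).mul c0v)
    rw [← integral_add i1 i2]
    congr 1
    ext θ
    ring
  rw [hsplit]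
  exact (abs_add_le _ _).trans (add_le_add hF hdiff)

end GrowL

open GrowL

theorem grow_lim (hn : 3 ≤ n) {p q A B α β d : ℝ} (hp : 0 < p) (hq : 0 < q) (hA : -2 < A)
    (hB : -2 < B) (h1 : α + 2 + A = β * p) (h2 : β + 2 + B = α * q)
    (hd : |d| < ((n : ℝ) - 2) / 2)
    (hω1 : 0 < p * (β - ((n : ℝ) - 2) / 2 + d) - (α - ((n : ℝ) - 2) / 2 - d))
    (hω2 : 0 < q * (α - ((n : ℝ) - 2) / 2 - d) - (β - ((n : ℝ) - 2) / 2 + d))
    {u v : E n → ℝ} (hs : IsPositiveEntireSolution n p q A B u v) :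
    Tendsto (fun t => exp (-(α + β - ((n : ℝ) - 2)) * t) *
      Ham n p q d (scl α t u) (scl β t v)) atBot (𝓝 0) := by
  obtain ⟨g, hg⟩ : ∃ g, g = ((n : ℝ) - 2) / 2 + d := ⟨_, rfl⟩
  obtain ⟨h, hh⟩ : ∃ h, h = ((n : ℝ) - 2) / 2 - d := ⟨_, rfl⟩
  have hg0 : 0 < g := by rw [hg]; linarith only [hd, neg_abs_le d]
  have hh0 : 0 < h := by rw [hh]; linarith only [hd, le_abs_self d]
  obtain ⟨Cu, hCu, hbu⟩ := near_bound hn hA hp hs
  obtain ⟨Cv, hCv, hbv⟩ := near_bound hn hB hq (swap_sol hs)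
  obtain ⟨Gu, hGu, hgu⟩ := grad_near hn hA hp hs
  obtain ⟨Gv, hGv, hgv⟩ := grad_near hn hB hq (swap_sol hs)
  obtain ⟨S, hSe⟩ : ∃ S, S = (sg n).real univ := ⟨_, rfl⟩
  have hS : 0 ≤ S := hSe ▸ measureReal_nonneg
  obtain ⟨l, hl⟩ : ∃ l, l = |(((n : ℝ) - 2) / 2) ^ 2 - d ^ 2| := ⟨_, rfl⟩
  have hl0 : 0 ≤ l := hl ▸ abs_nonneg _
  obtain ⟨e1, he1⟩ : ∃ e1, e1 = -(α + β - ((n : ℝ) - 2)) + β * (p + 1) := ⟨_, rfl⟩
  obtain ⟨e2, he2⟩ : ∃ e2, e2 = -(α + β - ((n : ℝ) - 2)) + α * (q + 1) := ⟨_, rfl⟩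
  have he1p : 0 < e1 := by
    have : e1 = (p * (β - ((n : ℝ) - 2) / 2 + d) - (α - ((n : ℝ) - 2) / 2 - d)) + h * (p + 1) := by
      rw [he1, hh]; ring
    rw [this]; (clear * - hω1 hh0 hp; positivity)
  have he2p : 0 < e2 := by
    have : e2 = (q * (α - ((n : ℝ) - 2) / 2 - d) - (β - ((n : ℝ) - 2) / 2 + d)) + g * (q + 1) := by
      rw [he2, hg]; ring
    rw [this]; (clear * - hω2 hg0 hq; positivity)
  obtain ⟨K1, hK1⟩ : ∃ K1, K1 = (n : ℝ) ^ 2 * (Gu * Gv) * S +
    (((g + 1) * Cu) * ((h + 1) * Cv) + l * (Cu * Cv)) * S := ⟨_, rfl⟩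
  obtain ⟨K2, hK2⟩ : ∃ K2, K2 = Cv ^ (p + 1) / (p + 1) * S := ⟨_, rfl⟩
  obtain ⟨K3, hK3⟩ : ∃ K3, K3 = Cu ^ (q + 1) / (q + 1) * S := ⟨_, rfl⟩
  have key : ∀ t ≤ (0 : ℝ), |exp (-(α + β - ((n : ℝ) - 2)) * t) *
      Ham n p q d (scl α t u) (scl β t v)| ≤
      K1 * exp ((g + h) * t) + K2 * exp (e1 * t) + K3 * exp (e2 * t) := by
    intro t ht
    have hct : Continuous fun θ : Sph n => ((t, θ) : ℝ × Sph n) := by fun_prop
    have hu := hs.contDiffOn_u
    have hv := hs.contDiffOn_v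
    have c0u : Continuous fun θ => cy0 g u t θ := (continuous_cy0 hu g).comp hct
    have c0v : Continuous fun θ => cy0 h v t θ := (continuous_cy0 hv h).comp hct
    have c1u : Continuous fun θ => cy1 g u t θ := (continuous_cy1 hu g).comp hct
    have c1v : Continuous fun θ => cy1 h v t θ := (continuous_cy1 hv h).comp hct
    have cSu : Continuous fun θ => cyS g u t θ := (continuous_cyS hu g).comp hct
    have hcs : Continuous fun θ : Sph n => exp t • (θ : E n) := by fun_prop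
    have hsv : Continuous fun θ : Sph n => (scl β t v (θ : E n)) ^ (p + 1) / (p + 1) := by
      apply Continuous.div_const
      apply Continuous.rpow_const
      · unfold scl
        exact continuous_const.mul (hs.continuous_v.comp hcs)
      · exact fun θ => Or.inr (by linarith only [hp])
    have hsu : Continuous fun θ : Sph n => (scl α t u (θ : E n)) ^ (q + 1) / (q + 1) := by
      apply Continuous.div_const
      apply Continuous.rpow_const
      · unfold scl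
        exact continuous_const.mul (hs.continuous_u.comp hcs)
      · exact fun θ => Or.inr (by linarith only [hq])
    have hex : exp ((α - g) * t) * exp ((β - h) * t) =
        exp ((α + β - ((n : ℝ) - 2)) * t) := by
      rw [← exp_add]
      congr 1
      rw [hg, hh]
      ring
    have hexx : exp (-(α + β - ((n : ℝ) - 2)) * t) * exp ((α + β - ((n : ℝ) - 2)) * t) = 1 := by
      rw [← exp_add, neg_mul, neg_add_cancel, exp_zero]
    have hHam : Ham n p q d (scl α t u) (scl β t v) =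
        exp ((α + β - ((n : ℝ) - 2)) * t) * (∫ θ, cyS g u t θ * cy0 h v t θ ∂(sg n)) +
        (exp ((α + β - ((n : ℝ) - 2)) * t) *
          (∫ θ, (cy1 g u t θ * cy1 h v t θ -
            ((((n : ℝ) - 2) / 2) ^ 2 - d ^ 2) * (cy0 g u t θ * cy0 h v t θ)) ∂(sg n)) +
        ∫ θ : Sph n, ((scl β t v (θ : E n)) ^ (p + 1) / (p + 1) +
          (scl α t u (θ : E n)) ^ (q + 1) / (q + 1)) ∂(sg n)) := by
      rw [← integral_const_mul, ← integral_const_mul, ← integral_add, ← integral_add]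
      · unfold Ham
        congr 1
        ext θ
        obtain ⟨a0, a1, -, aS⟩ := cy_scl (α := α) hu g t 0 θ
        obtain ⟨b0, b1, -, -⟩ := cy_scl (α := β) hv h t 0 θ
        rw [zero_add] at a0 a1 aS b0 b1
        rw [← hg, ← hh, a0, a1, aS, b0, b1, ← hex]
        ring
      · exact integrable_cont (continuous_const.mul (cSu.mul c0v))
      · exact integrable_cont ((continuous_const.mul ((c1u.mul c1v).sub
          (continuous_const.mul (c0u.mul c0v)))).add (hsv.add hsu))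
      · exact integrable_cont (continuous_const.mul ((c1u.mul c1v).sub
          (continuous_const.mul (c0u.mul c0v))))
      · exact integrable_cont (hsv.add hsu)
    have hI2 : |∫ θ, cyS g u t θ * cy0 h v t θ ∂(sg n)| ≤
        (n : ℝ) ^ 2 * exp ((g + h) * t) * (Gu * Gv) * S := by
      rw [hSe]
      have het : exp t ≤ 1 := Real.exp_le_one_iff.2 ht
      apply form_bound hu hv g h t (M0 := exp (h * t) * Cv)
      · intro x hx
        have hx0 : x ≠ 0 := by
          rintro rfl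
          rw [norm_zero] at hx
          exact (exp_pos t).ne hx
        rw [← hx]
        exact hgu x hx0 (by rw [hx]; exact het)
      · intro x hx
        have hx0 : x ≠ 0 := by
          rintro rfl
          rw [norm_zero] at hx
          exact (exp_pos t).ne hx
        rw [← hx]
        exact hgv x hx0 (by rw [hx]; exact het)
      · exact fun θ => (bd_cy hh0.le hbv ht θ).1
    have hI1 : |∫ θ, (cy1 g u t θ * cy1 h v t θ -
        ((((n : ℝ) - 2) / 2) ^ 2 - d ^ 2) * (cy0 g u t θ * cy0 h v t θ)) ∂(sg n)| ≤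
        (exp ((g + h) * t) * (((g + 1) * Cu) * ((h + 1) * Cv) + l * (Cu * Cv))) * S := by
      rw [hSe, ← Real.norm_eq_abs]
      apply norm_integral_le_of_norm_le_const
      refine Filter.Eventually.of_forall fun θ => ?_
      obtain ⟨x0, x1⟩ := bd_cy (t := t) hg0.le hbu ht θ
      obtain ⟨y0, y1⟩ := bd_cy (t := t) hh0.le hbv ht θ
      rw [Real.norm_eq_abs]
      refine (abs_sub _ _).trans ?_
      rw [abs_mul, abs_mul, abs_mul, ← hl, add_mul g h t, exp_add]
      have hc1 := mul_le_mul x1 y1 (abs_nonneg _) (by (clear * - hg0 hCu; positivity))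
      have hc0 := mul_le_mul_of_nonneg_left (mul_le_mul x0 y0 (abs_nonneg _) (by (clear * - hCu; positivity))) hl0
      calc |cy1 g u t θ| * |cy1 h v t θ| + l * (|cy0 g u t θ| * |cy0 h v t θ|)
          ≤ (exp (g * t) * ((g + 1) * Cu)) * (exp (h * t) * ((h + 1) * Cv)) +
            l * ((exp (g * t) * Cu) * (exp (h * t) * Cv)) := add_le_add hc1 hc0
        _ = _ := by ring
    have hI4 : |∫ θ : Sph n, ((scl β t v (θ : E n)) ^ (p + 1) / (p + 1) +
          (scl α t u (θ : E n)) ^ (q + 1) / (q + 1)) ∂(sg n)| ≤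
        (exp (β * (p + 1) * t) * (Cv ^ (p + 1) / (p + 1)) +
          exp (α * (q + 1) * t) * (Cu ^ (q + 1) / (q + 1))) * S := by
      rw [hSe, ← Real.norm_eq_abs]
      apply norm_integral_le_of_norm_le_const
      refine Filter.Eventually.of_forall fun θ => ?_
      have hx := expsmul_ne_zero t θ
      have hx1 : ‖exp t • (θ : E n)‖ ≤ 1 := by
        rw [norm_expsmul]
        exact Real.exp_le_one_iff.2 ht
      have hvb := (abs_le.1 (hbv _ hx hx1).1).2
      have hub := (abs_le.1 (hbu _ hx hx1).1).2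
      have hv0 := (hs.pos_v (exp t • (θ : E n))).le
      have hu0 := (hs.pos_u (exp t • (θ : E n))).le
      have hpp : 0 < p + 1 := by linarith only [hp]
      have hqq : 0 < q + 1 := by linarith only [hq]
      have hr1 : (scl β t v (θ : E n)) ^ (p + 1) ≤ exp (β * (p + 1) * t) * Cv ^ (p + 1) := by
        unfold scl
        rw [Real.mul_rpow (exp_pos _).le hv0, ← Real.exp_mul]
        have : β * t * (p + 1) = β * (p + 1) * t := by ring
        rw [this]
        exact mul_le_mul_of_nonneg_left (Real.rpow_le_rpow hv0 hvb hpp.le) (exp_pos _).le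
      have hr2 : (scl α t u (θ : E n)) ^ (q + 1) ≤ exp (α * (q + 1) * t) * Cu ^ (q + 1) := by
        unfold scl
        rw [Real.mul_rpow (exp_pos _).le hu0, ← Real.exp_mul]
        have : α * t * (q + 1) = α * (q + 1) * t := by ring
        rw [this]
        exact mul_le_mul_of_nonneg_left (Real.rpow_le_rpow hu0 hub hqq.le) (exp_pos _).le
      have hn1 : 0 ≤ (scl β t v (θ : E n)) ^ (p + 1) := by
        apply Real.rpow_nonneg
        unfold scl
        exact mul_nonneg (exp_pos _).le hv0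
      have hn2 : 0 ≤ (scl α t u (θ : E n)) ^ (q + 1) := by
        apply Real.rpow_nonneg
        unfold scl
        exact mul_nonneg (exp_pos _).le hu0
      rw [Real.norm_eq_abs, abs_of_nonneg (by (clear * - hn1 hp hn2 hq; positivity)), ← mul_div_assoc, ← mul_div_assoc]
      (clear * - hr1 hp hr2 hq; gcongr)
    rw [hHam, mul_add, mul_add, ← mul_assoc, ← mul_assoc, hexx, one_mul, one_mul]
    refine (abs_add_le _ _).trans ?_
    have hb2 : |(∫ θ, (cy1 g u t θ * cy1 h v t θ -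
            ((((n : ℝ) - 2) / 2) ^ 2 - d ^ 2) * (cy0 g u t θ * cy0 h v t θ)) ∂(sg n)) +
        exp (-(α + β - ((n : ℝ) - 2)) * t) *
        ∫ θ : Sph n, ((scl β t v (θ : E n)) ^ (p + 1) / (p + 1) +
          (scl α t u (θ : E n)) ^ (q + 1) / (q + 1)) ∂(sg n)| ≤
        (exp ((g + h) * t) * (((g + 1) * Cu) * ((h + 1) * Cv) + l * (Cu * Cv))) * S +
        exp (-(α + β - ((n : ℝ) - 2)) * t) * ((exp (β * (p + 1) * t) * (Cv ^ (p + 1) / (p + 1)) +
          exp (α * (q + 1) * t) * (Cu ^ (q + 1) / (q + 1))) * S) := by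
      refine (abs_add_le _ _).trans (add_le_add hI1 ?_)
      rw [abs_mul, abs_of_pos (exp_pos _)]
      exact mul_le_mul_of_nonneg_left hI4 (exp_pos _).le
    refine (add_le_add hI2 hb2).trans (le_of_eq ?_)
    have hx1 : exp (e1 * t) = exp (-(α + β - ((n : ℝ) - 2)) * t) * exp (β * (p + 1) * t) := by
      rw [← exp_add, he1]
      congr 1
      ring
    have hx2 : exp (e2 * t) = exp (-(α + β - ((n : ℝ) - 2)) * t) * exp (α * (q + 1) * t) := by
      rw [← exp_add, he2]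
      congr 1
      ring
    rw [hK1, hK2, hK3, hx1, hx2]
    ring
  have hlim : ∀ e : ℝ, 0 < e → Tendsto (fun t => exp (e * t)) atBot (𝓝 0) := by
    intro e he
    exact Real.tendsto_exp_atBot.comp (Tendsto.const_mul_atBot he tendsto_id)
  have hT : Tendsto (fun t => K1 * exp ((g + h) * t) + K2 * exp (e1 * t) + K3 * exp (e2 * t))
      atBot (𝓝 0) := by
    have := (((hlim (g + h) (by (clear * - hg0 hh0; positivity))).const_mul K1).add
      ((hlim e1 he1p).const_mul K2)).add ((hlim e2 he2p).const_mul K3)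
    simpa only [mul_zero, add_zero] using this
  apply squeeze_zero_norm' _ hT
  filter_upwards [eventually_le_atBot (0 : ℝ)] with t ht
  rw [Real.norm_eq_abs]
  exact key t ht

end

end Vale.Agent.P100.RM
end
end

section

section

/-! Assembly of the local theorem (helper100). -/

open MeasureTheory Set Filter Topology Real

namespace Vale.Agent.P100.RM

noncomputable section

variable {n : ℕ}

/-- Three-term Young inequality. -/
lemma young3w {p q x y η : ℝ} (hp : 0 < p) (hq : 0 < q) (hpq : 1 < p * q) (hx : 0 < x) (hy : 0 < y)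
    (hη : 0 < η) : x * y ≤ η * (y ^ (p + 1) + x ^ (q + 1)) +
      η ^ (-((1 / (p + 1) + 1 / (q + 1)) / (1 - (1 / (p + 1) + 1 / (q + 1))))) := by
  set σ : ℝ := 1 / (p + 1) + 1 / (q + 1) with hσ
  have hp1 : 0 < p + 1 := by linarith only [hp]
  have hq1 : 0 < q + 1 := by linarith only [hq]
  have hσ1 : σ < 1 := by
    rw [hσ, div_add_div _ _ hp1.ne' hq1.ne', div_lt_one (by positivity)]
    nlinarith only [hpq]
  have hσ0 : 0 < σ := by positivity
  have h1 : 0 < 1 - σ := by linarith only [hσ1]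
  set k : ℝ := σ / (1 - σ) with hk
  have hw1 : 0 ≤ 1 / (q + 1) := by positivity
  have hw2 : 0 ≤ 1 / (p + 1) := by positivity
  have hA : 0 ≤ η * x ^ (q + 1) := by positivity
  have hB : 0 ≤ η * y ^ (p + 1) := by positivity
  have hC : 0 ≤ η ^ (-k) := by positivity
  have key := Real.geom_mean_le_arith_mean3_weighted hw1 hw2 h1.le hA hB hC
    (by rw [hσ]; ring)
  have e1 : (η * x ^ (q + 1)) ^ (1 / (q + 1)) = η ^ (1 / (q + 1)) * x := by
    rw [Real.mul_rpow hη.le (by positivity), ← Real.rpow_mul hx.le]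
    rw [mul_one_div_cancel hq1.ne', Real.rpow_one]
  have e2 : (η * y ^ (p + 1)) ^ (1 / (p + 1)) = η ^ (1 / (p + 1)) * y := by
    rw [Real.mul_rpow hη.le (by positivity), ← Real.rpow_mul hy.le]
    rw [mul_one_div_cancel hp1.ne', Real.rpow_one]
  have e3 : (η ^ (-k)) ^ (1 - σ) = η ^ (-σ) := by
    rw [← Real.rpow_mul hη.le]
    congr 1
    rw [hk]
    (clear * - h1 hσ0; field_simp)
  rw [e1, e2, e3] at key
  have e4 : η ^ (1 / (q + 1)) * x * (η ^ (1 / (p + 1)) * y) * η ^ (-σ) = x * y := by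
    have : η ^ (1 / (q + 1)) * η ^ (1 / (p + 1)) * η ^ (-σ) = 1 := by
      rw [← Real.rpow_add hη, ← Real.rpow_add hη]
      have : 1 / (q + 1) + 1 / (p + 1) + -σ = 0 := by rw [hσ]; ring
      rw [this, Real.rpow_zero]
    calc η ^ (1 / (q + 1)) * x * (η ^ (1 / (p + 1)) * y) * η ^ (-σ)
        = (η ^ (1 / (q + 1)) * η ^ (1 / (p + 1)) * η ^ (-σ)) * (x * y) := by ring
      _ = x * y := by rw [this, one_mul]
  rw [e4] at key
  have f1 : 1 / (q + 1) ≤ 1 := by rw [div_le_one hq1]; linarith only [hq]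
  have f2 : 1 / (p + 1) ≤ 1 := by rw [div_le_one hp1]; linarith only [hp]
  have g1 : 1 / (q + 1) * (η * x ^ (q + 1)) ≤ η * x ^ (q + 1) := by nlinarith only [hσ1, hA, hw2]
  have g2 : 1 / (p + 1) * (η * y ^ (p + 1)) ≤ η * y ^ (p + 1) := by nlinarith only [hσ1, hB, hw1]
  have g3 : (1 - σ) * η ^ (-k) ≤ η ^ (-k) := by nlinarith only [hσ0, hC]
  linarith only [key, g1, g2, g3]

lemma En_swapL (p q : ℝ) (u v : E n → ℝ) : En n q p v u = En n p q u v := by
  unfold En
  apply integral_congr_ae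
  filter_upwards with θ
  ring

lemma integrable_sphL {F : Sph n → ℝ} (hF : Continuous F) : Integrable F (sg n) :=
  hF.integrable_of_hasCompactSupport (HasCompactSupport.of_compactSpace F)

lemma continuous_restrictL {u : E n → ℝ} (hu : Continuous u) :
    Continuous (fun θ : Sph n => u (θ : E n)) := hu.comp continuous_subtype_val

lemma int_uv_le {p q A B : ℝ} (hp : 0 < p) (hq : 0 < q) (hpq : 1 < p * q) {u v : E n → ℝ}
    (hs : IsPositiveEntireSolution n p q A B u v) {η : ℝ} (hη : 0 < η) :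
    ∫ θ : Sph n, u (θ : E n) * v (θ : E n) ∂(sg n) ≤ η * En n p q u v +
      η ^ (-((1 / (p + 1) + 1 / (q + 1)) / (1 - (1 / (p + 1) + 1 / (q + 1))))) *
        (sg n).real univ := by
  set k := (1 / (p + 1) + 1 / (q + 1)) / (1 - (1 / (p + 1) + 1 / (q + 1)))
  have cu := continuous_restrictL (n := n) hs.continuous_u
  have cv := continuous_restrictL (n := n) hs.continuous_v
  have cE : Continuous (fun θ : Sph n => (v (θ : E n)) ^ (p + 1) + (u (θ : E n)) ^ (q + 1)) := by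
    apply Continuous.add
    · exact cv.rpow_const (fun θ => Or.inr (by linarith only [hp]))
    · exact cu.rpow_const (fun θ => Or.inr (by linarith))
  have h1 : ∫ θ : Sph n, u (θ : E n) * v (θ : E n) ∂(sg n) ≤
      ∫ θ : Sph n, (η * ((v (θ : E n)) ^ (p + 1) + (u (θ : E n)) ^ (q + 1)) + η ^ (-k)) ∂(sg n) := by
    apply integral_mono (integrable_sphL (cu.mul cv))
      (integrable_sphL ((continuous_const.mul cE).add continuous_const))
    intro θ
    exact young3w hp hq hpq (hs.pos_u _) (hs.pos_v _) hη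
  refine h1.trans (le_of_eq ?_)
  have i1 : Integrable (fun θ : Sph n => η * ((v (θ : E n)) ^ (p + 1) + (u (θ : E n)) ^ (q + 1)))
      (sg n) := integrable_sphL (continuous_const.mul cE)
  rw [integral_add i1 (integrable_const _), integral_const_mul, integral_const]
  unfold En
  rw [smul_eq_mul]
  ring

/-- Drift removal. -/
lemma Ham_drift {p q d : ℝ} (hp : 0 < p) (hq : 0 < q) {u v : E n → ℝ}
    (hu : ContDiffOn ℝ 2 u {0}ᶜ) (hv : ContDiffOn ℝ 2 v {0}ᶜ) (cu : Continuous u)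
    (cv : Continuous v) :
    Ham n p q d u v = Ham n p q 0 u v + d *
      ∫ θ, (u (θ : E n) * cy1 (((n : ℝ) - 2) / 2) v 0 θ -
        cy1 (((n : ℝ) - 2) / 2) u 0 θ * v (θ : E n)) ∂(sg n) := by
  have c0 : ∀ (g : ℝ) {w : E n → ℝ}, ContDiffOn ℝ 2 w {0}ᶜ → Continuous (fun θ : Sph n => cy0 g w 0 θ) :=
    fun g w hw => (continuous_cy0 hw g).comp (Continuous.prodMk continuous_const continuous_id)
  have c1 : ∀ (g : ℝ) {w : E n → ℝ}, ContDiffOn ℝ 2 w {0}ᶜ → Continuous (fun θ : Sph n => cy1 g w 0 θ) :=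
    fun g w hw => (continuous_cy1 hw g).comp (Continuous.prodMk continuous_const continuous_id)
  have cS : ∀ (g : ℝ) {w : E n → ℝ}, ContDiffOn ℝ 2 w {0}ᶜ → Continuous (fun θ : Sph n => cyS g w 0 θ) :=
    fun g w hw => (continuous_cyS hw g).comp (Continuous.prodMk continuous_const continuous_id)
  have cuS := continuous_restrictL (n := n) cu
  have cvS := continuous_restrictL (n := n) cv
  have cW : Continuous (fun θ : Sph n => (u (θ : E n) * cy1 (((n : ℝ) - 2) / 2) v 0 θ -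
        cy1 (((n : ℝ) - 2) / 2) u 0 θ * v (θ : E n))) :=
    (cuS.mul (c1 _ hv)).sub ((c1 _ hu).mul cvS)
  have cP : Continuous (fun θ : Sph n => (v (θ : E n)) ^ (p + 1) / (p + 1)) :=
    (cvS.rpow_const (fun θ => Or.inr (by linarith only [hp]))).div_const _
  have cQ : Continuous (fun θ : Sph n => (u (θ : E n)) ^ (q + 1) / (q + 1)) :=
    (cuS.rpow_const (fun θ => Or.inr (by linarith))).div_const _
  unfold Ham
  rw [← integral_const_mul, ← integral_add]
  · apply integral_congr_ae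
    filter_upwards with θ
    simp only [cy0, cy1, cyS, mul_zero, Real.exp_zero, one_mul, one_smul, add_zero, sub_zero]
    ring
  · apply integrable_sphL
    exact (((((c1 _ hu).mul (c1 _ hv)).add ((cS _ hu).mul (c0 _ hv))).sub
      (continuous_const.mul ((c0 _ hu).mul (c0 _ hv)))).add cP).add cQ
  · exact integrable_sphL (continuous_const.mul cW)

/-- Algebra of the collection step. -/
lemma loc_alg {T l a e I g kk C1 C2 C3 D H : ℝ} (hT : 0 < T) (hT1 : T ≤ 1) (hl0 : 0 < l)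
    (hlT : l ≤ T) (ha0 : 0 ≤ a) (he0 : 0 ≤ e) (hI0 : 0 ≤ I) (hC1 : 0 < C1) (hC2 : 0 < C2)
    (hC3 : 0 < C3) (hD : 0 ≤ D)
    (hH : H ≤ C1 / T * g + C1 / T ^ 2 * a + C1 * T * e + D * (g + kk))
    (hg1 : g ≤ C2 / l * a + C2 * T ^ 2 * (e + I)) (hk1 : kk ≤ C3 / l * a + C3 * T ^ 2 * (e + I)) :
    H ≤ (C1 + C1 * C2 + D * (C2 + C3)) * (1 / (T * l)) * a
      + (C1 + C1 * C2 + D * (C2 + C3)) * T * (e + I) := by
  have hTl : 1 / T ^ 2 ≤ 1 / (T * l) := by
    apply one_div_le_one_div_of_le (by positivity)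
    nlinarith only [hT, hlT]
  have hTl1 : 1 / l ≤ 1 / (T * l) := by
    apply one_div_le_one_div_of_le (by positivity)
    nlinarith only [hT1, hl0]
  have heI : 0 ≤ e + I := by linarith only [he0, hI0]
  have s1 : C1 / T * g ≤ C1 * C2 * (1 / (T * l)) * a + C1 * C2 * T * (e + I) := by
    have := mul_le_mul_of_nonneg_left hg1 (by positivity : 0 ≤ C1 / T)
    refine this.trans (le_of_eq ?_)
    (clear * - hl0 hC2 hT hC1; field_simp)
  have s2 : C1 / T ^ 2 * a ≤ C1 * (1 / (T * l)) * a := by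
    have : C1 / T ^ 2 = C1 * (1 / T ^ 2) := by ring
    rw [this]
    exact mul_le_mul_of_nonneg_right (mul_le_mul_of_nonneg_left hTl hC1.le) ha0
  have s3 : C1 * T * e ≤ C1 * T * (e + I) :=
    mul_le_mul_of_nonneg_left (by linarith only [hI0]) (by positivity)
  have hT2T : T ^ 2 ≤ T := by nlinarith only [hT, hT1]
  have r1 : C2 / l * a ≤ C2 * (1 / (T * l)) * a := by
    have : C2 / l = C2 * (1 / l) := by ring
    rw [this]
    exact mul_le_mul_of_nonneg_right (mul_le_mul_of_nonneg_left hTl1 hC2.le) ha0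
  have r2 : C3 / l * a ≤ C3 * (1 / (T * l)) * a := by
    have : C3 / l = C3 * (1 / l) := by ring
    rw [this]
    exact mul_le_mul_of_nonneg_right (mul_le_mul_of_nonneg_left hTl1 hC3.le) ha0
  have r3 : C2 * T ^ 2 * (e + I) ≤ C2 * T * (e + I) :=
    mul_le_mul_of_nonneg_right (mul_le_mul_of_nonneg_left hT2T hC2.le) heI
  have r4 : C3 * T ^ 2 * (e + I) ≤ C3 * T * (e + I) :=
    mul_le_mul_of_nonneg_right (mul_le_mul_of_nonneg_left hT2T hC3.le) heI
  have s4 : g + kk ≤ (C2 * (1 / (T * l)) * a + C2 * T * (e + I)) +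
      (C3 * (1 / (T * l)) * a + C3 * T * (e + I)) :=
    add_le_add (hg1.trans (add_le_add r1 r3)) (hk1.trans (add_le_add r2 r4))
  have s5 := mul_le_mul_of_nonneg_left s4 hD
  have key := hH.trans (add_le_add (add_le_add (add_le_add s1 s2) s3) s5)
  refine key.trans (le_of_eq ?_)
  ring

/-- Algebra of the last step. -/
lemma loc_alg2 {T l a e I C0 V m k1 H η : ℝ} (hT : 0 < T) (hl : l = T ^ m) (hη : η = T ^ (m + 2))
    (he0 : 0 ≤ e) (hI0 : 0 ≤ I) (hV0 : 0 ≤ V) (hC0 : 0 < C0)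
    (hH : H ≤ C0 * (1 / (T * l)) * a + C0 * T * (e + I))
    (hY : a ≤ η * e + η ^ (-k1) * V) :
    H ≤ 4 * C0 * (1 + V) * T * (e + I) + 4 * C0 * (1 + V) * T ^ (-(1 + m + (m + 2) * k1)) := by
  have hl0 : 0 < l := by rw [hl]; exact rpow_pos_of_pos hT _
  have eTl : 1 / (T * l) = T ^ (-(1 + m)) := by
    rw [hl, rpow_neg hT.le, rpow_add hT, rpow_one, one_div]
  have e1 : T ^ (-(1 + m)) * η = T := by
    rw [hη, ← rpow_add hT]
    have : -(1 + m) + (m + 2) = 1 := by ring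
    rw [this, rpow_one]
  have e2 : T ^ (-(1 + m)) * η ^ (-k1) = T ^ (-(1 + m + (m + 2) * k1)) := by
    rw [hη, ← rpow_mul hT.le, ← rpow_add hT]
    congr 1; ring
  have hfin : C0 * (1 / (T * l)) * a ≤ C0 * T * e +
      C0 * T ^ (-(1 + m + (m + 2) * k1)) * V := by
    have := mul_le_mul_of_nonneg_left hY (by positivity : 0 ≤ C0 * (1 / (T * l)))
    refine this.trans (le_of_eq ?_)
    rw [eTl]
    calc C0 * T ^ (-(1 + m)) * (η * e + η ^ (-k1) * V)
        = C0 * (T ^ (-(1 + m)) * η) * e + C0 * (T ^ (-(1 + m)) * η ^ (-k1)) * V := by ring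
      _ = _ := by rw [e1, e2]
  have hpw : 0 < T ^ (-(1 + m + (m + 2) * k1)) := rpow_pos_of_pos hT _
  generalize T ^ (-(1 + m + (m + 2) * k1)) = X at *
  have heI : 0 ≤ e + I := by linarith only [he0, hI0]
  have z1 : C0 * T * e ≤ C0 * T * (e + I) :=
    mul_le_mul_of_nonneg_left (by linarith only [hI0]) (by positivity)
  have z2 : C0 * T * (e + I) ≤ (C0 * (1 + V)) * T * (e + I) := by
    apply mul_le_mul_of_nonneg_right _ heI
    apply mul_le_mul_of_nonneg_right _ hT.le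
    exact le_mul_of_one_le_right hC0.le (by linarith only [hV0])
  have z3 : C0 * X * V ≤ C0 * (1 + V) * X := by
    have : 0 ≤ C0 * X := by (clear * - hC0 hpw; positivity)
    linarith only [this]
  have z4 : 0 ≤ C0 * (1 + V) * T * (e + I) := by (clear * - hC0 hV0 hT he0 hI0; positivity)
  have z5 : 0 ≤ C0 * (1 + V) * X := by (clear * - hC0 hV0 hpw; positivity)
  linarith only [hH, hfin, z1, z2, z3, z4, z5]

theorem loc (hn : 3 ≤ n) {p q A B : ℝ} (hp : 0 < p) (hq : 0 < q) (hpq : 1 < p * q) (hA : -2 < A)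
    (hB : -2 < B) (α β d : ℝ) : ∃ C k T0 : ℝ, 0 < C ∧ 0 < k ∧ 0 < T0 ∧
    ∀ u v : E n → ℝ, IsPositiveEntireSolution n p q A B u v → ∀ T : ℝ, 0 < T → T ≤ T0 →
      Ham n p q d u v ≤ C * T * (En n p q u v +
        ∫ s in (-(2 * T))..(2 * T), En n p q (scl α s u) (scl β s v)) + C * T ^ (-k) := by
  obtain ⟨C1, T1, hC1, hT1, H1⟩ := lim_ineq (n := n) hn hp hq hpq.le (A := A) (B := B)
  obtain ⟨C2, κ2, T2, hC2, hκ2, hT2, H2⟩ := line_bound (n := n) hn hp hq hA hB α β
  obtain ⟨C3, κ3, T3, hC3, hκ3, hT3, H3⟩ := line_bound (n := n) hn hq hp hB hA β α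
  set κ := min κ2 κ3 with hκdef
  have hκ : 0 < κ := lt_min hκ2 hκ3
  set m : ℝ := max 1 (2 / κ) with hm
  have hm1 : 1 ≤ m := le_max_left _ _
  have hmκ : 2 ≤ m * κ := by
    have : 2 / κ ≤ m := le_max_right _ _
    rwa [div_le_iff₀ hκ] at this
  set k1 : ℝ := (1 / (p + 1) + 1 / (q + 1)) / (1 - (1 / (p + 1) + 1 / (q + 1))) with hk1
  have hp1 : 0 < p + 1 := by linarith only [hp]
  have hq1 : 0 < q + 1 := by linarith only [hq]
  have hσ1 : (1 / (p + 1) + 1 / (q + 1)) < 1 := by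
    rw [div_add_div _ _ hp1.ne' hq1.ne', div_lt_one (by positivity)]
    nlinarith only [hpq]
  have hk1pos : 0 < k1 := div_pos (by positivity) (by linarith only [hσ1])
  set C0 : ℝ := C1 + C1 * C2 + |d| * (C2 + C3) with hC0
  have hC0pos : 0 < C0 := by (clear * - hC1 hC2 hC3; positivity)
  set V : ℝ := (sg n).real univ with hV
  have hV0 : 0 ≤ V := measureReal_nonneg
  refine ⟨4 * C0 * (1 + V), 1 + m + (m + 2) * k1, min (min T1 T2) (min T3 1), by (clear * - hC1 hC2 hC3; positivity),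
    by positivity, by (clear * - hT1 hT2 hT3; positivity), ?_⟩
  intro u v hs T hT hTle
  have hTT1 : T ≤ T1 := hTle.trans ((min_le_left _ _).trans (min_le_left _ _))
  have hTT2 : T ≤ T2 := hTle.trans ((min_le_left _ _).trans (min_le_right _ _))
  have hTT3 : T ≤ T3 := hTle.trans ((min_le_right _ _).trans (min_le_left _ _))
  have hTT4 : T ≤ 1 := hTle.trans ((min_le_right _ _).trans (min_le_right _ _))
  have hs' : IsPositiveEntireSolution n q p B A v u :=
    ⟨hs.contDiffOn_v, hs.contDiffOn_u, hs.continuous_v, hs.continuous_u, hs.pos_v, hs.pos_u,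
      hs.eq_v, hs.eq_u⟩
  set l : ℝ := T ^ m with hl
  have hl0 : 0 < l := rpow_pos_of_pos hT _
  have hlT : l ≤ T := by
    calc l = T ^ m := rfl
      _ ≤ T ^ (1 : ℝ) := rpow_le_rpow_of_exponent_ge hT hTT4 hm1
      _ = T := rpow_one T
  have hlk : ∀ κ' : ℝ, κ ≤ κ' → l ^ κ' ≤ T ^ 2 := by
    intro κ' hκ'
    calc l ^ κ' = T ^ (m * κ') := by rw [hl, ← rpow_mul hT.le]
      _ ≤ T ^ (2 : ℝ) := by
          apply rpow_le_rpow_of_exponent_ge hT hTT4
          exact hmκ.trans (mul_le_mul_of_nonneg_left hκ' (by linarith only [hm1]))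
      _ = T ^ 2 := by norm_num
  obtain ⟨G, hG0, hGi, hGr, hGb⟩ := H2 u v hs T l hl0 hlT hTT2
  obtain ⟨K, hK0, hKi, hKr, hKb⟩ := H3 v u hs' T l hl0 hlT hTT3
  have hL := H1 u v hs T hT hTT1 G hG0 hGi hGr
  set a : ℝ := ∫ θ : Sph n, u (θ : E n) * v (θ : E n) ∂(sg n) with ha
  set e : ℝ := En n p q u v with he
  set I : ℝ := ∫ s in (-(2 * T))..(2 * T), En n p q (scl α s u) (scl β s v) with hI
  set g : ℝ := ∫ θ, G θ * v (θ : E n) ∂(sg n) with hg
  set kk : ℝ := ∫ θ, K θ * u (θ : E n) ∂(sg n) with hkk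
  have ha' : ∫ θ : Sph n, v (θ : E n) * u (θ : E n) ∂(sg n) = a := by
    rw [ha]; congr 1; ext θ; ring
  have hI' : ∫ s in (-(2 * T))..(2 * T), En n q p (scl β s v) (scl α s u) = I := by
    rw [hI]; congr 1; ext s; exact En_swapL _ _ _ _
  have he' : En n q p v u = e := En_swapL _ _ _ _
  rw [ha', hI', he'] at hKb
  have ha0 : 0 ≤ a := integral_nonneg fun θ => (mul_pos (hs.pos_u _) (hs.pos_v _)).le
  have he0 : 0 ≤ e := integral_nonneg fun θ =>
    add_nonneg (rpow_nonneg (hs.pos_v _).le _) (rpow_nonneg (hs.pos_u _).le _)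
  have hI0 : 0 ≤ I := by
    apply intervalIntegral.integral_nonneg (by linarith only [hT])
    intro s _
    apply integral_nonneg
    intro θ
    apply add_nonneg
    · apply rpow_nonneg
      unfold scl
      exact (mul_pos (exp_pos _) (hs.pos_v _)).le
    · apply rpow_nonneg
      unfold scl
      exact (mul_pos (exp_pos _) (hs.pos_u _)).le
  -- the Wronskian
  have hW : |∫ θ, (u (θ : E n) * cy1 (((n : ℝ) - 2) / 2) v 0 θ -
        cy1 (((n : ℝ) - 2) / 2) u 0 θ * v (θ : E n)) ∂(sg n)| ≤ g + kk := by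
    rw [hg, hkk, ← integral_add hGi hKi]
    refine (abs_integral_le_integral_abs).trans ?_
    apply integral_mono_of_nonneg
    · filter_upwards with θ using abs_nonneg _
    · exact hGi.add hKi
    · filter_upwards [hGr, hKr] with θ h1 h2
      have h1' := h1 0 (by rw [abs_zero]; exact hT.le) le_rfl
      have h2' := h2 0 (by rw [abs_zero]; exact hT.le) le_rfl
      have hu := hs.pos_u (θ : E n)
      have hv := hs.pos_v (θ : E n)
      calc |u (θ : E n) * cy1 (((n : ℝ) - 2) / 2) v 0 θ -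
            cy1 (((n : ℝ) - 2) / 2) u 0 θ * v (θ : E n)|
          ≤ |u (θ : E n) * cy1 (((n : ℝ) - 2) / 2) v 0 θ| +
            |cy1 (((n : ℝ) - 2) / 2) u 0 θ * v (θ : E n)| := abs_sub _ _
        _ = u (θ : E n) * |cy1 (((n : ℝ) - 2) / 2) v 0 θ| +
            |cy1 (((n : ℝ) - 2) / 2) u 0 θ| * v (θ : E n) := by
            rw [abs_mul, abs_mul, abs_of_pos hu, abs_of_pos hv]
        _ ≤ G θ * v (θ : E n) + K θ * u (θ : E n) := by
            have := mul_le_mul_of_nonneg_left h2' hu.le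
            have := mul_le_mul_of_nonneg_right h1' hv.le
            (clear hn hp hq hpq hA hB α β d C1 T1 hC1 hT1 H1 C2 κ2 T2 hC2 hκ2 hT2 H2 C3 κ3 T3 hC3 hκ3 hT3 H3 κ hκdef hκ m hm hm1 hmκ k1 hk1 hp1 hq1 hσ1 hk1pos C0 hC0 hC0pos V hV hV0 hTle hTT1 hTT2 hTT3 hTT4 hs' l hl hl0 hlT hlk hG0 hGi hGr hK0 hKi hKr a ha e he I hI g hL hGb hg kk hKb hkk ha' hI' he' ha0 he0 hI0; linarith)
  have hdr := Ham_drift (d := d) hp hq hs.contDiffOn_u hs.contDiffOn_v hs.continuous_u
    hs.continuous_v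
  have hg0 : 0 ≤ g := integral_nonneg fun θ => mul_nonneg (hG0 θ) (hs.pos_v _).le
  have hkk0 : 0 ≤ kk := integral_nonneg fun θ => mul_nonneg (hK0 θ) (hs.pos_u _).le
  have hH : Ham n p q d u v ≤ C1 / T * g + C1 / T ^ 2 * a + C1 * T * e + |d| * (g + kk) := by
    rw [hdr]
    have := mul_le_mul_of_nonneg_left hW (abs_nonneg d)
    have h3 := le_abs_self (d * ∫ θ, (u (θ : E n) * cy1 (((n : ℝ) - 2) / 2) v 0 θ -
        cy1 (((n : ℝ) - 2) / 2) u 0 θ * v (θ : E n)) ∂(sg n))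
    rw [abs_mul] at h3
    linarith only [hL, this, h3]
  have hT2' : 0 < T ^ 2 := by (clear * - hT; positivity)
  have hg1 : g ≤ C2 / l * a + C2 * T ^ 2 * (e + I) := by
    refine hGb.trans (add_le_add le_rfl ?_)
    exact mul_le_mul_of_nonneg_right (mul_le_mul_of_nonneg_left (hlk κ2 (min_le_left _ _)) hC2.le)
      (add_nonneg he0 hI0)
  have hk1' : kk ≤ C3 / l * a + C3 * T ^ 2 * (e + I) := by
    refine hKb.trans (add_le_add le_rfl ?_)
    exact mul_le_mul_of_nonneg_right (mul_le_mul_of_nonneg_left (hlk κ3 (min_le_right _ _)) hC3.le)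
      (add_nonneg he0 hI0)
  have hH2 := loc_alg hT hTT4 hl0 hlT ha0 he0 hI0 hC1 hC2 hC3 (abs_nonneg d) hH hg1 hk1'
  rw [← hC0] at hH2
  have hη0 : 0 < T ^ (m + 2) := rpow_pos_of_pos hT _
  have hY := int_uv_le (n := n) hp hq hpq hs hη0
  rw [← hk1, ← ha, ← he, ← hV] at hY
  exact loc_alg2 hT hl rfl he0 hI0 hV0 hC0pos hH2 hY

end

end Vale.Agent.P100.RM
end
end

section

section

/-! Final assembly of the running-minimum proof (helper322). -/

open MeasureTheory Set Filter Topology Real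

namespace Vale.Agent.P100.RM

noncomputable section

variable {n : ℕ}

/-- Existence of the drift parameter. -/
lemma exists_drift {N p q A B α β : ℝ} (hN : 3 ≤ N) (hp : 0 < p) (hq : 0 < q)
    (hA : -2 < A) (hB : -2 < B) (h1 : α + 2 + A = β * p) (h2 : β + 2 + B = α * q)
    (hw : N - 2 < (N + A) / (p + 1) + (N + B) / (q + 1)) :
    ∃ d : ℝ, |d| < (N - 2) / 2 ∧
      0 < p * (β - (N - 2) / 2 + d) - (α - (N - 2) / 2 - d) ∧
      0 < q * (α - (N - 2) / 2 - d) - (β - (N - 2) / 2 + d) := by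
  have hp1 : 0 < p + 1 := by linarith only [hp]
  have hq1 : 0 < q + 1 := by linarith only [hq]
  set c : ℝ := (N - 2) / 2 with hc
  have hcp : 0 < c := by rw [hc]; linarith only [hN]
  have e1 : 0 < (N + A) / (p + 1) := div_pos (by linarith only [hN, hA]) hp1
  have e2 : 0 < (N + B) / (q + 1) := div_pos (by linarith only [hN, hB]) hq1
  have hlt : max (-c) (c - (N + A) / (p + 1)) < min c ((N + B) / (q + 1) - c) := by
    rw [max_lt_iff, lt_min_iff, lt_min_iff]
    refine ⟨⟨by linarith only [hcp], by linarith only [e2]⟩, ⟨by linarith only [e1], ?_⟩⟩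
    have : 2 * c = N - 2 := by rw [hc]; ring
    linarith
  obtain ⟨d, hd1, hd2⟩ := exists_between hlt
  rw [max_lt_iff] at hd1
  rw [lt_min_iff] at hd2
  refine ⟨d, abs_lt.2 ⟨hd1.1, hd2.1⟩, ?_, ?_⟩
  · have h3 : c - d < (N + A) / (p + 1) := by linarith only [hd1]
    rw [lt_div_iff₀ hp1] at h3
    have h4 : p * (β - c + d) - (α - c - d) = (β * p - α) - (c - d) * (p + 1) + 2 * c := by ring
    rw [h4]
    have : 2 * c = N - 2 := by rw [hc]; ring
    nlinarith only [h1, hc, h3]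
  · have h3 : c + d < (N + B) / (q + 1) := by linarith only [hd2]
    rw [lt_div_iff₀ hq1] at h3
    have h4 : q * (α - c - d) - (β - c + d) = (α * q - β) - (c + d) * (q + 1) + 2 * c := by ring
    rw [h4]
    have : 2 * c = N - 2 := by rw [hc]; ring
    nlinarith only [h2, hc, h3]

/-- Abstract growth. -/
lemma grow_abs {Hc J e : ℝ → ℝ} {δ c0 : ℝ} (hδ : 0 < δ) (hc0 : 0 < c0) (he : ∀ t, 0 < e t)
    (hec : Continuous e) (hJc : Continuous J) (hJ : ∀ t, c0 * e t ≤ J t)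
    (hg : ∀ t1 t2, t1 ≤ t2 → exp (-δ * t2) * Hc t2 - exp (-δ * t1) * Hc t1 =
      ∫ s in t1..t2, exp (-δ * s) * J s)
    (hl : Tendsto (fun t => exp (-δ * t) * Hc t) atBot (𝓝 0)) :
    (∀ t1 t2, t1 ≤ t2 → Hc t1 + c0 * (∫ s in t1..t2, e s) ≤ Hc t2) ∧
      Tendsto Hc atTop atTop := by
  have hJ0 : ∀ t, 0 < J t := fun t => lt_of_lt_of_le (mul_pos hc0 (he t)) (hJ t)
  have hFc : Continuous fun s => exp (-δ * s) * J s := by fun_prop
  have hF0 : ∀ s, 0 < exp (-δ * s) * J s := fun s => mul_pos (exp_pos _) (hJ0 s)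
  have hmono : ∀ t1 t2, t1 ≤ t2 → exp (-δ * t1) * Hc t1 ≤ exp (-δ * t2) * Hc t2 := by
    intro t1 t2 h12
    have h3 : 0 ≤ ∫ s in t1..t2, exp (-δ * s) * J s :=
      intervalIntegral.integral_nonneg h12 fun s _ => (hF0 s).le
    linarith only [h3, hg t1 t2 h12]
  have hnn : ∀ t, 0 ≤ exp (-δ * t) * Hc t := by
    intro t
    refine le_of_tendsto hl ?_
    filter_upwards [Filter.eventually_le_atBot t] with s hs
    exact hmono s t hs
  have hH0 : ∀ t, 0 ≤ Hc t := by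
    intro t
    have := hnn t
    by_contra hc
    push Not at hc
    have := mul_neg_of_pos_of_neg (exp_pos (-δ * t)) hc
    (clear hδ hec hJc hFc; linarith)
  have hstrict : 0 < exp (-δ * 0) * Hc 0 := by
    have h1 : 0 < ∫ s in (-1 : ℝ)..0, exp (-δ * s) * J s := by
      apply intervalIntegral.intervalIntegral_pos_of_pos (hFc.intervalIntegrable _ _) hF0
      norm_num
    have h2 := hg (-1) 0 (by norm_num)
    have h3 := hnn (-1)
    linarith
  constructor
  · intro t1 t2 h12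
    have h1 := hg t1 t2 h12
    have h2 : Hc t2 = exp (δ * (t2 - t1)) * Hc t1 +
        exp (δ * t2) * ∫ s in t1..t2, exp (-δ * s) * J s := by
      have h3 : exp (-δ * t2) * Hc t2 = exp (-δ * t1) * Hc t1 +
          ∫ s in t1..t2, exp (-δ * s) * J s := by linarith only [h1]
      have h4 : Hc t2 = exp (δ * t2) * (exp (-δ * t2) * Hc t2) := by
        rw [← mul_assoc, ← Real.exp_add]
        have : δ * t2 + -δ * t2 = 0 := by ring
        rw [this, Real.exp_zero, one_mul]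
      rw [h4, h3, mul_add, ← mul_assoc, ← Real.exp_add]
      congr 2
      congr 1
      ring
    have h5 : Hc t1 ≤ exp (δ * (t2 - t1)) * Hc t1 := by
      have : 1 ≤ exp (δ * (t2 - t1)) := Real.one_le_exp (mul_nonneg hδ.le (by linarith))
      nlinarith only [this, hH0 t1]
    have h6 : c0 * (∫ s in t1..t2, e s) ≤ exp (δ * t2) * ∫ s in t1..t2, exp (-δ * s) * J s := by
      rw [← intervalIntegral.integral_const_mul, ← intervalIntegral.integral_const_mul]
      apply intervalIntegral.integral_mono_on h12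
      · exact (hec.const_mul c0).intervalIntegrable _ _
      · exact (hFc.const_mul _).intervalIntegrable _ _
      · intro s hs
        rw [← mul_assoc, ← Real.exp_add]
        have h7 : 1 ≤ exp (δ * t2 + -δ * s) := by
          apply Real.one_le_exp
          nlinarith only [hδ, hs.2]
        nlinarith only [h7, hJ s, hJ0 s]
    linarith only [h2, h5, h6]
  · have h1 : ∀ t, 0 ≤ t → exp (δ * t) * Hc 0 ≤ Hc t := by
      intro t ht
      have h2 := hmono 0 t ht
      have h4 : Hc t = exp (δ * t) * (exp (-δ * t) * Hc t) := by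
        rw [← mul_assoc, ← Real.exp_add]
        have : δ * t + -δ * t = 0 := by ring
        rw [this, Real.exp_zero, one_mul]
      rw [h4]
      apply mul_le_mul_of_nonneg_left _ (exp_pos _).le
      simpa only [neg_mul, mul_zero, exp_zero, one_mul] using h2
    have hH00 : 0 < Hc 0 := by simpa using hstrict
    apply tendsto_atTop_mono' atTop (f₁ := fun t => exp (δ * t) * Hc 0)
    · filter_upwards [Filter.eventually_ge_atTop 0] with t ht
      exact h1 t ht
    · apply Tendsto.atTop_mul_const hH00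
      exact Real.tendsto_exp_atTop.comp (tendsto_id.const_mul_atTop hδ)

/-- Continuity in time of weighted energies. -/
lemma continuous_EnW {p q α β : ℝ} (hp : 0 < p) (hq : 0 < q) (k1 k2 : ℝ) {u v : E n → ℝ}
    (hu : Continuous u) (hv : Continuous v) :
    Continuous (fun t => ∫ θ : Sph n, (k1 * (scl β t v (θ : E n)) ^ (p + 1) +
      k2 * (scl α t u (θ : E n)) ^ (q + 1)) ∂(sg n)) := by
  have hc : ∀ (a : ℝ) (w : E n → ℝ), Continuous w →
      Continuous (fun x : ℝ × Sph n => scl a x.1 w (x.2 : E n)) := by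
    intro a w hw
    unfold scl
    have h1 : Continuous fun x : ℝ × Sph n => exp x.1 • (x.2 : E n) :=
      (Real.continuous_exp.comp continuous_fst).smul (continuous_subtype_val.comp continuous_snd)
    exact (Real.continuous_exp.comp (continuous_const.mul continuous_fst)).mul (hw.comp h1)
  have hF : Continuous (fun x : ℝ × Sph n => k1 * (scl β x.1 v (x.2 : E n)) ^ (p + 1) +
      k2 * (scl α x.1 u (x.2 : E n)) ^ (q + 1)) :=
    (((hc β v hv).rpow_const fun x => Or.inr (by linarith only [hp])).const_mul k1).add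
      (((hc α u hu).rpow_const fun x => Or.inr (by linarith)).const_mul k2)
  have h := continuous_parametric_integral_of_continuous (μ := sg n) (s := (Set.univ : Set (Sph n)))
    (f := fun t (θ : Sph n) => k1 * (scl β t v (θ : E n)) ^ (p + 1) +
      k2 * (scl α t u (θ : E n)) ^ (q + 1))
    hF isCompact_univ
  simpa only [Measure.restrict_univ] using h

lemma sg_univ_pos (hn : 3 ≤ n) : 0 < sg n univ := by
  unfold sg
  have : Nonempty (Fin n) := ⟨⟨0, by omega⟩⟩
  have : Nontrivial (E n) := inferInstance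
  have h : ((volume : Measure (E n)).toSphere) univ ≠ 0 := by
    rw [MeasureTheory.Measure.toSphere_apply_univ]
    have h1 : (Module.finrank ℝ (E n) : ENNReal) ≠ 0 := by
      rw [finrank_euclideanSpace_fin]
      exact_mod_cast (by omega : n ≠ 0)
    have h2 : (volume : Measure (E n)) (Metric.ball 0 1) ≠ 0 :=
      (Metric.measure_ball_pos volume (0 : E n) one_pos).ne'
    exact mul_ne_zero h1 h2
  exact pos_iff_ne_zero.2 h

lemma En_pos (hn : 3 ≤ n) {p q : ℝ} (hp : 0 < p) (hq : 0 < q) {u v : E n → ℝ}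
    (hu : Continuous u) (hv : Continuous v) (pu : ∀ x, 0 < u x) (pv : ∀ x, 0 < v x) :
    0 < En n p q u v := by
  unfold En
  have hcont : Continuous fun θ : Sph n => (v (θ : E n)) ^ (p + 1) + (u (θ : E n)) ^ (q + 1) :=
    ((hv.comp continuous_subtype_val).rpow_const fun x => Or.inr (by linarith only [hp])).add
      ((hu.comp continuous_subtype_val).rpow_const fun x => Or.inr (by linarith only [hq]))
  have hpos : ∀ θ : Sph n, 0 < (v (θ : E n)) ^ (p + 1) + (u (θ : E n)) ^ (q + 1) := fun θ =>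
    add_pos (rpow_pos_of_pos (pv _) _) (rpow_pos_of_pos (pu _) _)
  have hint : Integrable (fun θ : Sph n => (v (θ : E n)) ^ (p + 1) + (u (θ : E n)) ^ (q + 1))
      (sg n) := hcont.integrable_of_hasCompactSupport (HasCompactSupport.of_compactSpace _)
  rw [integral_pos_iff_support_of_nonneg (fun θ => (hpos θ).le) hint]
  have : Function.support (fun θ : Sph n => (v (θ : E n)) ^ (p + 1) + (u (θ : E n)) ^ (q + 1))
      = univ := by
    ext θ
    simp [(hpos θ).ne']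
  rw [this]
  exact sg_univ_pos hn

/-- The growth package for the rescaled Hamiltonian. -/
lemma growth_pack (hn : 3 ≤ n) {p q A B α β d : ℝ} (hp : 0 < p) (hq : 0 < q) (hA : -2 < A)
    (hB : -2 < B) (h1 : α + 2 + A = β * p) (h2 : β + 2 + B = α * q)
    (hδ : 0 < α + β - ((n : ℝ) - 2))
    (hd : |d| < ((n : ℝ) - 2) / 2)
    (hω1 : 0 < p * (β - ((n : ℝ) - 2) / 2 + d) - (α - ((n : ℝ) - 2) / 2 - d))
    (hω2 : 0 < q * (α - ((n : ℝ) - 2) / 2 - d) - (β - ((n : ℝ) - 2) / 2 + d))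
    {u v : E n → ℝ} (hs : IsPositiveEntireSolution n p q A B u v) :
    ∃ c0 : ℝ, 0 < c0 ∧
      (∀ t1 t2, t1 ≤ t2 → Ham n p q d (scl α t1 u) (scl β t1 v) +
        c0 * (∫ s in t1..t2, En n p q (scl α s u) (scl β s v)) ≤
          Ham n p q d (scl α t2 u) (scl β t2 v)) ∧
      Tendsto (fun t => Ham n p q d (scl α t u) (scl β t v)) atTop atTop := by
  set k1 : ℝ := (p * (β - ((n : ℝ) - 2) / 2 + d) - (α - ((n : ℝ) - 2) / 2 - d)) / (p + 1) with hk1
  set k2 : ℝ := (q * (α - ((n : ℝ) - 2) / 2 - d) - (β - ((n : ℝ) - 2) / 2 + d)) / (q + 1) with hk2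
  have hk1p : 0 < k1 := div_pos hω1 (by linarith only [hp])
  have hk2p : 0 < k2 := div_pos hω2 (by linarith only [hq])
  have hpos : ∀ s, (∀ x, 0 < scl α s u x) ∧ ∀ x, 0 < scl β s v x := fun s =>
    ⟨fun x => mul_pos (exp_pos _) (hs.pos_u _), fun x => mul_pos (exp_pos _) (hs.pos_v _)⟩
  have hcu : ∀ s, Continuous (scl α s u) := fun s =>
    continuous_const.mul (hs.continuous_u.comp (continuous_const_smul _))
  have hcv : ∀ s, Continuous (scl β s v) := fun s =>
    continuous_const.mul (hs.continuous_v.comp (continuous_const_smul _))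
  refine ⟨min k1 k2, lt_min hk1p hk2p, ?_⟩
  apply grow_abs (δ := α + β - ((n : ℝ) - 2)) hδ (lt_min hk1p hk2p)
    (e := fun s => En n p q (scl α s u) (scl β s v))
    (J := fun s => ∫ θ : Sph n, (k1 * (scl β s v (θ : E n)) ^ (p + 1) +
      k2 * (scl α s u (θ : E n)) ^ (q + 1)) ∂(sg n))
    (fun t => En_pos hn hp hq (hcu t) (hcv t) (hpos t).1 (hpos t).2)
    (continuous_En hp hq hs.continuous_u hs.continuous_v hs.pos_u hs.pos_v)
    (continuous_EnW hp hq k1 k2 hs.continuous_u hs.continuous_v)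
  · intro t
    unfold En
    rw [← integral_const_mul]
    have hc1 : Continuous fun θ : Sph n => (scl β t v (θ : E n)) ^ (p + 1) :=
      ((hcv t).comp continuous_subtype_val).rpow_const fun x => Or.inr (by linarith only [hp])
    have hc2 : Continuous fun θ : Sph n => (scl α t u (θ : E n)) ^ (q + 1) :=
      ((hcu t).comp continuous_subtype_val).rpow_const fun x => Or.inr (by linarith only [hq])
    apply integral_mono
    · exact ((hc1.add hc2).const_mul _).integrable_of_hasCompactSupport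
        (HasCompactSupport.of_compactSpace _)
    · exact ((hc1.const_mul k1).add (hc2.const_mul k2)).integrable_of_hasCompactSupport
        (HasCompactSupport.of_compactSpace _)
    · intro θ
      have e1 : 0 ≤ (scl β t v (θ : E n)) ^ (p + 1) := (rpow_pos_of_pos ((hpos t).2 _) _).le
      have e2 : 0 ≤ (scl α t u (θ : E n)) ^ (q + 1) := (rpow_pos_of_pos ((hpos t).1 _) _).le
      have e3 := mul_le_mul_of_nonneg_right (min_le_left k1 k2) e1
      have e4 := mul_le_mul_of_nonneg_right (min_le_right k1 k2) e2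
      simp only
      linarith only [e3, e4]
  · intro t1 t2 h12
    exact grow hn hp hq hA hB h1 h2 hd hs h12
  · exact grow_lim hn hp hq hA hB h1 h2 hd hω1 hω2 hs

/-- **The Henon-Lane-Emden conjecture for `n ≥ 3`, `p q > 1`, `A, B > -2`.** -/
theorem no_solution_rm (hn : 3 ≤ n) {p q A B : ℝ} (hp : 0 < p) (hq : 0 < q) (hpq : 1 < p * q)
    (hA : -2 < A) (hB : -2 < B)
    (hw : (n : ℝ) - 2 < ((n : ℝ) + A) / (p + 1) + ((n : ℝ) + B) / (q + 1)) :
    ¬ ∃ u v : E n → ℝ, IsPositiveEntireSolution n p q A B u v := by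
  rintro ⟨u, v, hs⟩
  have hpq1 : 0 < p * q - 1 := by linarith only [hpq]
  set α : ℝ := (2 + A + p * (2 + B)) / (p * q - 1) with hα
  set β : ℝ := (2 + B + q * (2 + A)) / (p * q - 1) with hβ
  have e3 : α * (p * q - 1) = 2 + A + p * (2 + B) := by
    rw [hα]
    exact div_mul_cancel₀ _ hpq1.ne'
  have e4 : β * (p * q - 1) = 2 + B + q * (2 + A) := by
    rw [hβ]
    exact div_mul_cancel₀ _ hpq1.ne'
  have h1 : α + 2 + A = β * p := by
    apply mul_right_cancel₀ hpq1.ne'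
    linear_combination e3 - p * e4
  have h2 : β + 2 + B = α * q := by
    apply mul_right_cancel₀ hpq1.ne'
    linear_combination e4 - q * e3
  have hn3 : (3 : ℝ) ≤ n := by exact_mod_cast hn
  have hδ : 0 < α + β - ((n : ℝ) - 2) := by
    have e1 : α + β = (2 + A + p * (2 + B) + (2 + B + q * (2 + A))) / (p * q - 1) := by
      rw [hα, hβ]
      ring
    have e2 : ((n : ℝ) + A) / (p + 1) + ((n : ℝ) + B) / (q + 1) =
        (((n : ℝ) + A) * (q + 1) + ((n : ℝ) + B) * (p + 1)) / ((p + 1) * (q + 1)) := by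
      (clear * - hq hp; field_simp)
    rw [e2, lt_div_iff₀ (by positivity)] at hw
    rw [e1, sub_pos, lt_div_iff₀ hpq1]
    nlinarith only [hw]
  obtain ⟨d, hd, hω1, hω2⟩ := exists_drift hn3 hp hq hA hB h1 h2 hw
  obtain ⟨c0, hc0, hgrow, hlim⟩ := growth_pack hn hp hq hA hB h1 h2 hδ hd hω1 hω2 hs
  obtain ⟨C, k, T0, hC, hk, hT0, hloc⟩ := loc hn hp hq hpq hA hB α β d
  refine iter (H := fun t => Ham n p q d (scl α t u) (scl β t v))
    (e := fun t => En n p q (scl α t u) (scl β t v)) ?_ ?_ hc0 hC hk hT0 hgrow hlim ?_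
  · intro t
    exact (En_pos hn hp hq (continuous_const.mul (hs.continuous_u.comp (continuous_const_smul _)))
      (continuous_const.mul (hs.continuous_v.comp (continuous_const_smul _)))
      (fun x => mul_pos (exp_pos _) (hs.pos_u _)) (fun x => mul_pos (exp_pos _) (hs.pos_v _))).le
  · exact continuous_En hp hq hs.continuous_u hs.continuous_v hs.pos_u hs.pos_v
  · intro t T hT hT1
    have h3 := hloc _ _ (scl_sol hs h1 h2 t) T hT hT1
    have h4 : (∫ s in (-(2 * T))..(2 * T), En n p q (scl α s (scl α t u)) (scl β s (scl β t v))) =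
        ∫ s in (t - 2 * T)..(t + 2 * T), En n p q (scl α s u) (scl β s v) := by
      have h5 : (fun s => En n p q (scl α s (scl α t u)) (scl β s (scl β t v))) =
          fun s => (fun r => En n p q (scl α r u) (scl β r v)) (s + t) := by
        funext s
        rw [scl_scl, scl_scl]
      rw [h5, intervalIntegral.integral_comp_add_right
        (fun r => En n p q (scl α r u) (scl β r v)) t]
      congr 1 <;> ring
    rw [h4] at h3
    exact h3

end

end Vale.Agent.P100.RM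
end
end

section

section

/-! The Henon-Lane-Emden conjecture in full: union of the running-minimum theorem with the
elementary cases (`A ≤ -2`, `B ≤ -2`, `n = 2`, `p q ≤ 1`). -/

open MeasureTheory Set Filter Topology Real

namespace Vale.Agent.P100.RM

/-- **The Henon-Lane-Emden conjecture**: for subcritical parameters (and whenever `A ≤ -2` or
`B ≤ -2`) the system has no positive entire solution. -/
theorem no_solution_all {n : ℕ} (hn : 2 ≤ n) {p q A B : ℝ} (hp : 0 < p) (hq : 0 < q)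
    (h : A ≤ -2 ∨ B ≤ -2 ∨
      (n : ℝ) - 2 < ((n : ℝ) + A) / (p + 1) + ((n : ℝ) + B) / (q + 1)) :
    ¬ ∃ u v : EuclideanSpace ℝ (Fin n) → ℝ, IsPositiveEntireSolution n p q A B u v := by
  rcases le_or_gt A (-2) with hA | hA
  · exact no_solution_region1 hn hp hq (Or.inl hA)
  rcases le_or_gt B (-2) with hB | hB
  · exact no_solution_region1 hn hp hq (Or.inr (Or.inl hB))
  have hn2 : (2 : ℝ) ≤ n := by exact_mod_cast hn
  have hpos1 : 0 < 2 + A + p * (2 + B) := by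
    have : 0 < p * (2 + B) := mul_pos hp (by linarith only [hB])
    linarith only [hA, this]
  have hpos2 : 0 < 2 + B + q * (2 + A) := by
    have : 0 < q * (2 + A) := mul_pos hq (by linarith only [hA])
    linarith only [hB, this]
  rcases le_or_gt (p * q) 1 with hpq | hpq
  · have h1 : (p * q - 1) * ((n : ℝ) - 2) ≤ 0 :=
      mul_nonpos_of_nonpos_of_nonneg (by linarith only [hpq]) (by linarith only [hn2])
    exact no_solution_region1 hn hp hq (Or.inr (Or.inr ⟨by linarith only [hpos1, h1], by linarith only [hpos2, h1]⟩))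
  rcases Nat.lt_or_ge n 3 with hn3 | hn3
  · have h2 : n = 2 := by omega
    subst h2
    refine no_solution_region1 hn hp hq (Or.inr (Or.inr ⟨?_, ?_⟩))
    · norm_num
      linarith only [hpos1]
    · norm_num
      linarith only [hpos2]
  rcases h with h | h | h
  · linarith only [hA, h]
  · linarith only [hB, h]
  · exact no_solution_rm hn3 hp hq hpq hA hB h

end Vale.Agent.P100.RM
end
end
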